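import Mathlib

/-!
The objects of the continuum phase-transition question: pair energy, stability,
temperedness, canonical and grand canonical partition functions on the cube `[0,L]^3`.
-/

open MeasureTheory Filter Topology
open scoped BigOperators

namespace Vale.Agent.P171

/-- Three-dimensional Euclidean space. -/
abbrev R3 : Type := EuclideanSpace ℝ (Fin 3)

/-- `U_N(x) = Σ_{i<j} φ(|x_i - x_j|)`. -/
noncomputable def pairEnergy (φ : ℝ → ℝ) (N : ℕ) (x : Fin N → R3) : ℝ :=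
  ∑ i, ∑ j ∈ Finset.Ioi i, φ (dist (x i) (x j))

/-- The potential is stable. -/
def IsStable (φ : ℝ → ℝ) : Prop :=
  ∃ B : ℝ, ∀ (N : ℕ) (x : Fin N → R3), Function.Injective x → -B * N ≤ pairEnergy φ N x

/-- The potential is tempered. -/
def IsTempered (φ : ℝ → ℝ) : Prop :=
  ∃ C ε R₀ : ℝ, 0 < C ∧ 0 < ε ∧ 0 < R₀ ∧ ∀ r, R₀ ≤ r → φ r ≤ C * r ^ (-3 - ε)

/-- The closed cube `[0,L]^3`. -/
def cube (L : ℝ) : Set R3 := {x | ∀ k, x k ∈ Set.Icc 0 L}

/-- All `N`-tuples of points of `[0,L]^3`. -/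
def cubeTuples (L : ℝ) (N : ℕ) : Set (Fin N → R3) := Set.univ.pi (fun _ => cube L)

/-- The canonical partition function `Z_{L,N}(β)`. -/
noncomputable def canonicalZ (φ : ℝ → ℝ) (β L : ℝ) (N : ℕ) : ℝ :=
  (N.factorial : ℝ)⁻¹ * ∫ x in cubeTuples L N, Real.exp (-β * pairEnergy φ N x)

/-- The grand canonical partition function `Σ_N z^N Z_{L,N}(β)`. -/
noncomputable def grandZ (φ : ℝ → ℝ) (β z L : ℝ) : ℝ :=
  ∑' N : ℕ, z ^ N * canonicalZ φ β L N

end Vale.Agent.P171
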