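import Mathlib
import Vale.Agent.P171.Defs

/-!
Grand canonical sums `Z m H = Σ_n 1/n! ∫ exp (H n x) d(m^n)` for exponents `H`:
splitting over sums of measures, Hölder interpolation, translation invariance.
-/

open MeasureTheory Filter Topology
open scoped BigOperators ENNReal

namespace Vale.Agent.P171

/-- An exponent: one function on `n`-tuples for each `n`. -/
abbrev Expo : Type := (n : ℕ) → (Fin n → R3) → ℝ

/-- Grand canonical sum of an exponent with respect to a one-particle measure. -/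
noncomputable def gz (m : Measure R3) (H : Expo) : ℝ≥0∞ :=
  ∑' n : ℕ, (n.factorial : ℝ≥0∞)⁻¹ *
    ∫⁻ x, ENNReal.ofReal (Real.exp (H n x)) ∂(Measure.pi fun _ : Fin n => m)

lemma gz_le_of_ae {m : Measure R3} {H K : Expo}
    (h : ∀ n, ∀ᵐ x ∂(Measure.pi fun _ : Fin n => m), H n x ≤ K n x) :
    gz m H ≤ gz m K := by
  refine ENNReal.tsum_le_tsum fun n => ?_
  gcongr 1
  refine lintegral_mono_ae ((h n).mono fun x hx => ?_)
  exact ENNReal.ofReal_le_ofReal (Real.exp_le_exp.2 hx)

lemma gz_mono {m : Measure R3} {H K : Expo} (h : ∀ n x, H n x ≤ K n x) :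
    gz m H ≤ gz m K :=
  gz_le_of_ae fun n => Filter.Eventually.of_forall (h n)

lemma gz_const_mul (m : Measure R3) (H : Expo) (c : ℝ) :
    gz m (fun n x => c + H n x) = ENNReal.ofReal (Real.exp c) * gz m H := by
  unfold gz
  rw [← ENNReal.tsum_mul_left]
  refine tsum_congr fun n => ?_
  simp only [Real.exp_add, ENNReal.ofReal_mul (Real.exp_pos c).le]
  rw [lintegral_const_mul' _ _ ENNReal.ofReal_ne_top]
  ring

lemma one_le_gz (m : Measure R3) (H : Expo) (h0 : ∀ x, H 0 x = 0) : 1 ≤ gz m H := by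
  unfold gz
  refine le_trans ?_ (ENNReal.le_tsum 0)
  simp [h0]

lemma gz_linear (m : Measure R3) [IsFiniteMeasure m] (r : ℝ) :
    gz m (fun n _ => r * n)
      = ENNReal.ofReal (Real.exp ((m Set.univ).toReal * Real.exp r)) := by
  set V := (m Set.univ).toReal with hV
  have hsum : HasSum (fun n : ℕ => (V * Real.exp r) ^ n / n.factorial)
      (Real.exp (V * Real.exp r)) := by
    rw [Real.exp_eq_exp_ℝ]
    exact NormedSpace.expSeries_div_hasSum_exp _
  have hnn : ∀ n : ℕ, 0 ≤ (V * Real.exp r) ^ n / n.factorial := fun n => by positivity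
  rw [← hsum.tsum_eq, ENNReal.ofReal_tsum_of_nonneg hnn hsum.summable]
  unfold gz
  refine tsum_congr fun n => ?_
  rw [lintegral_const, Measure.pi_univ, Finset.prod_const, Finset.card_fin,
    ENNReal.ofReal_div_of_pos (by positivity), mul_pow, ENNReal.ofReal_mul (by positivity),
    ENNReal.ofReal_pow ENNReal.toReal_nonneg, ENNReal.ofReal_toReal (measure_ne_top _ _),
    ← Real.exp_nat_mul, mul_comm r, ENNReal.ofReal_natCast]
  rw [div_eq_mul_inv]
  ring

/-- Expansion of a product of sums of measures. -/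
lemma pi_sum_measure {ι : Type*} [Fintype ι] (n : ℕ) (m : ι → Measure R3)
    [∀ i, IsFiniteMeasure (m i)] :
    (Measure.pi fun _ : Fin n => ∑ i, m i)
      = ∑ σ : Fin n → ι, Measure.pi fun k => m (σ k) := by
  classical
  refine Measure.pi_eq fun s _ => ?_
  rw [Measure.coe_finsetSum, Finset.sum_apply]
  simp only [Measure.pi_pi, Measure.coe_finsetSum, Finset.sum_apply]
  rw [Finset.prod_sum]
  refine Finset.sum_bij' (fun σ _ => fun k _ => σ k) (fun p _ => fun k => p k (Finset.mem_univ k))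
    ?_ ?_ ?_ ?_ ?_ <;> simp

lemma pi_add_measure (n : ℕ) (m₀ m₁ : Measure R3) [IsFiniteMeasure m₀] [IsFiniteMeasure m₁] :
    (Measure.pi fun _ : Fin n => m₀ + m₁)
      = ∑ S : Finset (Fin n), Measure.pi fun k => if k ∈ S then m₁ else m₀ := by
  classical
  refine Measure.pi_eq fun s _ => ?_
  rw [Measure.coe_finsetSum, Finset.sum_apply]
  simp only [Measure.coe_add, Pi.add_apply]
  rw [Finset.prod_congr rfl fun k _ => add_comm (m₀ (s k)) (m₁ (s k)), Finset.prod_add]
  rw [Finset.powerset_univ]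
  refine Finset.sum_congr rfl fun S _ => ?_
  haveI : ∀ k, IsFiniteMeasure (if k ∈ S then m₁ else m₀) := fun k => by
    split_ifs <;> infer_instance
  rw [Measure.pi_pi, ← Finset.prod_mul_prod_compl S]
  congr 1
  · exact Finset.prod_congr rfl fun k hk => by rw [if_pos hk]
  · rw [Finset.compl_eq_univ_sdiff]
    exact Finset.prod_congr rfl fun k hk => by rw [if_neg (Finset.mem_sdiff.1 hk).2]

/-- The increasing enumeration of a finite set of labels. -/
noncomputable def sel {n : ℕ} (S : Finset (Fin n)) : Fin S.card → Fin n :=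
  fun k => (S.equivFin.symm k : Fin n)

lemma sum_sel {n : ℕ} (S : Finset (Fin n)) (f : Fin n → ℝ) :
    ∑ k, f (sel S k) = ∑ i ∈ S, f i := by
  rw [← Finset.sum_coe_sort S f]
  exact Equiv.sum_comp S.equivFin.symm (fun i : S => f i)

lemma lintegral_pi_split {n : ℕ} (S : Finset (Fin n)) (m₀ m₁ : Measure R3)
    [IsFiniteMeasure m₀] [IsFiniteMeasure m₁]
    (f : (Fin S.card → R3) → ℝ≥0∞) (g : (Fin Sᶜ.card → R3) → ℝ≥0∞)
    (hf : Measurable f) (hg : Measurable g) :
    ∫⁻ x, f (fun k => x (sel S k)) * g (fun k => x (sel Sᶜ k))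
        ∂(Measure.pi fun k => if k ∈ S then m₁ else m₀)
      = (∫⁻ y, f y ∂(Measure.pi fun _ => m₁)) * ∫⁻ y, g y ∂(Measure.pi fun _ => m₀) := by
  classical
  let e : Fin S.card ⊕ Fin Sᶜ.card ≃ Fin n :=
    (Equiv.sumCongr S.equivFin.symm
      (Sᶜ.equivFin.symm.trans (Equiv.subtypeEquivRight fun _ => Finset.mem_compl))).trans
      (Equiv.sumCompl fun k => k ∈ S)
  have e1 : ∀ k, e (Sum.inl k) = sel S k := fun k => rfl
  have e2 : ∀ k, e (Sum.inr k) = sel Sᶜ k := fun k => rfl
  set m : Fin n → Measure R3 := fun k => if k ∈ S then m₁ else m₀ with hm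
  haveI : ∀ k, IsFiniteMeasure (m k) := fun k => by
    by_cases h : k ∈ S <;> simp only [hm, if_pos, if_neg, h, not_false_eq_true] <;> infer_instance
  have h1 := measurePreserving_piCongrLeft m e
  have h2 := measurePreserving_sumPiEquivProdPi_symm (fun i => m (e i))
  have hall := h1.comp h2
  rw [← hall.lintegral_comp (by fun_prop)]
  have key : ∀ (a : Fin S.card → R3) (b : Fin Sᶜ.card → R3) (j),
      MeasurableEquiv.piCongrLeft (fun _ => R3) e
        ((MeasurableEquiv.sumPiEquivProdPi (fun _ : Fin S.card ⊕ Fin Sᶜ.card => R3)).symm (a, b))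
        (e j) = Sum.elim a b j := by
    intro a b j
    rw [MeasurableEquiv.piCongrLeft_apply_apply]
    cases j <;> rfl
  have ha : (fun i => m (e (Sum.inl i))) = fun _ => m₁ := by
    funext i
    simp only [hm, e1, sel]
    rw [if_pos (Finset.coe_mem _)]
  have hb : (fun i => m (e (Sum.inr i))) = fun _ => m₀ := by
    funext i
    simp only [hm, e2, sel]
    rw [if_neg (Finset.mem_compl.1 (Finset.coe_mem _))]
  simp only [ha, hb]
  rw [← lintegral_prod_mul hf.aemeasurable hg.aemeasurable]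
  refine lintegral_congr fun p => ?_
  obtain ⟨a, b⟩ := p
  congr 1
  · congr 1
    funext k
    rw [← e1 k]
    exact key a b (Sum.inl k)
  · congr 1
    funext k
    rw [← e2 k]
    exact key a b (Sum.inr k)

lemma tsum_split_cauchy (a b : ℕ → ℝ≥0∞) :
    ∑' n : ℕ, (n.factorial : ℝ≥0∞)⁻¹ * ∑ S : Finset (Fin n), a S.card * b Sᶜ.card
      = (∑' k : ℕ, (k.factorial : ℝ≥0∞)⁻¹ * a k)
        * ∑' l : ℕ, (l.factorial : ℝ≥0∞)⁻¹ * b l := by
  have h : ∀ n : ℕ, (n.factorial : ℝ≥0∞)⁻¹ * ∑ S : Finset (Fin n), a S.card * b Sᶜ.card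
      = ∑ p ∈ Finset.HasAntidiagonal.antidiagonal n,
          ((p.1.factorial : ℝ≥0∞)⁻¹ * a p.1) * ((p.2.factorial : ℝ≥0∞)⁻¹ * b p.2) := by
    intro n
    have h1 : ∑ S : Finset (Fin n), a S.card * b Sᶜ.card
        = ∑ k ∈ Finset.range (n + 1), (n.choose k) • (a k * b (n - k)) := by
      have := Finset.sum_powerset_apply_card (fun k => a k * b (n - k))
        (x := (Finset.univ : Finset (Fin n)))
      rw [Finset.card_fin, Finset.powerset_univ] at this
      rw [← this]
      exact Finset.sum_congr rfl fun S _ => by rw [Finset.card_compl, Fintype.card_fin]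
    rw [h1, Finset.mul_sum, Finset.Nat.sum_antidiagonal_eq_sum_range_succ_mk]
    refine Finset.sum_congr rfl fun k hk => ?_
    have hk' : k ≤ n := Nat.lt_succ_iff.1 (Finset.mem_range.1 hk)
    have hc : (n.factorial : ℝ≥0∞)⁻¹ * (n.choose k : ℝ≥0∞)
        = (k.factorial : ℝ≥0∞)⁻¹ * ((n - k).factorial : ℝ≥0∞)⁻¹ := by
      rw [← ENNReal.mul_inv (Or.inr (ENNReal.natCast_ne_top _))
        (Or.inl (ENNReal.natCast_ne_top _))]
      rw [← Nat.choose_mul_factorial_mul_factorial hk', Nat.cast_mul, Nat.cast_mul, mul_assoc,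
        ENNReal.mul_inv (Or.inr (by finiteness)) (Or.inl (ENNReal.natCast_ne_top _)),
        mul_comm, ← mul_assoc, ENNReal.mul_inv_cancel, one_mul]
      · exact_mod_cast (Nat.choose_pos hk').ne'
      · exact ENNReal.natCast_ne_top _
    rw [nsmul_eq_mul, ← mul_assoc, hc]
    ring
  rw [tsum_congr h, ← ENNReal.tsum_mul_right]
  simp_rw [← ENNReal.tsum_mul_left]
  rw [← ENNReal.tsum_prod, ← Finset.HasAntidiagonal.sigmaAntidiagonalEquivProd.tsum_eq
    (fun p : ℕ × ℕ => ((p.1.factorial : ℝ≥0∞)⁻¹ * a p.1) * ((p.2.factorial : ℝ≥0∞)⁻¹ * b p.2)),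
    ENNReal.tsum_sigma']
  refine tsum_congr fun n => ?_
  rw [← Finset.tsum_subtype]
  rfl

/-- Subadditive exponents give a submultiplicative `gz`. -/
lemma gz_add_le (m₀ m₁ : Measure R3) [IsFiniteMeasure m₀] [IsFiniteMeasure m₁] (H : Expo)
    (hH : ∀ n, Measurable (H n))
    (h : ∀ n, ∀ S : Finset (Fin n),
      ∀ᵐ x ∂(Measure.pi fun k => if k ∈ S then m₁ else m₀),
        H n x ≤ H S.card (fun k => x (sel S k)) + H Sᶜ.card (fun k => x (sel Sᶜ k))) :
    gz (m₀ + m₁) H ≤ gz m₁ H * gz m₀ H := by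
  unfold gz
  rw [← tsum_split_cauchy]
  refine ENNReal.tsum_le_tsum fun n => ?_
  gcongr 1
  rw [pi_add_measure, lintegral_finsetSum_measure]
  refine Finset.sum_le_sum fun S _ => ?_
  rw [← lintegral_pi_split S m₀ m₁ _ _ (by fun_prop) (by fun_prop)]
  refine lintegral_mono_ae ((h n S).mono fun x hx => ?_)
  rw [← ENNReal.ofReal_mul (Real.exp_pos _).le, ← Real.exp_add]
  exact ENNReal.ofReal_le_ofReal (Real.exp_le_exp.2 hx)

/-- Superadditive exponents give a supermultiplicative `gz`. -/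
lemma le_gz_add (m₀ m₁ : Measure R3) [IsFiniteMeasure m₀] [IsFiniteMeasure m₁] (H : Expo)
    (hH : ∀ n, Measurable (H n))
    (h : ∀ n, ∀ S : Finset (Fin n),
      ∀ᵐ x ∂(Measure.pi fun k => if k ∈ S then m₁ else m₀),
        H S.card (fun k => x (sel S k)) + H Sᶜ.card (fun k => x (sel Sᶜ k)) ≤ H n x) :
    gz m₁ H * gz m₀ H ≤ gz (m₀ + m₁) H := by
  unfold gz
  rw [← tsum_split_cauchy]
  refine ENNReal.tsum_le_tsum fun n => ?_
  gcongr 1
  rw [pi_add_measure, lintegral_finsetSum_measure]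
  refine Finset.sum_le_sum fun S _ => ?_
  rw [← lintegral_pi_split S m₀ m₁ _ _ (by fun_prop) (by fun_prop)]
  refine lintegral_mono_ae ((h n S).mono fun x hx => ?_)
  rw [← ENNReal.ofReal_mul (Real.exp_pos _).le, ← Real.exp_add]
  exact ENNReal.ofReal_le_ofReal (Real.exp_le_exp.2 hx)

lemma gz_le_gz_add (m₀ m₁ : Measure R3) [IsFiniteMeasure m₀] [IsFiniteMeasure m₁] (H : Expo) :
    gz m₀ H ≤ gz (m₀ + m₁) H := by
  refine ENNReal.tsum_le_tsum fun n => ?_
  gcongr 1
  rw [pi_add_measure, lintegral_finsetSum_measure]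
  refine le_trans (le_of_eq ?_)
    (Finset.single_le_sum (fun _ _ => zero_le) (Finset.mem_univ (∅ : Finset (Fin n))))
  simp

lemma gz_mono_set {D D' : Set R3} (hD : MeasurableSet D) (hsub : D ⊆ D')
    [IsFiniteMeasure (volume.restrict D')] (H : Expo) :
    gz (volume.restrict D) H ≤ gz (volume.restrict D') H := by
  haveI : IsFiniteMeasure (volume.restrict D) :=
    isFiniteMeasure_of_le _ (Measure.restrict_mono hsub le_rfl)
  haveI : IsFiniteMeasure (volume.restrict (D' \ D)) :=
    isFiniteMeasure_of_le _ (Measure.restrict_mono Set.sdiff_subset le_rfl)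
  have : volume.restrict D' = volume.restrict D + volume.restrict (D' \ D) := by
    rw [add_comm, ← Measure.restrict_union Set.disjoint_sdiff_left hD,
      Set.sdiff_union_of_subset hsub]
  rw [this]
  exact gz_le_gz_add _ _ _

lemma gz_translate (D : Set R3) (v : R3) (H : Expo)
    (hH : ∀ n, Measurable (H n)) (hinv : ∀ n x, H n (fun k => x k + v) = H n x)
    [IsFiniteMeasure (volume.restrict D)]
    [IsFiniteMeasure (volume.restrict ((fun y => y + v) ⁻¹' D))] :
    gz (volume.restrict ((fun y => y + v) ⁻¹' D)) H = gz (volume.restrict D) H := by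
  refine tsum_congr fun n => ?_
  congr 1
  have h0 : MeasurePreserving (fun y : R3 => y + v)
      (volume.restrict ((fun y => y + v) ⁻¹' D)) (volume.restrict D) :=
    (measurePreserving_add_right volume v).restrict_preimage_emb
      (measurableEmbedding_addRight v) D
  have h1 := measurePreserving_pi (fun _ : Fin n => volume.restrict ((fun y => y + v) ⁻¹' D))
    (fun _ : Fin n => volume.restrict D) (fun _ => h0)
  rw [← h1.lintegral_comp (by fun_prop)]
  refine lintegral_congr fun x => ?_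
  rw [hinv]

/-- Hölder interpolation. -/
lemma gz_interp (m : Measure R3) [IsFiniteMeasure m] (H K : Expo) (hH : ∀ n, Measurable (H n))
    (hK : ∀ n, Measurable (K n)) {θ : ℝ} (h0 : 0 ≤ θ) (h1 : θ ≤ 1) :
    gz m (fun n x => (1 - θ) * H n x + θ * K n x) ≤ gz m H ^ (1 - θ) * gz m K ^ θ := by
  let ν : Measure (Σ n : ℕ, Fin n → R3) :=
    Measure.sum fun n => (n.factorial : ℝ≥0∞)⁻¹ •
      (Measure.pi fun _ : Fin n => m).map (fun x : Fin n → R3 => (⟨n, x⟩ : Σ n : ℕ, Fin n → R3))
  have hmk : ∀ n : ℕ, Measurable (fun x : Fin n → R3 => (⟨n, x⟩ : Σ n : ℕ, Fin n → R3)) :=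
    fun n _ hs => MeasurableSpace.measurableSet_iInf.1 hs n
  have hmeas : ∀ L : Expo, (∀ n, Measurable (L n)) →
      Measurable (fun p : Σ n : ℕ, Fin n → R3 => ENNReal.ofReal (Real.exp (L p.1 p.2))) := by
    intro L hL s hs
    refine MeasurableSpace.measurableSet_iInf.2 fun n => ?_
    have := hL n
    exact (by fun_prop : Measurable fun x => ENNReal.ofReal (Real.exp (L n x))) hs
  have hgz : ∀ L : Expo, (∀ n, Measurable (L n)) →
      ∫⁻ p, ENNReal.ofReal (Real.exp (L p.1 p.2)) ∂ν = gz m L := by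
    intro L hL
    rw [lintegral_sum_measure]
    refine tsum_congr fun n => ?_
    rw [lintegral_smul_measure, lintegral_map (hmeas L hL) (hmk n)]
    rfl
  have hL : ∀ n, Measurable fun x => (1 - θ) * H n x + θ * K n x :=
    fun n => (((hH n).const_mul _).add ((hK n).const_mul _))
  rw [← hgz _ hL, ← hgz _ hH, ← hgz _ hK]
  refine le_trans (le_of_eq (lintegral_congr fun p => ?_))
    (ENNReal.lintegral_mul_norm_pow_le (hmeas H hH).aemeasurable (hmeas K hK).aemeasurable
      (sub_nonneg.2 h1) h0 (by ring))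
  rw [ENNReal.ofReal_rpow_of_pos (Real.exp_pos _), ENNReal.ofReal_rpow_of_pos (Real.exp_pos _),
    ← Real.exp_mul, ← Real.exp_mul, ← ENNReal.ofReal_mul (Real.exp_pos _).le, ← Real.exp_add]
  congr 2
  ring

end Vale.Agent.P171
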