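import Mathlib
import Vale.Agent.P171.Conf

/-!
The potential `A·core - Σ a_l g_l` and the counting facts about it: cells of side one,
blocks of side `w`, shifts of the block partition.
-/

open MeasureTheory Filter Topology
open scoped BigOperators

namespace Vale.Agent.P171

/-- A plateau profile: `1` up to `1/2`, `0` from `1` on. -/
noncomputable def eta (r : ℝ) : ℝ := max 0 (min 1 (2 - 2 * r))

lemma eta_nonneg (r : ℝ) : 0 ≤ eta r := le_max_left _ _
lemma eta_le_one (r : ℝ) : eta r ≤ 1 := max_le zero_le_one (min_le_left _ _)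
lemma eta_eq_one {r : ℝ} (h : r ≤ 1 / 2) : eta r = 1 := by
  unfold eta; rw [min_eq_left (by linarith), max_eq_right zero_le_one]
lemma eta_eq_zero {r : ℝ} (h : 1 ≤ r) : eta r = 0 := by
  unfold eta; exact max_eq_left (le_trans (min_le_right _ _) (by linarith))
lemma continuous_eta : Continuous eta := by unfold eta; fun_prop

/-- The repulsive bump. -/
noncomputable def core (r : ℝ) : ℝ := eta (r / 4)

/-- The attractive profile of range `48(l+1)`. -/
noncomputable def prof (l : ℕ) (r : ℝ) : ℝ := eta (r / (48 * (l + 1))) / ((l : ℝ) + 1) ^ 3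

/-- The attractive part with weights `a`. -/
noncomputable def attr (a : ℕ → ℝ) (r : ℝ) : ℝ := ∑' l, a l * prof l r

/-- The pair potential. -/
noncomputable def pot (A : ℝ) (a : ℕ → ℝ) (r : ℝ) : ℝ := A * core r - attr a r

lemma prof_nonneg (l : ℕ) (r : ℝ) : 0 ≤ prof l r := div_nonneg (eta_nonneg _) (by positivity)

lemma prof_le_one (l : ℕ) (r : ℝ) : prof l r ≤ 1 := by
  unfold prof
  rw [div_le_one (by positivity)]
  exact (eta_le_one _).trans (one_le_pow₀ (by linarith [(Nat.cast_nonneg l : (0:ℝ) ≤ l)]))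

lemma prof_le (l : ℕ) (r : ℝ) : prof l r ≤ 1 / ((l : ℝ) + 1) ^ 3 :=
  div_le_div_of_nonneg_right (eta_le_one _) (by positivity)

lemma prof_eq_zero {l : ℕ} {r : ℝ} (h : 48 * ((l : ℝ) + 1) ≤ r) : prof l r = 0 := by
  unfold prof
  rw [eta_eq_zero (by rw [le_div_iff₀ (by positivity)]; linarith), zero_div]

lemma continuous_prof (l : ℕ) : Continuous (prof l) :=
  (continuous_eta.comp (continuous_id.div_const _)).div_const _

lemma continuous_core : Continuous core := continuous_eta.comp (continuous_id.div_const _)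

/-- Admissible weights. -/
structure Weights (a : ℕ → ℝ) : Prop where
  nonneg : ∀ l, 0 ≤ a l
  summable : Summable a

variable {a b : ℕ → ℝ}

lemma Weights.summable_mul (ha : Weights a) {f : ℕ → ℝ} (h0 : ∀ l, 0 ≤ f l) {C : ℝ}
    (hC : ∀ l, f l ≤ C) : Summable (fun l => a l * f l) :=
  Summable.of_nonneg_of_le (fun l => mul_nonneg (ha.nonneg l) (h0 l))
    (fun l => mul_le_mul_of_nonneg_left (hC l) (ha.nonneg l)) (ha.summable.mul_right C)

lemma Weights.summable_prof (ha : Weights a) (r : ℝ) : Summable (fun l => a l * prof l r) :=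
  ha.summable_mul (fun l => prof_nonneg l r) (fun l => prof_le_one l r)

lemma attr_nonneg (ha : Weights a) (r : ℝ) : 0 ≤ attr a r :=
  tsum_nonneg fun l => mul_nonneg (ha.nonneg l) (prof_nonneg l r)

lemma continuous_attr (ha : Weights a) : Continuous (attr a) :=
  continuous_tsum (fun l => (continuous_prof l).const_mul _) ha.summable fun l r => by
    rw [Real.norm_eq_abs, abs_of_nonneg (mul_nonneg (ha.nonneg l) (prof_nonneg l r))]
    exact mul_le_of_le_one_right (ha.nonneg l) (prof_le_one l r)

lemma continuous_pot (A : ℝ) (ha : Weights a) : Continuous (pot A a) :=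
  (continuous_core.const_mul A).sub (continuous_attr ha)

lemma pot_nonpos (A : ℝ) (ha : Weights a) {r : ℝ} (h : 4 ≤ r) : pot A a r ≤ 0 := by
  unfold pot core
  rw [eta_eq_zero (by linarith)]
  linarith [attr_nonneg ha r]

lemma Weights.sub (ha : Weights a) (hb : Weights b) (h : ∀ l, a l ≤ b l) :
    Weights (fun l => b l - a l) :=
  ⟨fun l => sub_nonneg.2 (h l), hb.summable.sub ha.summable⟩

lemma attr_sub (ha : Weights a) (hb : Weights b) (r : ℝ) :
    attr (fun l => b l - a l) r = attr b r - attr a r := by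
  unfold attr
  simp only [sub_mul]
  exact (hb.summable_prof r).tsum_sub (ha.summable_prof r)

/-- Double sum over ordered pairs, diagonal included. -/
noncomputable def dsum {n : ℕ} (x : Fin n → R3) (k : R3 → R3 → ℝ) : ℝ :=
  ∑ i, ∑ j, k (x i) (x j)

lemma dsum_mono {n : ℕ} (x : Fin n → R3) {k k' : R3 → R3 → ℝ} (h : ∀ p q, k p q ≤ k' p q) :
    dsum x k ≤ dsum x k' :=
  Finset.sum_le_sum fun i _ => Finset.sum_le_sum fun j _ => h _ _

lemma dsum_add {n : ℕ} (x : Fin n → R3) (k k' : R3 → R3 → ℝ) :
    dsum x (fun p q => k p q + k' p q) = dsum x k + dsum x k' := by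
  simp only [dsum, Finset.sum_add_distrib]

lemma dsum_sub {n : ℕ} (x : Fin n → R3) (k k' : R3 → R3 → ℝ) :
    dsum x (fun p q => k p q - k' p q) = dsum x k - dsum x k' := by
  simp only [dsum, Finset.sum_sub_distrib]

lemma dsum_smul {n : ℕ} (x : Fin n → R3) (c : ℝ) (k : R3 → R3 → ℝ) :
    dsum x (fun p q => c * k p q) = c * dsum x k := by
  simp only [dsum, Finset.mul_sum]

lemma dsum_split {n : ℕ} (x : Fin n → R3) (S : Finset (Fin n)) (k : R3 → R3 → ℝ) :
    dsum x k = dsum (fun i => x (sel S i)) k + dsum (fun i => x (sel Sᶜ i)) k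
      + ∑ i ∈ S, ∑ j ∈ Sᶜ, (k (x i) (x j) + k (x j) (x i)) := by
  have hd : ∀ T : Finset (Fin n), dsum (fun i => x (sel T i)) k
      = ∑ i ∈ T, ∑ j ∈ T, k (x i) (x j) := by
    intro T
    unfold dsum
    rw [sum_sel T fun i => ∑ j, k (x i) (x (sel T j))]
    exact Finset.sum_congr rfl fun i _ => sum_sel T fun j => k (x i) (x j)
  rw [hd S, hd Sᶜ]
  unfold dsum
  rw [← Finset.sum_add_sum_compl S]
  simp only [← Finset.sum_add_sum_compl S (fun j => k (x _) (x j)), Finset.sum_add_distrib]
  rw [Finset.sum_comm (s := Sᶜ) (t := S)]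
  ring

lemma measurable_dsum {n : ℕ} {k : R3 → R3 → ℝ} (hk : Measurable (Function.uncurry k)) :
    Measurable (fun x : Fin n → R3 => dsum x k) := by
  refine Finset.measurable_sum _ fun i _ => Finset.measurable_sum _ fun j _ => ?_
  have hp : Measurable fun x : Fin n → R3 => (x i, x j) := by fun_prop
  exact hk.comp hp

/-- The cell of side one that contains a point. -/
noncomputable def cell (p : R3) : Fin 3 → ℤ := fun k => ⌊p k⌋

/-- The block of side `w` (partition shifted by `s`) that contains a point. -/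
noncomputable def blk (w : ℕ) (s : Fin 3 → ℕ) (p : R3) : Fin 3 → ℤ :=
  fun k => (cell p k + s k) / (w : ℤ)

open Classical in
/-- Indicator of equal labels. -/
noncomputable def same {L : Type*} (lab : R3 → L) (p q : R3) : ℝ :=
  if lab p = lab q then 1 else 0

lemma same_nonneg {L : Type*} (lab : R3 → L) (p q : R3) : 0 ≤ same lab p q := by
  unfold same; split_ifs <;> norm_num

lemma same_le_one {L : Type*} (lab : R3 → L) (p q : R3) : same lab p q ≤ 1 := by
  unfold same; split_ifs <;> norm_num

/-- Number of ordered pairs with equal labels. -/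
noncomputable def scount {L : Type*} (lab : R3 → L) {n : ℕ} (x : Fin n → R3) : ℝ :=
  dsum x (same lab)

lemma scount_nonneg {L : Type*} (lab : R3 → L) {n : ℕ} (x : Fin n → R3) : 0 ≤ scount lab x := by
  unfold scount dsum
  exact Finset.sum_nonneg fun _ _ => Finset.sum_nonneg fun _ _ => same_nonneg _ _ _

lemma shifted_count {L : Type*} [AddCommGroup L] [DecidableEq L] {n : ℕ} (c : Fin n → L) (v : L) :
    ∑ i, ∑ j, (if c j = c i + v then (1 : ℝ) else 0)
      ≤ ∑ i, ∑ j, (if c i = c j then (1 : ℝ) else 0) := by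
  set N : L → ℝ := fun u => ∑ j, if c j = u then (1 : ℝ) else 0 with hN
  set T := Finset.univ.image c with hT
  have hfib : ∀ f : L → ℝ, ∑ i, f (c i) = ∑ u ∈ T, N u * f u := by
    intro f
    simp only [hN, Finset.sum_mul]
    rw [Finset.sum_comm]
    refine Finset.sum_congr rfl fun i _ => ?_
    simp [hT, ite_mul]
  have hr : ∑ i, ∑ j, (if c i = c j then (1 : ℝ) else 0) = ∑ u ∈ T, N u * N u := by
    rw [← hfib N]
    exact Finset.sum_congr rfl fun i _ => Finset.sum_congr rfl fun j _ => by simp [eq_comm]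
  rw [hr]
  calc ∑ i, ∑ j, (if c j = c i + v then (1 : ℝ) else 0)
      = ∑ u ∈ T, N u * N (u + v) := hfib (fun u => N (u + v))
    _ ≤ ∑ u ∈ T, (N u * N u / 2 + N (u + v) * N (u + v) / 2) :=
        Finset.sum_le_sum fun u _ => by nlinarith [sq_nonneg (N u - N (u + v))]
    _ ≤ ∑ u ∈ T, N u * N u := by
        have h2 : ∑ u ∈ T, N (u + v) * N (u + v) ≤ ∑ u ∈ T, N u * N u := by
          rw [show ∑ u ∈ T, N (u + v) * N (u + v)
              = ∑ u ∈ T.map (addRightEmbedding v), N u * N u by rw [Finset.sum_map]; rfl]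
          refine (Finset.sum_le_sum_of_subset_of_nonneg
            (Finset.subset_union_right (s₁ := T) (s₂ := T.map (addRightEmbedding v)))
            fun u _ _ => mul_self_nonneg (N u)).trans (le_of_eq ?_)
          refine (Finset.sum_subset Finset.subset_union_left fun u _ hu => ?_).symm
          have : N u = 0 := Finset.sum_eq_zero fun j _ => by
            rw [if_neg]; exact fun h => hu (Finset.mem_image.2 ⟨j, Finset.mem_univ _, h⟩)
          rw [this, mul_zero]
        rw [Finset.sum_add_distrib, ← Finset.sum_div, ← Finset.sum_div]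
        linarith

lemma dsum_le_card_mul_scount {lab : R3 → Fin 3 → ℤ} (D : ℕ) (k : R3 → R3 → ℝ) (B : ℝ)
    (hB : 0 ≤ B) (hk : ∀ p q, k p q ≤ B)
    (hsupp : ∀ p q, (∃ i, (D : ℤ) < |lab q i - lab p i|) → k p q ≤ 0)
    {n : ℕ} (x : Fin n → R3) :
    dsum x k ≤ B * (2 * D + 1) ^ 3 * scount lab x := by
  classical
  set V := Fintype.piFinset fun _ : Fin 3 => Finset.Icc (-(D : ℤ)) D with hV
  have hcard : (V.card : ℝ) = (2 * D + 1) ^ 3 := by
    rw [hV, Fintype.card_piFinset, Finset.prod_const, Int.card_Icc, Finset.card_fin]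
    have : ((D : ℤ) + 1 - -(D : ℤ)).toNat = 2 * D + 1 := by omega
    rw [this]
    push_cast; ring
  have hpt : ∀ i j, k (x i) (x j)
      ≤ B * ∑ v ∈ V, if lab (x j) = lab (x i) + v then (1 : ℝ) else 0 := by
    intro i j
    have hnn : 0 ≤ ∑ v ∈ V, if lab (x j) = lab (x i) + v then (1 : ℝ) else 0 :=
      Finset.sum_nonneg fun v _ => by split_ifs <;> norm_num
    by_cases h : ∃ l, (D : ℤ) < |lab (x j) l - lab (x i) l|
    · exact (hsupp _ _ h).trans (mul_nonneg hB hnn)
    · push Not at h
      have hmem : lab (x j) - lab (x i) ∈ V := by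
        rw [hV, Fintype.mem_piFinset]
        intro l
        rw [Finset.mem_Icc, Pi.sub_apply]
        exact abs_le.1 (h l)
      calc k (x i) (x j) ≤ B * 1 := by simpa using hk _ _
        _ ≤ _ := by
          refine mul_le_mul_of_nonneg_left ?_ hB
          refine le_trans (le_of_eq ?_) (Finset.single_le_sum
            (fun v _ => by split_ifs <;> norm_num) hmem)
          simp
  calc dsum x k ≤ ∑ i, ∑ j, B * ∑ v ∈ V, if lab (x j) = lab (x i) + v then (1 : ℝ) else 0 :=
        Finset.sum_le_sum fun i _ => Finset.sum_le_sum fun j _ => hpt i j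
    _ = B * ∑ v ∈ V, ∑ i, ∑ j, if lab (x j) = lab (x i) + v then (1 : ℝ) else 0 := by
        simp only [← Finset.mul_sum]
        congr 1
        rw [Finset.sum_comm (s := V)]
        exact Finset.sum_congr rfl fun i _ => Finset.sum_comm
    _ ≤ B * ∑ _v ∈ V, scount lab x := by
        refine mul_le_mul_of_nonneg_left (Finset.sum_le_sum fun v _ => ?_) hB
        refine (shifted_count (fun i => lab (x i)) v).trans_eq ?_
        simp only [scount, dsum, same]
        exact Finset.sum_congr rfl fun i _ => Finset.sum_congr rfl fun j _ => by congr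
    _ = B * (2 * D + 1) ^ 3 * scount lab x := by
        rw [Finset.sum_const, nsmul_eq_mul, hcard]; ring

lemma abs_coord_le_dist (p q : R3) (k : Fin 3) : |p k - q k| ≤ dist p q := by
  rw [dist_eq_norm, ← Real.norm_eq_abs, ← PiLp.sub_apply]
  exact PiLp.norm_apply_le (p - q) k

lemma cell_diff_le {p q : R3} {D : ℕ} (h : dist p q < D) (k : Fin 3) :
    |cell q k - cell p k| ≤ D := by
  have h1 := abs_le.1 (abs_coord_le_dist p q k)
  unfold cell
  rw [abs_le]
  have a1 := Int.floor_le (p k)
  have a2 := Int.lt_floor_add_one (p k)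
  have a3 := Int.floor_le (q k)
  have a4 := Int.lt_floor_add_one (q k)
  constructor
  · have : ((-(D : ℤ) - 1 : ℤ) : ℝ) < ((⌊q k⌋ - ⌊p k⌋ : ℤ) : ℝ) := by push_cast; linarith
    have := Int.cast_lt.1 this
    omega
  · have : ((⌊q k⌋ - ⌊p k⌋ : ℤ) : ℝ) < (((D : ℤ) + 1 : ℤ) : ℝ) := by push_cast; linarith
    have := Int.cast_lt.1 this
    omega

lemma dist_le_two_of_cell_eq {p q : R3} (h : cell p = cell q) : dist p q ≤ 2 := by
  rw [EuclideanSpace.dist_eq]
  have hk : ∀ k, (dist (p k) (q k)) ^ 2 ≤ 1 := by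
    intro k
    have := Int.abs_sub_lt_one_of_floor_eq_floor (congrFun h k)
    rw [Real.dist_eq]
    nlinarith [abs_nonneg (p k - q k)]
  rw [show (2 : ℝ) = Real.sqrt 4 by norm_num]
  refine Real.sqrt_le_sqrt ?_
  calc _ ≤ ∑ _k : Fin 3, (1 : ℝ) := Finset.sum_le_sum fun k _ => hk k
    _ ≤ 4 := by simp; norm_num

/-- The constant in `Σ_pairs g_l ≤ C₁ Σ_cells n_c²`. -/
noncomputable def C₁ : ℝ := 97 ^ 3

lemma C₁_pos : 0 < C₁ := by unfold C₁; positivity

lemma dsum_prof_le (l : ℕ) {n : ℕ} (x : Fin n → R3) :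
    dsum x (fun p q => prof l (dist p q)) ≤ C₁ * scount cell x := by
  refine (dsum_le_card_mul_scount (lab := cell) (48 * (l + 1)) _ (1 / ((l : ℝ) + 1) ^ 3)
    (by positivity) (fun p q => prof_le l _) ?_ x).trans ?_
  · rintro p q ⟨i, hi⟩
    rw [prof_eq_zero]
    by_contra hc
    push Not at hc
    exact absurd hi (not_lt.2 (cell_diff_le (D := 48 * (l + 1)) (by push_cast; exact hc) i))
  · refine mul_le_mul_of_nonneg_right ?_ (scount_nonneg _ _)
    rw [div_mul_eq_mul_div, one_mul, div_le_iff₀ (by positivity), C₁, ← mul_pow]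
    refine pow_le_pow_left₀ (by positivity) ?_ 3
    push_cast
    nlinarith [(Nat.cast_nonneg l : (0:ℝ) ≤ l)]

lemma dsum_tsum {n : ℕ} (x : Fin n → R3) (f : ℕ → R3 → R3 → ℝ)
    (h : ∀ p q, Summable fun l => f l p q) :
    dsum x (fun p q => ∑' l, f l p q) = ∑' l, dsum x (f l) := by
  unfold dsum
  rw [Summable.tsum_finsetSum fun i _ => summable_sum fun j _ => h _ _]
  exact Finset.sum_congr rfl fun i _ => (Summable.tsum_finsetSum fun j _ => h _ _).symm

lemma dsum_attr_le (ha : Weights a) {n : ℕ} (x : Fin n → R3) :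
    dsum x (fun p q => attr a (dist p q)) ≤ C₁ * (∑' l, a l) * scount cell x := by
  unfold attr
  rw [dsum_tsum x _ fun p q => ha.summable_prof _]
  calc ∑' l, dsum x (fun p q => a l * prof l (dist p q))
      ≤ ∑' l, a l * (C₁ * scount cell x) := by
        refine Summable.tsum_le_tsum (fun l => ?_) ?_ (ha.summable.mul_right _)
        · rw [dsum_smul]
          exact mul_le_mul_of_nonneg_left (dsum_prof_le l x) (ha.nonneg l)
        · exact summable_sum fun i _ => summable_sum fun j _ => ha.summable_prof _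
    _ = C₁ * (∑' l, a l) * scount cell x := by rw [tsum_mul_right]; ring

lemma scount_cell_le_dsum_core {n : ℕ} (x : Fin n → R3) :
    scount cell x ≤ dsum x (fun p q => core (dist p q)) := by
  refine dsum_mono x fun p q => ?_
  unfold same
  split_ifs with h
  · unfold core
    rw [eta_eq_one (by linarith [dist_le_two_of_cell_eq h])]
  · exact eta_nonneg _

/-- The energy `Σ_{i<j} φ(|x_i - x_j|)`, written with full double sums. -/
noncomputable def energy (A : ℝ) (a : ℕ → ℝ) {n : ℕ} (x : Fin n → R3) : ℝ :=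
  (dsum x (fun p q => pot A a (dist p q)) - n * pot A a 0) / 2

lemma pairEnergy_eq_energy (A : ℝ) (a : ℕ → ℝ) (n : ℕ) (x : Fin n → R3) :
    pairEnergy (pot A a) n x = energy A a x := by
  unfold pairEnergy energy dsum
  set f : Fin n → Fin n → ℝ := fun i j => pot A a (dist (x i) (x j)) with hf
  have h1 : ∀ i, ∑ j, f i j
      = (∑ j ∈ Finset.Iio i, f i j) + f i i + ∑ j ∈ Finset.Ioi i, f i j := by
    intro i
    rw [add_comm _ (f i i), ← Finset.sum_insert (fun h => lt_irrefl i (Finset.mem_Iio.1 h)) (f := f i),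
      ← Finset.sum_union]
    · refine Finset.sum_congr (Finset.ext fun j => ?_) fun j _ => rfl
      simp only [Finset.mem_univ, Finset.mem_union, Finset.mem_insert, Finset.mem_Iio,
        Finset.mem_Ioi, true_iff]
      rcases lt_trichotomy j i with h | h | h
      · exact Or.inl (Or.inr h)
      · exact Or.inl (Or.inl h)
      · exact Or.inr h
    · refine Finset.disjoint_left.2 fun j hj hj' => ?_
      rcases Finset.mem_insert.1 hj with rfl | h
      · exact lt_irrefl _ (Finset.mem_Ioi.1 hj')
      · exact lt_asymm (Finset.mem_Iio.1 h) (Finset.mem_Ioi.1 hj')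
  have h2 : ∑ i, ∑ j ∈ Finset.Iio i, f i j = ∑ i, ∑ j ∈ Finset.Ioi i, f i j := by
    rw [Finset.sum_comm' (t' := Finset.univ) (s' := fun j => Finset.Ioi j)
      (fun i j => by simp)]
    exact Finset.sum_congr rfl fun i _ => Finset.sum_congr rfl fun j _ => by
      simp only [hf, dist_comm]
  have h3 : ∑ i, f i i = n * pot A a 0 := by simp [hf]
  show ∑ i, ∑ j ∈ Finset.Ioi i, f i j = (∑ i, ∑ j, f i j - n * pot A a 0) / 2
  rw [Finset.sum_congr rfl fun i _ => h1 i]
  simp only [Finset.sum_add_distrib]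
  rw [h2, h3]
  ring

lemma energy_ge (A : ℝ) (hA : 0 ≤ A) (ha : Weights a) {n : ℕ} (x : Fin n → R3) :
    (A - C₁ * ∑' l, a l) / 2 * scount cell x - A / 2 * n ≤ energy A a x := by
  unfold energy pot
  rw [dsum_sub, dsum_smul]
  have h0 : core 0 = 1 := by unfold core; exact eta_eq_one (by norm_num)
  have h1 := dsum_attr_le ha x
  have h2 := mul_le_mul_of_nonneg_left (scount_cell_le_dsum_core x) hA
  have h3 : 0 ≤ (n : ℝ) * attr a 0 := mul_nonneg (Nat.cast_nonneg n) (attr_nonneg ha 0)
  rw [h0]
  nlinarith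

/-- Change of energy when the weights grow. -/
lemma energy_sub (A : ℝ) (ha : Weights a) (hb : Weights b) (hab : ∀ l, a l ≤ b l) {n : ℕ}
    (x : Fin n → R3) :
    0 ≤ energy A a x - energy A b x ∧
      energy A a x - energy A b x ≤ C₁ * (∑' l, (b l - a l)) / 2 * scount cell x := by
  have hd := ha.sub hb hab
  have e : energy A a x - energy A b x
      = (dsum x (fun p q => attr (fun l => b l - a l) (dist p q))
          - n * attr (fun l => b l - a l) 0) / 2 := by
    unfold energy pot
    simp only [attr_sub ha hb, dsum_sub, dsum_smul]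
    ring
  rw [e]
  constructor
  · have : (n : ℝ) * attr (fun l => b l - a l) 0
        ≤ dsum x (fun p q => attr (fun l => b l - a l) (dist p q)) := by
      unfold dsum
      calc (n : ℝ) * attr (fun l => b l - a l) 0
          = ∑ i, attr (fun l => b l - a l) (dist (x i) (x i)) := by simp
        _ ≤ _ := Finset.sum_le_sum fun i _ => Finset.single_le_sum
            (f := fun j => attr (fun l => b l - a l) (dist (x i) (x j)))
            (fun j _ => attr_nonneg hd _) (Finset.mem_univ i)
    linarith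
  · have h1 := dsum_attr_le hd x
    have h3 : 0 ≤ (n : ℝ) * attr (fun l => b l - a l) 0 :=
      mul_nonneg (Nat.cast_nonneg n) (attr_nonneg hd 0)
    linarith

/-- The constant in `t·Σ_pairs g_l ≤ C₂ t n_B²/|B|`. -/
noncomputable def C₂ : ℝ := 27 * 48 ^ 3 / 2

lemma ediv_add_self_one {b : ℤ} (hb : b ≠ 0) (a : ℤ) : (a + b) / b = a / b + 1 := by
  simpa using Int.add_mul_ediv_left a 1 hb

lemma ediv_shift_sum (w : ℕ) (hw : 0 < w) (c : ℤ) :
    ∑ s ∈ Finset.range w, (c + 1 + (s : ℤ)) / (w : ℤ)
      = (∑ s ∈ Finset.range w, (c + (s : ℤ)) / (w : ℤ)) + 1 := by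
  have h1 := Finset.sum_range_succ (fun s : ℕ => (c + (s : ℤ)) / (w : ℤ)) w
  have h2 := Finset.sum_range_succ' (fun s : ℕ => (c + (s : ℤ)) / (w : ℤ)) w
  have h3 : (c + (w : ℤ)) / (w : ℤ) = c / (w : ℤ) + 1 :=
    ediv_add_self_one (by exact_mod_cast hw.ne') c
  push_cast at h2
  simp only [add_zero] at h2
  rw [h1, h3] at h2
  have h4 : ∑ s ∈ Finset.range w, (c + 1 + (s : ℤ)) / (w : ℤ)
      = ∑ s ∈ Finset.range w, (c + ((s : ℤ) + 1)) / (w : ℤ) :=
    Finset.sum_congr rfl fun s _ => by congr 1; ring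
  rw [h4]
  linarith

lemma ediv_shift_sum_eq (w : ℕ) (hw : 0 < w) (c : ℤ) (d : ℕ) :
    ∑ s ∈ Finset.range w, (c + d + (s : ℤ)) / (w : ℤ)
      = (∑ s ∈ Finset.range w, (c + (s : ℤ)) / (w : ℤ)) + d := by
  induction d with
  | zero => simp
  | succ d ih =>
    have := ediv_shift_sum w hw (c + d)
    rw [ih] at this
    push_cast
    rw [← add_assoc c]
    linarith

lemma axis_cross_count (w : ℕ) (hw : 0 < w) (c c' : ℤ) :
    ∑ s ∈ Finset.range w,
        (if (c + (s : ℤ)) / (w : ℤ) = (c' + (s : ℤ)) / (w : ℤ) then (0 : ℝ) else 1)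
      ≤ |c' - c| := by
  wlog h : c ≤ c' generalizing c c'
  · rw [abs_sub_comm]
    simpa [eq_comm] using this c' c (le_of_not_ge h)
  obtain ⟨d, rfl⟩ : ∃ d : ℕ, c' = c + d := ⟨(c' - c).toNat, by omega⟩
  have h1 := ediv_shift_sum_eq w hw c d
  calc _ ≤ ∑ s ∈ Finset.range w,
        (((c + d + (s : ℤ)) / (w : ℤ) - (c + (s : ℤ)) / (w : ℤ) : ℤ) : ℝ) := by
        refine Finset.sum_le_sum fun s _ => ?_
        have hm : (c + (s : ℤ)) / (w : ℤ) ≤ (c + d + (s : ℤ)) / (w : ℤ) :=
          Int.ediv_le_ediv (by exact_mod_cast hw) (by omega)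
        split_ifs with he
        · rw [he]; simp
        · exact_mod_cast (show (1 : ℤ) ≤ _ by omega)
    _ = _ := by
        rw [← Int.cast_sum, Finset.sum_sub_distrib, h1]
        simp

/-- The shifts of the block partition. -/
def shifts (w : ℕ) : Finset (Fin 3 → ℕ) := Fintype.piFinset fun _ => Finset.range w

lemma shifts_card (w : ℕ) : ((shifts w).card : ℝ) = (w : ℝ) ^ 3 := by
  simp [shifts, Fintype.card_piFinset]

lemma cross_count (w : ℕ) (hw : 0 < w) (p q : R3) {D : ℕ} (h : ∀ k, |cell q k - cell p k| ≤ D) :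
    ∑ s ∈ shifts w, (1 - same (blk w s) p q) ≤ (w : ℝ) ^ 3 * min (1 : ℝ) (3 * (D : ℝ) / (w : ℝ)) := by
  rw [mul_min_of_nonneg _ _ (by positivity), mul_one, le_min_iff]
  constructor
  · calc _ ≤ ∑ _s ∈ shifts w, (1 : ℝ) :=
          Finset.sum_le_sum fun s _ => by linarith [same_nonneg (blk w s) p q]
      _ = _ := by rw [Finset.sum_const, nsmul_eq_mul, mul_one, shifts_card]
  · set f : Fin 3 → ℕ → ℝ := fun k t =>
      if (cell p k + (t : ℤ)) / (w : ℤ) = (cell q k + (t : ℤ)) / (w : ℤ) then (0 : ℝ) else 1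
      with hf
    have hpt : ∀ s, 1 - same (blk w s) p q ≤ ∑ k, f k (s k) := by
      intro s
      have hnn : ∀ k, 0 ≤ f k (s k) := fun k => by
        simp only [hf]; split_ifs <;> norm_num
      unfold same
      split_ifs with he
      · simpa using Finset.sum_nonneg fun k _ => hnn k
      · obtain ⟨k, hk⟩ := Function.ne_iff.1 he
        refine le_trans ?_ (Finset.single_le_sum (f := fun k => f k (s k)) (fun k _ => hnn k)
          (Finset.mem_univ k))
        simp only [hf]
        rw [if_neg (by exact hk)]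
        norm_num
    have hax : ∀ k, ∑ s ∈ shifts w, f k (s k) ≤ (w : ℝ) ^ 2 * D := by
      intro k
      set e : Fin 3 → ℕ → ℝ := fun j t => if j = k then f k t else 1 with he
      have : ∀ s : Fin 3 → ℕ, f k (s k) = ∏ j, e j (s j) := fun s => by
        rw [Finset.prod_eq_single k (fun j _ hj => by simp [he, hj]) (by simp)]
        simp [he]
      rw [Finset.sum_congr rfl fun s _ => this s, shifts,
        ← Finset.prod_univ_sum (fun _ => Finset.range w) e]
      rw [← Finset.mul_prod_erase _ _ (Finset.mem_univ k)]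
      have h1 : ∑ t ∈ Finset.range w, e k t ≤ (D : ℝ) := by
        simp only [he, if_pos, hf]
        refine (axis_cross_count w hw _ _).trans ?_
        exact_mod_cast h k
      have h2 : ∏ j ∈ (Finset.univ : Finset (Fin 3)).erase k, ∑ t ∈ Finset.range w, e j t
          = (w : ℝ) ^ 2 := by
        rw [Finset.prod_congr rfl (g := fun _ => (w : ℝ)) (fun j hj => by
          simp [he, (Finset.mem_erase.1 hj).1])]
        rw [Finset.prod_const, Finset.card_erase_of_mem (Finset.mem_univ k), Finset.card_fin]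
      rw [h2, mul_comm ((w : ℝ) ^ 2)]
      exact mul_le_mul_of_nonneg_right h1 (by positivity)
    calc _ ≤ ∑ s ∈ shifts w, ∑ k, f k (s k) := Finset.sum_le_sum fun s _ => hpt s
      _ = ∑ k, ∑ s ∈ shifts w, f k (s k) := Finset.sum_comm
      _ ≤ ∑ _k : Fin 3, (w : ℝ) ^ 2 * D := Finset.sum_le_sum fun k _ => hax k
      _ = _ := by
        simp
        field_simp

/-- The error of decoupling blocks of side `w`. -/
noncomputable def err (a : ℕ → ℝ) (w : ℕ) : ℝ :=
  C₁ / 2 * ∑' l, a l * min 1 (144 * ((l : ℝ) + 1) / w)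

lemma Weights.summable_err (ha : Weights a) (w : ℕ) :
    Summable fun l : ℕ => a l * min 1 (144 * ((l : ℝ) + 1) / w) :=
  ha.summable_mul (fun _ => le_min zero_le_one (by positivity)) (fun _ => min_le_left _ _)

lemma err_nonneg (ha : Weights a) (w : ℕ) : 0 ≤ err a w :=
  mul_nonneg (by linarith [C₁_pos]) (tsum_nonneg fun l =>
    mul_nonneg (ha.nonneg l) (le_min zero_le_one (by positivity)))

lemma tendsto_err (ha : Weights a) : Tendsto (err a) atTop (𝓝 0) := by
  have h : Tendsto (fun w : ℕ => ∑' l, a l * min 1 (144 * ((l : ℝ) + 1) / w)) atTop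
      (𝓝 (∑' _l : ℕ, (0 : ℝ))) := by
    refine tendsto_tsum_of_dominated_convergence ha.summable (fun l => ?_) ?_
    · have : Tendsto (fun w : ℕ => 144 * ((l : ℝ) + 1) / w) atTop (𝓝 0) :=
        tendsto_const_div_atTop_nhds_zero_nat _
      simpa using ((tendsto_const_nhds (x := (1 : ℝ))).min this).const_mul (a l)
    · refine Filter.Eventually.of_forall fun w l => ?_
      rw [Real.norm_eq_abs, abs_of_nonneg
        (mul_nonneg (ha.nonneg l) (le_min zero_le_one (by positivity)))]
      exact mul_le_of_le_one_right (ha.nonneg l) (min_le_left _ _)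
  have h' := h.const_mul (C₁ / 2)
  simp only [tsum_zero, mul_zero] at h'
  exact h'

/-- Energy with the interaction between different blocks deleted. -/
noncomputable def energyDec (A : ℝ) (a : ℕ → ℝ) (w : ℕ) (s : Fin 3 → ℕ) {n : ℕ}
    (x : Fin n → R3) : ℝ :=
  (dsum x (fun p q => same (blk w s) p q * pot A a (dist p q)) - n * pot A a 0) / 2

/-- Some shift makes the deleted interaction small. -/
lemma exists_good_shift (A : ℝ) (hA : 0 ≤ A) (ha : Weights a) (w : ℕ) (hw : 0 < w) {n : ℕ}
    (x : Fin n → R3) :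
    ∃ s ∈ shifts w, energyDec A a w s x - err a w * scount cell x ≤ energy A a x := by
  set cr : (Fin 3 → ℕ) → R3 → R3 → ℝ := fun s p q => (1 - same (blk w s) p q) with hcr
  have hlow : ∀ s, energyDec A a w s x - (dsum x fun p q => cr s p q * attr a (dist p q)) / 2
      ≤ energy A a x := by
    intro s
    have : dsum x (fun p q => same (blk w s) p q * pot A a (dist p q))
        - dsum x (fun p q => cr s p q * attr a (dist p q))
        ≤ dsum x (fun p q => pot A a (dist p q)) := by
      rw [← dsum_sub]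
      refine dsum_mono x fun p q => ?_
      have h1 : 0 ≤ A * core (dist p q) := mul_nonneg hA (eta_nonneg _)
      have h2 : 0 ≤ 1 - same (blk w s) p q := sub_nonneg.2 (same_le_one _ _ _)
      simp only [hcr, pot]
      nlinarith
    unfold energyDec energy
    linarith
  have hsum : ∑ s ∈ shifts w, (dsum x fun p q => cr s p q * attr a (dist p q)) / 2
      ≤ ∑ _s ∈ shifts w, err a w * scount cell x := by
    rw [Finset.sum_const, nsmul_eq_mul, shifts_card, ← Finset.sum_div]
    have hswap : ∑ s ∈ shifts w, (dsum x fun p q => cr s p q * attr a (dist p q))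
        = dsum x fun p q => (∑ s ∈ shifts w, cr s p q) * attr a (dist p q) := by
      simp only [dsum, Finset.sum_mul]
      rw [Finset.sum_comm]
      exact Finset.sum_congr rfl fun i _ => Finset.sum_comm
    rw [hswap]
    have hb : ∀ p q, (∑ s ∈ shifts w, cr s p q) * attr a (dist p q) ≤
        (w : ℝ) ^ 3 * ∑' l, (a l * min 1 (144 * ((l : ℝ) + 1) / w)) * prof l (dist p q) := by
      intro p q
      rw [← tsum_mul_left, attr, ← tsum_mul_left]
      have hs : Summable fun l : ℕ =>
          (w : ℝ) ^ 3 * ((a l * min 1 (144 * ((l : ℝ) + 1) / w)) * prof l (dist p q)) := by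
        refine Summable.mul_left _ (Summable.of_nonneg_of_le
          (fun l => mul_nonneg (mul_nonneg (ha.nonneg l) (le_min zero_le_one (by positivity)))
            (prof_nonneg _ _)) (fun l => ?_) (ha.summable_err w))
        exact mul_le_of_le_one_right
          (mul_nonneg (ha.nonneg l) (le_min zero_le_one (by positivity))) (prof_le_one _ _)
      refine Summable.tsum_le_tsum (fun l => ?_) ((ha.summable_prof _).mul_left _) hs
      by_cases hd : 48 * ((l : ℝ) + 1) ≤ dist p q
      · simp [prof_eq_zero hd]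
      · push Not at hd
        have hc := cross_count w hw p q (D := 48 * (l + 1))
          (cell_diff_le (by push_cast; exact hd))
        push_cast at hc
        rw [show 3 * (48 * ((l : ℝ) + 1)) = 144 * ((l : ℝ) + 1) by ring] at hc
        have := mul_le_mul_of_nonneg_right hc
          (mul_nonneg (ha.nonneg l) (prof_nonneg l (dist p q)))
        nlinarith [this]
    have hm := dsum_mono x hb
    rw [dsum_smul] at hm
    have hw' : Weights fun l : ℕ => a l * min 1 (144 * ((l : ℝ) + 1) / w) :=
      ⟨fun l => mul_nonneg (ha.nonneg l) (le_min zero_le_one (by positivity)), ha.summable_err w⟩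
    have hat := dsum_attr_le hw' x
    unfold attr at hat
    have := mul_le_mul_of_nonneg_left hat (show (0 : ℝ) ≤ (w : ℝ) ^ 3 by positivity)
    unfold err
    linarith [hm.trans this]
  have hne : (shifts w).Nonempty := ⟨fun _ => 0, by simp [shifts, hw]⟩
  obtain ⟨s, hs, hle⟩ := Finset.exists_le_of_sum_le hne hsum
  exact ⟨s, hs, by linarith [hlow s]⟩

lemma dsum_prof_le_blk (l : ℕ) (s : Fin 3 → ℕ) {n : ℕ} (x : Fin n → R3) :
    dsum x (fun p q => prof l (dist p q))
      ≤ 27 / ((l : ℝ) + 1) ^ 3 * scount (blk (48 * (l + 1)) s) x := by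
  refine (dsum_le_card_mul_scount (lab := blk (48 * (l + 1)) s) 1 _ (1 / ((l : ℝ) + 1) ^ 3)
    (by positivity) (fun p q => prof_le l _) ?_ x).trans_eq (by push_cast; ring)
  rintro p q ⟨i, hi⟩
  rw [prof_eq_zero]
  by_contra hc
  push Not at hc
  have hcd := abs_le.1 (cell_diff_le (D := 48 * (l + 1)) (by push_cast; exact hc) i)
  set W : ℤ := ((48 * (l + 1) : ℕ) : ℤ) with hW
  have hWpos : 0 < W := by omega
  have a1 : (cell q i + (s i : ℤ)) / W ≤ (cell p i + (s i : ℤ)) / W + 1 := by
    rw [← ediv_add_self_one hWpos.ne']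
    exact Int.ediv_le_ediv hWpos (by omega)
  have a2 : (cell p i + (s i : ℤ)) / W ≤ (cell q i + (s i : ℤ)) / W + 1 := by
    rw [← ediv_add_self_one hWpos.ne']
    exact Int.ediv_le_ediv hWpos (by omega)
  have : |blk (48 * (l + 1)) s q i - blk (48 * (l + 1)) s p i| ≤ 1 := by
    rw [abs_le]; unfold blk; rw [← hW]; constructor <;> omega
  push_cast at hi
  omega

end Vale.Agent.P171
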