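import Mathlib
import Vale.Agent.P171.Geometry

/-!
Finite-volume log partition functions of `pot A a` at `β = 1`, superadditivity, and the
thermodynamic limit `pres A a μ`.
-/

open MeasureTheory Filter Topology
open scoped BigOperators ENNReal

namespace Vale.Agent.P171

/-- `log` of an extended nonnegative real. -/
noncomputable def elog (X : ℝ≥0∞) : ℝ := Real.log X.toReal

lemma elog_nonneg {X : ℝ≥0∞} (h : 1 ≤ X) : 0 ≤ elog X := by
  rcases eq_or_ne X ∞ with rfl | hX
  · simp [elog]
  · exact Real.log_nonneg (by simpa using ENNReal.toReal_mono hX h)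

lemma elog_mono {X Y : ℝ≥0∞} (h1 : 1 ≤ X) (h : X ≤ Y) (hY : Y ≠ ∞) : elog X ≤ elog Y := by
  have hX : X ≠ ∞ := ne_top_of_le_ne_top hY h
  refine Real.log_le_log ?_ (ENNReal.toReal_mono hY h)
  exact lt_of_lt_of_le one_pos (by simpa using ENNReal.toReal_mono hX h1)

lemma elog_le_iff {X : ℝ≥0∞} (h1 : 1 ≤ X) {c : ℝ} (h : X ≤ ENNReal.ofReal (Real.exp c)) :
    elog X ≤ c := by
  refine (elog_mono h1 h ENNReal.ofReal_ne_top).trans_eq ?_
  rw [elog, ENNReal.toReal_ofReal (Real.exp_pos c).le, Real.log_exp]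

lemma ofReal_exp_elog {X : ℝ≥0∞} (h1 : 1 ≤ X) (h : X ≠ ∞) :
    ENNReal.ofReal (Real.exp (elog X)) = X := by
  rw [elog, Real.exp_log, ENNReal.ofReal_toReal h]
  exact lt_of_lt_of_le one_pos (by simpa using ENNReal.toReal_mono h h1)

lemma elog_pow (X : ℝ≥0∞) (k : ℕ) : elog (X ^ k) = k * elog X := by
  simp [elog, ENNReal.toReal_pow, Real.log_pow]

/-- Translation vector. -/
noncomputable def vec (f : Fin 3 → ℝ) : R3 := WithLp.toLp 2 f

lemma vec_apply (f : Fin 3 → ℝ) (k : Fin 3) : vec f k = f k := rfl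

lemma cube_eq (L : ℝ) :
    cube L = (WithLp.ofLp : R3 → Fin 3 → ℝ) ⁻¹' (Set.univ.pi fun _ => Set.Icc 0 L) := by
  ext x
  simp only [cube, Set.mem_ofPred_eq, Set.mem_preimage, Set.mem_univ_pi]

lemma measurableSet_cube (L : ℝ) : MeasurableSet (cube L) := by
  rw [cube_eq]
  exact (PiLp.volume_preserving_ofLp (Fin 3)).measurable
    (MeasurableSet.univ_pi fun _ => measurableSet_Icc)

lemma volume_cube {L : ℝ} (hL : 0 ≤ L) : volume (cube L) = ENNReal.ofReal (L ^ 3) := by
  rw [cube_eq, (PiLp.volume_preserving_ofLp (Fin 3)).measure_preimage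
    (MeasurableSet.univ_pi fun _ => measurableSet_Icc).nullMeasurableSet, volume_pi_pi]
  simp [ENNReal.ofReal_pow hL]

lemma cube_mono {L L' : ℝ} (h : L ≤ L') : cube L ⊆ cube L' :=
  fun _ hx k => ⟨(hx k).1, (hx k).2.trans h⟩

lemma volume_cube_lt_top (L : ℝ) : volume (cube L) < ∞ := by
  refine lt_of_le_of_lt (measure_mono (cube_mono (le_abs_self L))) ?_
  rw [volume_cube (abs_nonneg L)]
  exact ENNReal.ofReal_lt_top

instance isFiniteMeasure_cube (L : ℝ) : IsFiniteMeasure (volume.restrict (cube L)) :=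
  isFiniteMeasure_restrict.2 (volume_cube_lt_top L).ne

/-- The exponent `μ n - U`. -/
noncomputable def ex (A : ℝ) (a : ℕ → ℝ) (μ : ℝ) : Expo := fun n x => μ * n - energy A a x

/-- The weights are admissible and small enough compared to the bump `A`. -/
structure Good (A : ℝ) (a : ℕ → ℝ) : Prop where
  weights : Weights a
  small : C₁ * (∑' l, a l) + 2 ≤ A

variable {A : ℝ} {a b : ℕ → ℝ}

lemma Good.A_nonneg (h : Good A a) : 0 ≤ A :=
  le_trans (by have : 0 ≤ ∑' l, a l := tsum_nonneg h.weights.nonneg; have := C₁_pos; positivity) h.small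

lemma Good.of_le (hb : Good A b) (ha : Weights a) (hab : ∀ l, a l ≤ b l) : Good A a :=
  ⟨ha, le_trans (by
    have := Summable.tsum_le_tsum hab ha.summable hb.weights.summable
    have := C₁_pos
    nlinarith) hb.small⟩

lemma Good.energy_ge_scount (h : Good A a) {n : ℕ} (x : Fin n → R3) :
    scount cell x - A / 2 * n ≤ energy A a x := by
  refine le_trans ?_ (energy_ge A h.A_nonneg h.weights x)
  nlinarith [scount_nonneg cell x, h.small]

lemma measurable_energy (A : ℝ) (ha : Weights a) (n : ℕ) :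
    Measurable (fun x : Fin n → R3 => energy A a x) :=
  ((measurable_dsum (k := fun p q => pot A a (dist p q))
    (((continuous_pot A ha).comp (by fun_prop :
    Continuous fun p : R3 × R3 => dist p.1 p.2)).measurable)).sub measurable_const).div_const 2

lemma measurable_ex (ha : Weights a) (μ : ℝ) (n : ℕ) : Measurable (ex A a μ n) :=
  measurable_const.sub (measurable_energy A ha n)

lemma ex_zero (μ : ℝ) (x : Fin 0 → R3) : ex A a μ 0 x = 0 := by
  simp [ex, energy, dsum]

lemma one_le_gz_ex (m : Measure R3) (μ : ℝ) : 1 ≤ gz m (ex A a μ) :=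
  one_le_gz m _ (ex_zero μ)

lemma Good.gz_ex_le (h : Good A a) (m : Measure R3) [IsFiniteMeasure m] (μ : ℝ) :
    gz m (ex A a μ) ≤ ENNReal.ofReal (Real.exp ((m Set.univ).toReal * Real.exp (μ + A / 2))) := by
  rw [← gz_linear m (μ + A / 2)]
  refine gz_mono fun n x => ?_
  have := h.energy_ge_scount x
  have := scount_nonneg cell x
  simp only [ex]
  nlinarith

lemma Good.gz_ex_ne_top (h : Good A a) (m : Measure R3) [IsFiniteMeasure m] (μ : ℝ) :
    gz m (ex A a μ) ≠ ∞ :=
  ne_top_of_le_ne_top ENNReal.ofReal_ne_top (h.gz_ex_le m μ)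

/-- A small multiple of the cell count costs little. -/
lemma Good.gz_perturb (h : Good A a) (m : Measure R3) [IsFiniteMeasure m] (μ : ℝ) {θ : ℝ}
    (h0 : 0 ≤ θ) (h1 : θ ≤ 1) :
    gz m (fun n x => ex A a μ n x + θ * scount cell x)
      ≤ gz m (ex A a μ)
        * ENNReal.ofReal (Real.exp (θ * ((m Set.univ).toReal * Real.exp (μ + A / 2)))) := by
  have hmK : ∀ n, Measurable fun x : Fin n → R3 => ex A a μ n x + scount cell x := fun n =>
    (measurable_ex h.weights μ n).add (measurable_dsum (by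
      unfold same cell
      refine Measurable.ite ?_ measurable_const measurable_const
      exact measurableSet_eq_fun
        (measurable_pi_lambda _ fun k => Int.measurable_floor.comp (by fun_prop))
        (measurable_pi_lambda _ fun k => Int.measurable_floor.comp (by fun_prop))))
  have hi := gz_interp m (ex A a μ) (fun n x => ex A a μ n x + scount cell x)
    (measurable_ex h.weights μ) hmK h0 h1
  refine le_trans (le_trans (gz_mono fun n x => le_of_eq (by ring)) hi) ?_
  refine mul_le_mul' ?_ ?_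
  · conv_rhs => rw [← ENNReal.rpow_one (gz m (ex A a μ))]
    exact ENNReal.rpow_le_rpow_of_exponent_le (one_le_gz_ex m μ) (by linarith)
  · refine le_trans (ENNReal.rpow_le_rpow (z := θ)
      (?_ : _ ≤ ENNReal.ofReal (Real.exp ((m Set.univ).toReal * Real.exp (μ + A / 2)))) h0) ?_
    · rw [← gz_linear m (μ + A / 2)]
      refine gz_mono fun n x => ?_
      have := h.energy_ge_scount x
      simp only [ex]
      linarith
    · rw [ENNReal.ofReal_rpow_of_pos (Real.exp_pos _), ← Real.exp_mul, mul_comm θ]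

/-- Finite-volume `log Ξ`. -/
noncomputable def lz (A : ℝ) (a : ℕ → ℝ) (μ L : ℝ) : ℝ :=
  elog (gz (volume.restrict (cube L)) (ex A a μ))

lemma lz_nonneg (μ L : ℝ) : 0 ≤ lz A a μ L := elog_nonneg (one_le_gz_ex _ μ)

lemma Good.lz_le (h : Good A a) (μ : ℝ) {L : ℝ} (hL : 0 ≤ L) :
    lz A a μ L ≤ L ^ 3 * Real.exp (μ + A / 2) := by
  refine (elog_le_iff (one_le_gz_ex _ μ) (h.gz_ex_le _ μ)).trans_eq ?_
  rw [Measure.restrict_apply_univ, volume_cube hL, ENNReal.toReal_ofReal (by positivity)]

lemma Good.lz_mono_L (h : Good A a) (μ : ℝ) {L L' : ℝ} (hL : L ≤ L') :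
    lz A a μ L ≤ lz A a μ L' :=
  elog_mono (one_le_gz_ex _ μ) (gz_mono_set (measurableSet_cube L) (cube_mono hL) _)
    (h.gz_ex_ne_top _ μ)

lemma Good.lz_mono_a (hb : Good A b) (ha : Weights a) (hab : ∀ l, a l ≤ b l) (μ L : ℝ) :
    lz A a μ L ≤ lz A b μ L :=
  elog_mono (one_le_gz_ex _ μ)
    (gz_mono fun n x => by
      simp only [ex]
      linarith [(energy_sub A ha hb.weights hab x).1])
    (hb.gz_ex_ne_top _ μ)

lemma Good.lz_change (hb : Good A b) (ha : Weights a) (hab : ∀ l, a l ≤ b l) (μ : ℝ) {L : ℝ}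
    (hL : 0 ≤ L) (hd : C₁ * (∑' l, (b l - a l)) / 2 ≤ 1) :
    lz A b μ L ≤ lz A a μ L
      + C₁ * (∑' l, (b l - a l)) / 2 * (L ^ 3 * Real.exp (μ + A / 2)) := by
  have hga := hb.of_le ha hab
  set θ := C₁ * (∑' l, (b l - a l)) / 2 with hθ
  have h0 : 0 ≤ θ := by
    have : 0 ≤ ∑' l, (b l - a l) := tsum_nonneg fun l => sub_nonneg.2 (hab l)
    have := C₁_pos
    positivity
  refine elog_le_iff (one_le_gz_ex _ μ) ?_
  refine le_trans (gz_mono (K := fun n x => ex A a μ n x + θ * scount cell x) fun n x => ?_) ?_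
  · have := (energy_sub A ha hb.weights hab x).2
    rw [← hθ] at this
    simp only [ex]
    linarith
  · refine (hga.gz_perturb _ μ h0 hd).trans_eq ?_
    rw [Measure.restrict_apply_univ, volume_cube hL, ENNReal.toReal_ofReal (by positivity),
      Real.exp_add (lz A a μ L), ENNReal.ofReal_mul (Real.exp_pos _).le]
    congr 1
    exact (ofReal_exp_elog (one_le_gz_ex _ μ) (hga.gz_ex_ne_top _ μ)).symm

lemma Good.lz_convex (h : Good A a) (μ ν L : ℝ) {θ : ℝ} (h0 : 0 ≤ θ) (h1 : θ ≤ 1) :
    lz A a ((1 - θ) * μ + θ * ν) L ≤ (1 - θ) * lz A a μ L + θ * lz A a ν L := by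
  refine elog_le_iff (one_le_gz_ex _ _) ?_
  refine le_trans (gz_mono (K := fun n x => (1 - θ) * ex A a μ n x + θ * ex A a ν n x)
    fun n x => le_of_eq (by simp only [ex]; ring)) ?_
  refine (gz_interp _ _ _ (measurable_ex h.weights μ) (measurable_ex h.weights ν) h0 h1).trans_eq ?_
  rw [Real.exp_add, ENNReal.ofReal_mul (Real.exp_pos _).le, mul_comm (1 - θ), mul_comm θ,
    Real.exp_mul, Real.exp_mul, ← ENNReal.ofReal_rpow_of_pos (Real.exp_pos _),
    ← ENNReal.ofReal_rpow_of_pos (Real.exp_pos _), lz, lz,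
    ofReal_exp_elog (one_le_gz_ex _ _) (h.gz_ex_ne_top _ _),
    ofReal_exp_elog (one_le_gz_ex _ _) (h.gz_ex_ne_top _ _)]

/-- A translate of a cube by `p·v`. -/
def gbox (p m : ℝ) (v : Fin 3 → ℕ) : Set R3 :=
  {x | ∀ k, x k - p * v k ∈ Set.Icc 0 m}

lemma gbox_eq (p m : ℝ) (v : Fin 3 → ℕ) :
    gbox p m v = (fun y => y + vec fun k => -(p * v k)) ⁻¹' cube m := by
  ext x
  simp [gbox, cube, vec_apply, sub_eq_add_neg]

lemma measurableSet_gbox (p m : ℝ) (v : Fin 3 → ℕ) : MeasurableSet (gbox p m v) := by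
  rw [gbox_eq]
  exact (measurable_add_const _) (measurableSet_cube m)

lemma ae_pi_mem {n : ℕ} (D : Fin n → Set R3) (hD : ∀ k, MeasurableSet (D k)) :
    ∀ᵐ x ∂(Measure.pi fun k => (volume : Measure R3).restrict (D k)), ∀ k, x k ∈ D k := by
  rw [← Measure.restrict_pi_pi]
  exact (ae_restrict_mem (MeasurableSet.univ_pi hD)).mono fun x hx k => hx k (Set.mem_univ k)

lemma ae_split_mem {n : ℕ} (S : Finset (Fin n)) {D₀ D₁ : Set R3} (h0 : MeasurableSet D₀)
    (h1 : MeasurableSet D₁) :
    ∀ᵐ x ∂(Measure.pi fun k => if k ∈ S then (volume : Measure R3).restrict D₁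
        else (volume : Measure R3).restrict D₀),
      (∀ k ∈ S, x k ∈ D₁) ∧ (∀ k ∈ Sᶜ, x k ∈ D₀) := by
  have heq : (fun k => if k ∈ S then (volume : Measure R3).restrict D₁
        else (volume : Measure R3).restrict D₀)
      = fun k => (volume : Measure R3).restrict (if k ∈ S then D₁ else D₀) := by
    funext k; split_ifs <;> rfl
  rw [heq]
  refine (ae_pi_mem _ fun k => by split_ifs <;> assumption).mono fun x hx => ⟨?_, ?_⟩
  · intro k hk; simpa [if_pos hk] using hx k
  · intro k hk; simpa [if_neg (Finset.mem_compl.1 hk)] using hx k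

lemma card_compl_add {n : ℕ} (S : Finset (Fin n)) : (S.card : ℝ) + Sᶜ.card = n := by
  rw [← Nat.cast_add, Finset.card_add_card_compl, Fintype.card_fin]

lemma Good.lz_grid (h : Good A a) (μ : ℝ) (m K : ℕ) :
    (K : ℝ) ^ 3 * lz A a μ m ≤ lz A a μ ((K : ℝ) * ((m : ℝ) + 4)) := by
  classical
  set p : ℝ := (m : ℝ) + 4 with hp
  have hfin : ∀ T : Finset (Fin 3 → ℕ), IsFiniteMeasure
      (volume.restrict (⋃ v ∈ T, gbox p m v)) := by
    intro T
    refine isFiniteMeasure_restrict.2 (lt_of_le_of_lt (measure_biUnion_finset_le T _) ?_).ne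
    refine ENNReal.sum_lt_top.2 fun v _ => ?_
    rw [gbox_eq, measure_preimage_add_right]
    exact volume_cube_lt_top _
  have hone : ∀ v, gz (volume.restrict (gbox p m v)) (ex A a μ)
      = gz (volume.restrict (cube m)) (ex A a μ) := by
    intro v
    haveI : IsFiniteMeasure
        (volume.restrict ((fun y => y + vec fun k => -(p * v k)) ⁻¹' cube (m : ℝ))) := by
      refine isFiniteMeasure_restrict.2 ?_
      rw [measure_preimage_add_right]
      exact (volume_cube_lt_top _).ne
    rw [gbox_eq]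
    refine gz_translate _ _ _ (measurable_ex h.weights μ) fun n x => ?_
    simp only [ex, energy, dsum, dist_add_right]
  have hprod : ∀ T : Finset (Fin 3 → ℕ),
      gz (volume.restrict (cube m)) (ex A a μ) ^ T.card
        ≤ gz (volume.restrict (⋃ v ∈ T, gbox p m v)) (ex A a μ) := by
    intro T
    induction T using Finset.induction with
    | empty => simpa using one_le_gz_ex _ μ
    | insert v T hv ih =>
      rw [Finset.card_insert_of_notMem hv, pow_succ']
      have hdis : Disjoint (⋃ u ∈ T, gbox p m u) (gbox p m v) := by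
        rw [Set.disjoint_left]
        intro x hx hx'
        simp only [Set.mem_iUnion] at hx
        obtain ⟨u, hu, hxu⟩ := hx
        obtain ⟨k, hk⟩ := Function.ne_iff.1 (fun e : u = v => hv (e ▸ hu))
        have h1 := hxu k
        have h2 := hx' k
        simp only [Set.mem_Icc] at h1 h2
        rcases Nat.lt_or_gt_of_ne hk with hlt | hlt
        · have : (u k : ℝ) + 1 ≤ v k := by exact_mod_cast hlt
          nlinarith
        · have : (v k : ℝ) + 1 ≤ u k := by exact_mod_cast hlt
          nlinarith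
      rw [Finset.set_biUnion_insert, Set.union_comm, Measure.restrict_union hdis
        (measurableSet_gbox p m v)]
      haveI := hfin T
      haveI : IsFiniteMeasure (volume.restrict (gbox p m v)) := by
        refine isFiniteMeasure_restrict.2 ?_
        rw [gbox_eq, measure_preimage_add_right]
        exact (volume_cube_lt_top _).ne
      refine le_trans ?_ (le_gz_add _ _ _ (measurable_ex h.weights μ) fun n S => ?_)
      · rw [hone v]; exact mul_le_mul' le_rfl ih
      · have hU : MeasurableSet (⋃ u ∈ T, gbox p m u) :=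
          T.measurableSet_biUnion fun u _ => measurableSet_gbox p m u
        filter_upwards [ae_split_mem S hU (measurableSet_gbox p m v)] with x hx
        have hsp := dsum_split x S fun y z => pot A a (dist y z)
        have hneg : ∑ i ∈ S, ∑ j ∈ Sᶜ,
            (pot A a (dist (x i) (x j)) + pot A a (dist (x j) (x i))) ≤ 0 := by
          refine Finset.sum_nonpos fun i hi => Finset.sum_nonpos fun j hj => ?_
          have hd : 4 ≤ dist (x i) (x j) := by
            have h1 := hx.1 i hi
            have h2 := hx.2 j hj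
            simp only [Set.mem_iUnion] at h2
            obtain ⟨u, hu, hxu⟩ := h2
            obtain ⟨k, hk⟩ := Function.ne_iff.1 (fun e : u = v => hv (e ▸ hu))
            have a1 := h1 k
            have a2 := hxu k
            simp only [Set.mem_Icc] at a1 a2
            refine le_trans ?_ (abs_coord_le_dist (x i) (x j) k)
            rcases Nat.lt_or_gt_of_ne hk with hlt | hlt
            · have : (u k : ℝ) + 1 ≤ v k := by exact_mod_cast hlt
              exact le_trans (by nlinarith) (le_abs_self _)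
            · have : (v k : ℝ) + 1 ≤ u k := by exact_mod_cast hlt
              exact le_trans (by nlinarith) (neg_le_abs _)
          rw [dist_comm (x j) (x i)]
          linarith [pot_nonpos A h.weights hd]
        simp only [ex, energy]
        rw [← card_compl_add S]
        linarith
  set T := Fintype.piFinset fun _ : Fin 3 => Finset.range K with hT
  have hsub : (⋃ v ∈ T, gbox p m v) ⊆ cube ((K : ℝ) * p) := by
    intro x hx k
    simp only [Set.mem_iUnion] at hx
    obtain ⟨v, hv, hxv⟩ := hx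
    have h1 := hxv k
    have hvk : (v k : ℝ) + 1 ≤ K := by
      exact_mod_cast Finset.mem_range.1 (Fintype.mem_piFinset.1 hv k)
    simp only [Set.mem_Icc] at h1 ⊢
    constructor <;> nlinarith [(Nat.cast_nonneg (v k) : (0:ℝ) ≤ v k)]
  have hm : MeasurableSet (⋃ v ∈ T, gbox p m v) :=
    T.measurableSet_biUnion fun u _ => measurableSet_gbox p m u
  have key := (hprod T).trans (gz_mono_set hm hsub (ex A a μ))
  have hc : T.card = K ^ 3 := by simp [hT, Fintype.card_piFinset]
  have := elog_mono (one_le_pow₀ (one_le_gz_ex _ μ)) key (h.gz_ex_ne_top _ μ)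
  rw [elog_pow, hc] at this
  push_cast at this
  exact this

/-- The pressure (times `β = 1`) as a function of `μ = log z`. -/
noncomputable def pres (A : ℝ) (a : ℕ → ℝ) (μ : ℝ) : ℝ :=
  ⨆ n : ℕ, lz A a μ n / ((n : ℝ) + 4) ^ 3

lemma Good.lz_div_le (h : Good A a) (μ : ℝ) (n : ℕ) :
    lz A a μ n / ((n : ℝ) + 4) ^ 3 ≤ Real.exp (μ + A / 2) := by
  rw [div_le_iff₀ (by positivity)]
  refine (h.lz_le μ n.cast_nonneg).trans ?_
  rw [mul_comm]
  gcongr
  linarith

lemma Good.bdd (h : Good A a) (μ : ℝ) :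
    BddAbove (Set.range fun n : ℕ => lz A a μ n / ((n : ℝ) + 4) ^ 3) :=
  ⟨_, by rintro y ⟨n, rfl⟩; exact h.lz_div_le μ n⟩

lemma Good.le_pres (h : Good A a) (μ : ℝ) (n : ℕ) :
    lz A a μ n ≤ ((n : ℝ) + 4) ^ 3 * pres A a μ := by
  have := le_ciSup (h.bdd μ) n
  rw [div_le_iff₀ (by positivity)] at this
  rw [mul_comm]
  exact this

lemma Good.pres_nonneg (h : Good A a) (μ : ℝ) : 0 ≤ pres A a μ :=
  le_trans (div_nonneg (lz_nonneg _ _) (by positivity)) (le_ciSup (h.bdd μ) 0)

/-- The thermodynamic limit. -/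
theorem Good.tendsto_lz (h : Good A a) (μ : ℝ) :
    Tendsto (fun L : ℝ => lz A a μ L / L ^ 3) atTop (𝓝 (pres A a μ)) := by
  have hdiv : ∀ c : ℝ, Tendsto (fun L : ℝ => c / L) atTop (𝓝 0) := fun c =>
    tendsto_const_nhds.div_atTop tendsto_id
  refine tendsto_order.2 ⟨fun y hy => ?_, fun y hy => ?_⟩
  · obtain ⟨m, hm⟩ := exists_lt_of_lt_ciSup hy
    set p : ℝ := (m : ℝ) + 4 with hp
    have hp0 : 0 < p := by positivity
    have hlim : Tendsto (fun L : ℝ => (1 / p - 1 / L) ^ 3 * lz A a μ m) atTop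
        (𝓝 (lz A a μ m / p ^ 3)) := by
      have := (((tendsto_const_nhds (x := 1 / p)).sub (hdiv 1)).pow 3).mul_const (lz A a μ m)
      have h' := this
      rw [sub_zero, div_pow, one_pow, div_mul_eq_mul_div, one_mul] at h'
      exact h'
    filter_upwards [hlim.eventually_const_lt hm, eventually_ge_atTop p] with L hL hLp
    refine hL.trans_le ?_
    have hL0 : 0 < L := hp0.trans_le hLp
    set K := ⌊L / p⌋₊ with hK
    have hK1 : L / p - 1 ≤ K := by linarith [Nat.lt_floor_add_one (L / p)]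
    have hK2 : (K : ℝ) * p ≤ L := (le_div_iff₀ hp0).1 (Nat.floor_le (by positivity))
    have h1 := (h.lz_grid μ m K).trans (h.lz_mono_L μ hK2)
    rw [le_div_iff₀ (by positivity)]
    refine le_trans ?_ h1
    rw [mul_right_comm, ← mul_pow]
    refine mul_le_mul_of_nonneg_right (pow_le_pow_left₀ ?_ ?_ 3) (lz_nonneg _ _)
    · exact mul_nonneg (sub_nonneg.2 (one_div_le_one_div_of_le hp0 hLp)) hL0.le
    · rw [sub_mul, one_div_mul_eq_div, one_div_mul_cancel hL0.ne']
      exact hK1
  · have hlim : Tendsto (fun L : ℝ => (1 + 5 / L) ^ 3 * pres A a μ) atTop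
        (𝓝 (pres A a μ)) := by
      simpa using (((hdiv 5).const_add 1).pow 3).mul_const (pres A a μ)
    filter_upwards [hlim.eventually_lt_const hy, eventually_gt_atTop 0] with L hL hL0
    refine lt_of_le_of_lt ?_ hL
    rw [div_le_iff₀ (by positivity), mul_right_comm, ← mul_pow]
    refine ((h.lz_mono_L μ (Nat.le_ceil L)).trans (h.le_pres μ _)).trans ?_
    refine mul_le_mul_of_nonneg_right (pow_le_pow_left₀ (by positivity) ?_ 3) (h.pres_nonneg μ)
    rw [add_mul, one_mul, div_mul_cancel₀ _ hL0.ne']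
    linarith [Nat.ceil_lt_add_one hL0.le]

lemma Good.pres_mono (hb : Good A b) (ha : Weights a) (hab : ∀ l, a l ≤ b l) (μ : ℝ) :
    pres A a μ ≤ pres A b μ :=
  le_of_tendsto_of_tendsto ((hb.of_le ha hab).tendsto_lz μ) (hb.tendsto_lz μ) (by
    filter_upwards [eventually_ge_atTop 0] with L hL
    exact div_le_div_of_nonneg_right (hb.lz_mono_a ha hab μ L) (by positivity))

lemma Good.pres_change (hb : Good A b) (ha : Weights a) (hab : ∀ l, a l ≤ b l) (μ : ℝ)
    (hd : C₁ * (∑' l, (b l - a l)) / 2 ≤ 1) :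
    pres A b μ ≤ pres A a μ + C₁ * (∑' l, (b l - a l)) / 2 * Real.exp (μ + A / 2) := by
  refine le_of_tendsto_of_tendsto (hb.tendsto_lz μ)
    (((hb.of_le ha hab).tendsto_lz μ).add_const _) ?_
  filter_upwards [eventually_gt_atTop 0] with L hL
  rw [div_le_iff₀ (by positivity)]
  refine (hb.lz_change ha hab μ hL.le hd).trans_eq ?_
  field_simp

lemma Good.convexOn_pres (h : Good A a) : ConvexOn ℝ Set.univ (pres A a) := by
  refine ⟨convex_univ, fun μ _ ν _ u v hu hv huv => ?_⟩
  obtain rfl : u = 1 - v := by linarith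
  simp only [smul_eq_mul]
  refine le_of_tendsto_of_tendsto (h.tendsto_lz _)
    (((h.tendsto_lz μ).const_mul _).add ((h.tendsto_lz ν).const_mul _)) ?_
  filter_upwards [eventually_gt_atTop 0] with L hL
  rw [div_le_iff₀ (by positivity), add_mul, mul_assoc, mul_assoc,
    div_mul_cancel₀ _ (by positivity), div_mul_cancel₀ _ (by positivity)]
  exact h.lz_convex μ ν L hv (by linarith)

lemma Good.continuous_pres (h : Good A a) : Continuous (pres A a) :=
  continuousOn_univ.1 (h.convexOn_pres.continuousOn isOpen_univ)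

lemma pres_zero_le {A : ℝ} (hA : 2 ≤ A) : pres A (fun _ => 0) 0 ≤ 1 := by
  have h : Good A fun _ : ℕ => (0 : ℝ) := ⟨⟨fun _ => le_rfl, summable_zero⟩, by simpa using hA⟩
  refine ciSup_le fun n => ?_
  rw [div_le_one (by positivity)]
  refine le_trans (elog_le_iff (c := (n : ℝ) ^ 3) (one_le_gz_ex _ _) ?_) (by gcongr; linarith)
  refine (gz_mono (K := fun k _ => 0 * (k : ℝ)) fun k x => ?_).trans ?_
  · simp only [ex, zero_mul, zero_sub, neg_nonpos]
    rw [← pairEnergy_eq_energy]
    refine Finset.sum_nonneg fun i _ => Finset.sum_nonneg fun j _ => ?_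
    simp only [pot, attr, zero_mul, tsum_zero, sub_zero]
    exact mul_nonneg h.A_nonneg (eta_nonneg _)
  · rw [gz_linear, Measure.restrict_apply_univ, volume_cube n.cast_nonneg,
      ENNReal.toReal_ofReal (by positivity)]
    simp

end Vale.Agent.P171
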