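import Mathlib
import Vale.Agent.P171.Pressure

/-!
Upper bound on the pressure after adding a weak attraction of long range, by decoupling blocks.
-/

open MeasureTheory Filter Topology
open scoped BigOperators ENNReal

namespace Vale.Agent.P171

variable {A : ℝ} {a b : ℕ → ℝ}

lemma gz_le_sum_of_ae {ι : Type*} (m : Measure R3) (H : Expo) (T : Finset ι) (K : ι → Expo)
    (hK : ∀ i n, Measurable (K i n))
    (h : ∀ n, ∀ᵐ x ∂(Measure.pi fun _ : Fin n => m), ∃ i ∈ T, H n x ≤ K i n x) :
    gz m H ≤ ∑ i ∈ T, gz m (K i) := by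
  unfold gz
  rw [← Summable.tsum_finsetSum fun i _ => ENNReal.summable]
  refine ENNReal.tsum_le_tsum fun n => ?_
  rw [← Finset.mul_sum]
  gcongr 1
  rw [← lintegral_finsetSum _ fun i _ => ((hK i n).exp).ennreal_ofReal]
  refine lintegral_mono_ae ((h n).mono fun x hx => ?_)
  obtain ⟨i, hi, hle⟩ := hx
  exact le_trans (ENNReal.ofReal_le_ofReal (Real.exp_le_exp.2 hle))
    (Finset.single_le_sum (f := fun i => ENNReal.ofReal (Real.exp (K i n x)))
      (fun _ _ => zero_le) hi)

lemma measurable_cell : Measurable cell :=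
  measurable_pi_lambda _ fun k => Int.measurable_floor.comp (by fun_prop)

lemma measurable_blk (w : ℕ) (s : Fin 3 → ℕ) : Measurable (blk w s) :=
  (measurable_of_countable fun c : Fin 3 → ℤ => fun k => (c k + s k) / (w : ℤ)).comp
    measurable_cell

lemma measurable_same {lab : R3 → Fin 3 → ℤ} (h : Measurable lab) :
    Measurable (Function.uncurry (same lab)) := by
  unfold same
  exact Measurable.ite (measurableSet_eq_fun (h.comp measurable_fst) (h.comp measurable_snd))
    measurable_const measurable_const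

lemma measurable_scount {lab : R3 → Fin 3 → ℤ} (h : Measurable lab) (n : ℕ) :
    Measurable (fun x : Fin n → R3 => scount lab x) :=
  measurable_dsum (measurable_same h)

/-- Decoupled exponent. -/
noncomputable def bex (A : ℝ) (a : ℕ → ℝ) (μ δ τ : ℝ) (w : ℕ) (s : Fin 3 → ℕ) : Expo :=
  fun n x => μ * n - energyDec A a w s x + δ * scount cell x + τ * scount (blk w s) x

/-- Exponent inside one block. -/
noncomputable def oneBlock (A : ℝ) (a : ℕ → ℝ) (μ δ τ : ℝ) : Expo :=
  fun n x => ex A a μ n x + δ * scount cell x + τ * (n : ℝ) ^ 2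

lemma measurable_bex (ha : Weights a) (μ δ τ : ℝ) (w : ℕ) (s : Fin 3 → ℕ) (n : ℕ) :
    Measurable (bex A a μ δ τ w s n) := by
  refine ((measurable_const.sub ?_).add ((measurable_scount measurable_cell n).const_mul δ)).add
    ((measurable_scount (measurable_blk w s) n).const_mul τ)
  refine ((measurable_dsum (k := fun p q => same (blk w s) p q * pot A a (dist p q)) ?_).sub
    measurable_const).div_const 2
  exact (measurable_same (measurable_blk w s)).mul
    (((continuous_pot A ha).comp (by fun_prop :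
      Continuous fun p : R3 × R3 => dist p.1 p.2)).measurable)

lemma measurable_oneBlock (ha : Weights a) (μ δ τ : ℝ) (n : ℕ) :
    Measurable (oneBlock A a μ δ τ n) :=
  ((measurable_ex ha μ n).add ((measurable_scount measurable_cell n).const_mul δ)).add_const _

/-- The block with label `v`. -/
def bset (w : ℕ) (s : Fin 3 → ℕ) (v : Fin 3 → ℤ) : Set R3 := {p | blk w s p = v}

lemma measurableSet_bset (w : ℕ) (s : Fin 3 → ℕ) (v : Fin 3 → ℤ) : MeasurableSet (bset w s v) :=
  measurable_blk w s (measurableSet_singleton v)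

lemma cell_add_int (p : R3) (z : Fin 3 → ℤ) : cell (p + vec fun k => z k) = cell p + z := by
  funext k
  simp only [cell, Pi.add_apply, PiLp.add_apply, vec_apply, Int.floor_add_intCast]

lemma bset_eq (w : ℕ) (hw : 0 < w) (s : Fin 3 → ℕ) (v : Fin 3 → ℤ) :
    bset w s v = (fun p => p + vec fun k => (((s k : ℤ) - v k * w : ℤ) : ℝ))
      ⁻¹' bset w (fun _ => 0) 0 := by
  ext p
  simp only [bset, Set.mem_preimage, Set.mem_ofPred_eq, funext_iff, blk]
  refine forall_congr' fun k => ?_
  rw [cell_add_int p fun k => (s k : ℤ) - v k * w]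
  simp only [Pi.add_apply, Pi.zero_apply, Nat.cast_zero, add_zero]
  rw [show cell p k + ((s k : ℤ) - v k * w) = (cell p k + s k) + (-v k) * w by ring,
    Int.add_mul_ediv_right _ _ (by exact_mod_cast hw.ne')]
  omega

lemma bset_zero_subset (w : ℕ) (hw : 0 < w) : bset w (fun _ => 0) 0 ⊆ cube w := by
  intro p hp k
  have h := congrFun hp k
  simp only [blk, Nat.cast_zero, add_zero, Pi.zero_apply, cell] at h
  have hw' : (0 : ℤ) < w := by exact_mod_cast hw
  have h1 := Int.ediv_mul_le ⌊p k⌋ hw'.ne'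
  have h2 := Int.lt_ediv_add_one_mul_self ⌊p k⌋ hw'
  rw [h] at h1 h2
  simp only [zero_mul, zero_add, one_mul] at h1 h2
  refine ⟨le_trans (by exact_mod_cast h1) (Int.floor_le _), ?_⟩
  have : (⌊p k⌋ : ℝ) + 1 ≤ w := by exact_mod_cast h2
  linarith [Int.lt_floor_add_one (p k)]

lemma volume_bset_lt_top (w : ℕ) (hw : 0 < w) (s : Fin 3 → ℕ) (v : Fin 3 → ℤ) :
    volume (bset w s v) < ∞ := by
  rw [bset_eq w hw, measure_preimage_add_right]
  exact lt_of_le_of_lt (measure_mono (bset_zero_subset w hw)) (volume_cube_lt_top _)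

lemma gz_bex_block (ha : Weights a) (μ δ τ : ℝ) (w : ℕ) (hw : 0 < w) (s : Fin 3 → ℕ)
    (v : Fin 3 → ℤ) :
    gz (volume.restrict (bset w s v)) (bex A a μ δ τ w s)
      ≤ gz (volume.restrict (bset w (fun _ => 0) 0)) (oneBlock A a μ δ τ) := by
  haveI : IsFiniteMeasure (volume.restrict (bset w s v)) :=
    isFiniteMeasure_restrict.2 (volume_bset_lt_top w hw s v).ne
  haveI : IsFiniteMeasure (volume.restrict (bset w (fun _ => 0) 0)) :=
    isFiniteMeasure_restrict.2 (volume_bset_lt_top w hw _ _).ne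
  refine le_trans (gz_le_of_ae (K := oneBlock A a μ δ τ) fun n => ?_) (le_of_eq ?_)
  · filter_upwards [ae_pi_mem (fun _ : Fin n => bset w s v)
      fun _ => measurableSet_bset w s v] with x hx
    have hs : ∀ i j, same (blk w s) (x i) (x j) = 1 := fun i j => by
      unfold same; rw [if_pos ((hx i).trans (hx j).symm)]
    have h1 : energyDec A a w s x = energy A a x := by
      simp only [energyDec, energy, dsum, hs, one_mul]
    have h2 : scount (blk w s) x = (n : ℝ) ^ 2 := by simp [scount, dsum, hs, sq]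
    simp only [bex, oneBlock, ex, h1, h2, le_refl]
  · have e := bset_eq w hw s v
    haveI : IsFiniteMeasure (volume.restrict
        ((fun p => p + vec fun k => (((s k : ℤ) - v k * w : ℤ) : ℝ))
          ⁻¹' bset w (fun _ => 0) 0)) := by
      rw [← e]; infer_instance
    rw [e]
    refine gz_translate _ _ _ (measurable_oneBlock ha μ δ τ) fun n x => ?_
    have hc : scount cell (fun k => x k + vec fun k => (((s k : ℤ) - v k * w : ℤ) : ℝ))
        = scount cell x := by
      simp only [scount, dsum, same, cell_add_int, add_left_inj]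
      exact Finset.sum_congr rfl fun i _ => Finset.sum_congr rfl fun j _ => by congr
    simp only [oneBlock, ex, energy, hc, dsum, dist_add_right]

lemma gz_bex_union (ha : Weights a) (μ δ τ : ℝ) (w : ℕ) (hw : 0 < w) (s : Fin 3 → ℕ)
    (T : Finset (Fin 3 → ℤ)) :
    gz (volume.restrict (⋃ v ∈ T, bset w s v)) (bex A a μ δ τ w s)
      ≤ gz (volume.restrict (bset w (fun _ => 0) 0)) (oneBlock A a μ δ τ) ^ T.card := by
  classical
  induction T using Finset.induction with
  | empty =>
    simp only [Finset.notMem_empty, Set.iUnion_false, Set.iUnion_empty, Measure.restrict_empty,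
      Finset.card_empty, pow_zero]
    refine le_trans (gz_le_of_ae (K := fun n _ => 0 * (n : ℝ)) fun n => ?_) ?_
    · rcases n with _ | n
      · refine Filter.Eventually.of_forall fun x => le_of_eq ?_
        simp [bex, energyDec, scount, dsum]
      · have hz : (Measure.pi fun _ : Fin (n + 1) => (0 : Measure R3)) = 0 := by
          refine Measure.measure_univ_eq_zero.1 ?_
          simp [Measure.pi_univ]
        rw [hz]
        simp
    · rw [gz_linear]; simp
  | insert v T hv ih =>
    have hU : MeasurableSet (⋃ u ∈ T, bset w s u) :=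
      T.measurableSet_biUnion fun u _ => measurableSet_bset w s u
    have hdis : Disjoint (⋃ u ∈ T, bset w s u) (bset w s v) := by
      rw [Set.disjoint_left]
      intro x hx hx'
      simp only [Set.mem_iUnion] at hx
      obtain ⟨u, hu, hxu⟩ := hx
      exact hv ((Eq.trans (Eq.symm hxu) hx' : u = v) ▸ hu)
    rw [Finset.card_insert_of_notMem hv, pow_succ', Finset.set_biUnion_insert, Set.union_comm,
      Measure.restrict_union hdis (measurableSet_bset w s v)]
    haveI : IsFiniteMeasure (volume.restrict (⋃ u ∈ T, bset w s u)) :=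
      isFiniteMeasure_restrict.2 (lt_of_le_of_lt (measure_biUnion_finset_le T _)
        (ENNReal.sum_lt_top.2 fun u _ => volume_bset_lt_top w hw s u)).ne
    haveI : IsFiniteMeasure (volume.restrict (bset w s v)) :=
      isFiniteMeasure_restrict.2 (volume_bset_lt_top w hw s v).ne
    refine le_trans (gz_add_le _ _ _ (measurable_bex ha μ δ τ w s) fun n S => ?_)
      (mul_le_mul' (gz_bex_block ha μ δ τ w hw s v) ih)
    filter_upwards [ae_split_mem S hU (measurableSet_bset w s v)] with x hx
    have hne : ∀ i ∈ S, ∀ j ∈ Sᶜ, blk w s (x i) ≠ blk w s (x j) := by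
      intro i hi j hj he
      have h1 : blk w s (x i) = v := hx.1 i hi
      have h2 := hx.2 j hj
      simp only [Set.mem_iUnion] at h2
      obtain ⟨u, hu, hxu⟩ := h2
      exact hv ((show u = v from hxu.symm.trans (he.symm.trans h1)) ▸ hu)
    have hcross : ∀ k : R3 → R3 → ℝ, (∀ p q, blk w s p ≠ blk w s q → k p q = 0) →
        dsum x k = dsum (fun i => x (sel S i)) k + dsum (fun i => x (sel Sᶜ i)) k := by
      intro k hk
      rw [dsum_split x S k, add_eq_left]
      exact Finset.sum_eq_zero fun i hi => Finset.sum_eq_zero fun j hj => by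
        rw [hk _ _ (hne i hi j hj), hk _ _ (fun h => hne i hi j hj h.symm), add_zero]
    have c1 := hcross (fun p q => same (blk w s) p q * pot A a (dist p q)) fun p q h => by
      simp [same, h]
    have c2 := hcross (same cell) fun p q h => by
      unfold same
      rw [if_neg]
      exact fun e => h (by funext k; simp only [blk, e])
    have c3 := hcross (same (blk w s)) fun p q h => by simp [same, h]
    simp only [bex, energyDec, scount, c1, c2, c3]
    rw [← card_compl_add S]
    linarith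

lemma cube_subset_bset (w : ℕ) (hw : 0 < w) (s : Fin 3 → ℕ) (hs : s ∈ shifts w) (K : ℕ) :
    cube ((w : ℝ) * K)
      ⊆ ⋃ v ∈ Fintype.piFinset (fun _ : Fin 3 => Finset.Icc (0 : ℤ) K), bset w s v := by
  intro p hp
  simp only [Set.mem_iUnion]
  refine ⟨blk w s p, Fintype.mem_piFinset.2 fun k => ?_, rfl⟩
  have h0 : (0 : ℤ) ≤ cell p k := Int.floor_nonneg.2 (hp k).1
  have h1 : cell p k ≤ (w : ℤ) * K := by
    have : ((cell p k : ℤ) : ℝ) ≤ (((w : ℤ) * K : ℤ) : ℝ) := by
      push_cast
      exact (Int.floor_le _).trans (hp k).2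
    exact_mod_cast this
  have h2 : (s k : ℤ) < w := by
    exact_mod_cast Finset.mem_range.1 (Fintype.mem_piFinset.1 hs k)
  have hw' : (0 : ℤ) < w := by exact_mod_cast hw
  rw [Finset.mem_Icc]
  refine ⟨Int.ediv_nonneg (by omega) hw'.le, ?_⟩
  have : (cell p k + (s k : ℤ)) / (w : ℤ) < (K : ℤ) + 1 := by
    rw [Int.ediv_lt_iff_lt_mul hw']
    nlinarith
  show (cell p k + (s k : ℤ)) / (w : ℤ) ≤ K
  omega

/-- Adding `t` at index `l`. -/
noncomputable def bump (a : ℕ → ℝ) (l : ℕ) (t : ℝ) : ℕ → ℝ := fun i => a i + if i = l then t else 0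

lemma summable_bump_part (l : ℕ) (t : ℝ) : Summable fun i : ℕ => if i = l then t else 0 :=
  summable_of_ne_finset_zero (s := {l}) fun i hi => by simp at hi; simp [hi]

lemma Weights.bump (ha : Weights a) (l : ℕ) {t : ℝ} (ht : 0 ≤ t) :
    Weights (bump a l t) :=
  ⟨fun i => add_nonneg (ha.nonneg i) (by split_ifs <;> simp [ht]),
    ha.summable.add (summable_bump_part l t)⟩

lemma tsum_bump (ha : Weights a) (l : ℕ) (t : ℝ) : ∑' i, bump a l t i = (∑' i, a i) + t := by
  unfold bump
  rw [ha.summable.tsum_add (summable_bump_part l t), tsum_ite_eq]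

lemma attr_bump (ha : Weights a) (l : ℕ) (t : ℝ) (r : ℝ) :
    attr (bump a l t) r = attr a r + t * prof l r := by
  unfold attr bump
  simp only [add_mul, ite_mul, zero_mul]
  rw [(ha.summable_prof r).tsum_add]
  · congr 1
    rw [tsum_eq_single l fun i hi => by rw [if_neg hi], if_pos rfl]
  · exact summable_of_ne_finset_zero (s := {l}) fun i hi => by simp at hi; simp [hi]

lemma energy_bump (ha : Weights a) (l : ℕ) {t : ℝ} (ht : 0 ≤ t) {n : ℕ} (x : Fin n → R3) :
    energy A a x - t / 2 * dsum x (fun p q => prof l (dist p q))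
      ≤ energy A (bump a l t) x := by
  unfold energy pot
  simp only [attr_bump ha l t, dsum_sub, dsum_add, dsum_smul]
  nlinarith [mul_nonneg (mul_nonneg (Nat.cast_nonneg n : (0:ℝ) ≤ n) ht) (prof_nonneg l 0)]

lemma sq_card_le_scount (w : ℕ) {n : ℕ} (x : Fin n → R3)
    (hx : ∀ i, x i ∈ bset w (fun _ => 0) 0) (hw : 0 < w) :
    (n : ℝ) ^ 2 ≤ (w : ℝ) ^ 3 * scount cell x := by
  classical
  set T := Fintype.piFinset fun _ : Fin 3 => Finset.Ico (0 : ℤ) w with hT
  set N : (Fin 3 → ℤ) → ℝ := fun u => ∑ j, if cell (x j) = u then (1 : ℝ) else 0 with hN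
  have hmem : ∀ i, cell (x i) ∈ T := by
    intro i
    rw [hT, Fintype.mem_piFinset]
    intro k
    have h := congrFun (hx i) k
    simp only [blk, Nat.cast_zero, add_zero, Pi.zero_apply] at h
    have hw' : (0 : ℤ) < w := by exact_mod_cast hw
    have h1 := Int.ediv_mul_le (cell (x i) k) hw'.ne'
    have h2 := Int.lt_ediv_add_one_mul_self (cell (x i) k) hw'
    rw [h] at h1 h2
    simp only [zero_mul, zero_add, one_mul] at h1 h2
    rw [Finset.mem_Ico]
    exact ⟨h1, h2⟩
  have h1 : (n : ℝ) = ∑ u ∈ T, N u := by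
    simp only [hN]
    rw [Finset.sum_comm]
    simp [hmem]
  have h2 : scount cell x = ∑ u ∈ T, N u ^ 2 := by
    simp only [hN, sq, Finset.sum_mul_sum, scount, dsum]
    symm
    rw [Finset.sum_comm (s := T)]
    refine Finset.sum_congr rfl fun i _ => ?_
    rw [Finset.sum_comm (s := T)]
    refine Finset.sum_congr rfl fun j _ => ?_
    simp only [same, ite_mul, one_mul, zero_mul, Finset.sum_ite_eq, hmem, if_true]
    simp only [eq_comm]
    congr
  have hc : (T.card : ℝ) = (w : ℝ) ^ 3 := by
    simp [hT, Fintype.card_piFinset, Int.card_Ico]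
  rw [h1, h2, ← hc]
  exact sq_sum_le_card_mul_sum_sq

/-- The finite-size Kac bound. -/
lemma block_upper (h : Good A a) (l : ℕ) {t : ℝ} (ht : 0 ≤ t) (hb : Good A (bump a l t))
    (μ s ρ : ℝ) (hs : 0 ≤ s) (_hρ : 0 ≤ ρ) (w : ℕ) (hwl : w = 48 * (l + 1))
    (hsmall : err a w + C₂ * t ≤ 1) :
    pres A (bump a l t) μ ≤ Real.log 3 / (w : ℝ) ^ 3 +
      max (max (C₂ * t * ρ ^ 2 + ((((w : ℝ) + 4) / w) ^ 3 * pres A a μ
              + err a w * Real.exp (μ + A / 2)))
        (C₂ * t * Real.exp (μ + 1 + A / 2) ^ 2 - s * ρ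
          + ((((w : ℝ) + 4) / w) ^ 3 * pres A a (μ + s)
              + err a w * Real.exp (μ + s + A / 2)))) 0 := by
  have hw : 0 < w := by omega
  have hC : 0 < C₂ := by unfold C₂; positivity
  set V : ℝ := (w : ℝ) ^ 3 with hV
  have hV0 : 0 < V := by positivity
  set δ := err a w with hδ
  have hδ0 : 0 ≤ δ := err_nonneg h.weights w
  have hδ1 : δ ≤ 1 := by nlinarith
  set τ := C₂ * t / V with hτ
  have hτ0 : 0 ≤ τ := by positivity
  set M := Real.exp (μ + 1 + A / 2) with hM
  set B0 := bset w (fun _ => 0) (0 : Fin 3 → ℤ) with hB0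
  haveI : IsFiniteMeasure (volume.restrict B0) :=
    isFiniteMeasure_restrict.2 (volume_bset_lt_top w hw _ _).ne
  set X := gz (volume.restrict B0) (oneBlock A a μ δ τ) with hX
  set R := fun ν => (((w : ℝ) + 4) / w) ^ 3 * pres A a ν + δ * Real.exp (ν + A / 2) with hR
  set Bd := max (max (C₂ * t * ρ ^ 2 + R μ) (C₂ * t * M ^ 2 - s * ρ + R (μ + s))) 0 with hBd
  have hterm : ∀ ν, gz (volume.restrict B0) (fun n x => ex A a ν n x + δ * scount cell x)
      ≤ ENNReal.ofReal (Real.exp (V * R ν)) := by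
    intro ν
    refine le_trans (gz_mono_set (measurableSet_bset _ _ _) (bset_zero_subset w hw) _) ?_
    refine (h.gz_perturb _ ν hδ0 hδ1).trans ?_
    have hl : lz A a ν (w : ℝ) ≤ ((w : ℝ) + 4) ^ 3 * pres A a ν := h.le_pres ν w
    have hg : gz (volume.restrict (cube (w : ℝ))) (ex A a ν)
        = ENNReal.ofReal (Real.exp (lz A a ν (w : ℝ))) :=
      (ofReal_exp_elog (one_le_gz_ex _ ν) (h.gz_ex_ne_top _ ν)).symm
    rw [hg, ← ENNReal.ofReal_mul (Real.exp_pos _).le, ← Real.exp_add,
      Measure.restrict_apply_univ, volume_cube (Nat.cast_nonneg w),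
      ENNReal.toReal_ofReal (by positivity)]
    refine ENNReal.ofReal_le_ofReal (Real.exp_le_exp.2 ?_)
    have : V * R ν = ((w : ℝ) + 4) ^ 3 * pres A a ν + δ * (V * Real.exp (ν + A / 2)) := by
      simp only [hR, hV, div_pow]; field_simp
    rw [this, ← hV]
    linarith
  have hXle : X ≤ ENNReal.ofReal (Real.exp (Real.log 3 + V * Bd)) := by
    set Kf : Fin 3 → Expo :=
      ![fun n x => V * (C₂ * t * ρ ^ 2) + (ex A a μ n x + δ * scount cell x),
        fun n x => V * (C₂ * t * M ^ 2 - s * ρ) + (ex A a (μ + s) n x + δ * scount cell x),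
        fun n _ => -(V * M) + (μ + 1 + A / 2) * n] with hKf
    have hKm : ∀ i n, Measurable (Kf i n) := by
      intro i n
      have hsc := (measurable_scount measurable_cell n).const_mul δ
      fin_cases i
      · exact ((measurable_ex h.weights μ n).add hsc).const_add _
      · exact ((measurable_ex h.weights (μ + s) n).add hsc).const_add _
      · exact measurable_const
    refine le_trans (gz_le_sum_of_ae _ _ Finset.univ Kf hKm fun n => ?_) ?_
    · filter_upwards [ae_pi_mem (fun _ : Fin n => B0) fun _ => measurableSet_bset _ _ _]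
        with x hx
      have hτV : τ * V = C₂ * t := by rw [hτ]; field_simp
      rcases le_or_gt (n : ℝ) (ρ * V) with h1 | h1
      · refine ⟨0, Finset.mem_univ _, ?_⟩
        have : τ * (n : ℝ) ^ 2 ≤ τ * (ρ * V) ^ 2 := by gcongr
        have e : τ * (ρ * V) ^ 2 = V * (C₂ * t * ρ ^ 2) := by rw [← hτV]; ring
        show oneBlock A a μ δ τ n x
          ≤ V * (C₂ * t * ρ ^ 2) + (ex A a μ n x + δ * scount cell x)
        simp only [oneBlock]
        linarith
      rcases le_or_gt (n : ℝ) (M * V) with h2 | h2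
      · refine ⟨1, Finset.mem_univ _, ?_⟩
        have : τ * (n : ℝ) ^ 2 ≤ τ * (M * V) ^ 2 := by gcongr
        have e : τ * (M * V) ^ 2 = V * (C₂ * t * M ^ 2) := by rw [← hτV]; ring
        have := mul_le_mul_of_nonneg_left h1.le hs
        show oneBlock A a μ δ τ n x
          ≤ V * (C₂ * t * M ^ 2 - s * ρ) + (ex A a (μ + s) n x + δ * scount cell x)
        simp only [oneBlock, ex]
        linarith
      · refine ⟨2, Finset.mem_univ _, ?_⟩
        have hS : τ * (n : ℝ) ^ 2 ≤ C₂ * t * scount cell x := by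
          refine (mul_le_mul_of_nonneg_left (sq_card_le_scount w x hx hw) hτ0).trans_eq ?_
          rw [← mul_assoc, ← hV, hτV]
        have h3 := h.energy_ge_scount x
        have h4 := mul_le_mul_of_nonneg_right hsmall (scount_nonneg cell x)
        show oneBlock A a μ δ τ n x ≤ -(V * M) + (μ + 1 + A / 2) * n
        simp only [oneBlock, ex]
        linarith
    · rw [Fin.sum_univ_three, Real.exp_add, Real.exp_log (by norm_num : (0:ℝ) < 3),
        ENNReal.ofReal_mul (by norm_num : (0:ℝ) ≤ 3), ENNReal.ofReal_ofNat]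
      have hmax : ∀ c, c ≤ Bd →
          ENNReal.ofReal (Real.exp (V * c)) ≤ ENNReal.ofReal (Real.exp (V * Bd)) := fun c hc =>
        ENNReal.ofReal_le_ofReal (Real.exp_le_exp.2 (mul_le_mul_of_nonneg_left hc hV0.le))
      have f1 : gz (volume.restrict B0) (Kf 0) ≤ ENNReal.ofReal (Real.exp (V * Bd)) := by
        refine le_trans ?_ (hmax _ ((le_max_left _ _).trans (le_max_left _ _)))
        simp only [hKf, Matrix.cons_val_zero]
        rw [gz_const_mul, mul_add, Real.exp_add, ENNReal.ofReal_mul (Real.exp_pos _).le]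
        exact mul_le_mul' le_rfl (hterm μ)
      have f2 : gz (volume.restrict B0) (Kf 1) ≤ ENNReal.ofReal (Real.exp (V * Bd)) := by
        refine le_trans ?_ (hmax _ ((le_max_right _ _).trans (le_max_left _ _)))
        simp only [hKf, Matrix.cons_val_one, Matrix.cons_val_zero]
        rw [gz_const_mul, mul_add, Real.exp_add, ENNReal.ofReal_mul (Real.exp_pos _).le]
        exact mul_le_mul' le_rfl (hterm (μ + s))
      have f3 : gz (volume.restrict B0) (Kf 2) ≤ ENNReal.ofReal (Real.exp (V * Bd)) := by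
        refine le_trans ?_ (hmax 0 (le_max_right _ _))
        simp only [hKf, Matrix.cons_val_two, Matrix.tail_cons, Matrix.head_cons]
        rw [gz_const_mul, gz_linear, ← ENNReal.ofReal_mul (Real.exp_pos _).le, ← Real.exp_add]
        refine ENNReal.ofReal_le_ofReal (Real.exp_le_exp.2 ?_)
        have hvol : ((volume.restrict B0) Set.univ).toReal ≤ V := by
          rw [Measure.restrict_apply_univ]
          refine ENNReal.toReal_le_of_le_ofReal hV0.le ?_
          rw [hV, ← volume_cube (Nat.cast_nonneg w)]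
          exact measure_mono (bset_zero_subset w hw)
        have := mul_le_mul_of_nonneg_right hvol (Real.exp_pos (μ + 1 + A / 2)).le
        rw [mul_zero, hM]
        linarith
      calc _ ≤ _ := add_le_add (add_le_add f1 f2) f3
        _ = _ := by ring
  have hX1 : 1 ≤ X := one_le_gz _ _ fun x => by simp [oneBlock, ex_zero, scount, dsum]
  have hXt : X ≠ ∞ := ne_top_of_le_ne_top ENNReal.ofReal_ne_top hXle
  have hXlog : elog X ≤ Real.log 3 + V * Bd := elog_le_iff hX1 hXle
  have hfin : ∀ K : ℕ, lz A (bump a l t) μ ((w : ℝ) * K)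
      ≤ Real.log V + ((K : ℝ) + 1) ^ 3 * elog X := by
    intro K
    refine elog_le_iff (one_le_gz_ex _ μ) ?_
    refine le_trans (gz_le_sum_of_ae _ _ (shifts w) (fun σ => bex A a μ δ τ w σ)
      (fun σ n => measurable_bex h.weights μ δ τ w σ n) fun n => ?_) ?_
    · refine Filter.Eventually.of_forall fun x => ?_
      obtain ⟨σ, hσ, hle⟩ := exists_good_shift A h.A_nonneg h.weights w hw x
      refine ⟨σ, hσ, ?_⟩
      have h1 := energy_bump (A := A) h.weights l ht x
      have h2 := mul_le_mul_of_nonneg_left (dsum_prof_le_blk l σ x)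
        (show (0 : ℝ) ≤ t / 2 by positivity)
      rw [← hwl] at h2
      have e : t / 2 * (27 / ((l : ℝ) + 1) ^ 3 * scount (blk w σ) x)
          = τ * scount (blk w σ) x := by
        rw [hτ, hV, C₂, hwl]; push_cast; field_simp
      simp only [ex, bex]
      linarith
    · refine le_trans (Finset.sum_le_sum (g := fun _ => X ^ ((K + 1) ^ 3)) fun σ hσ => ?_) ?_
      · set T := Fintype.piFinset (fun _ : Fin 3 => Finset.Icc (0 : ℤ) K) with hT
        haveI : IsFiniteMeasure (volume.restrict (⋃ v ∈ T, bset w σ v)) :=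
          isFiniteMeasure_restrict.2 (lt_of_le_of_lt (measure_biUnion_finset_le T _)
            (ENNReal.sum_lt_top.2 fun u _ => volume_bset_lt_top w hw σ u)).ne
        refine le_trans (gz_mono_set (measurableSet_cube _) (cube_subset_bset w hw σ hσ K) _) ?_
        refine (gz_bex_union h.weights μ δ τ w hw σ T).trans_eq ?_
        congr 1
        simp [hT, Fintype.card_piFinset, Int.card_Icc]
      · rw [Finset.sum_const, nsmul_eq_mul, Real.exp_add, Real.exp_log hV0,
          ENNReal.ofReal_mul hV0.le]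
        refine mul_le_mul' (le_of_eq ?_) (le_of_eq ?_)
        · rw [hV, ← shifts_card, ENNReal.ofReal_natCast]
        · rw [← ofReal_exp_elog (one_le_pow₀ hX1) (ENNReal.pow_ne_top hXt), elog_pow]
          push_cast; rfl
  have hwR : Tendsto (fun K : ℕ => (w : ℝ) * (K : ℝ)) atTop atTop :=
    tendsto_natCast_atTop_atTop.const_mul_atTop (by exact_mod_cast hw)
  have hlim := (hb.tendsto_lz μ).comp hwR
  have hup : Tendsto (fun K : ℕ => Real.log V / V * (1 / (K : ℝ)) ^ 3
      + (1 + 1 / (K : ℝ)) ^ 3 * (elog X / V)) atTop (𝓝 (elog X / V)) := by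
    have h1 := tendsto_one_div_atTop_nhds_zero_nat (𝕜 := ℝ)
    simpa using ((h1.pow 3).const_mul (Real.log V / V)).add
      (((h1.const_add 1).pow 3).mul_const (elog X / V))
  refine (le_of_tendsto_of_tendsto hlim hup ?_).trans ?_
  · filter_upwards [eventually_ge_atTop 1] with K hK
    have hK0 : (0 : ℝ) < K := by exact_mod_cast hK
    simp only [Function.comp_apply]
    rw [div_le_iff₀ (by positivity)]
    refine (hfin K).trans_eq ?_
    rw [hV]
    field_simp
  · rw [div_le_iff₀ hV0, add_mul, div_mul_cancel₀ _ hV0.ne', mul_comm]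
    rw [mul_comm V] at hXlog
    exact hXlog.trans_eq (by ring)

lemma tendsto_range (c : ℝ) :
    Tendsto (fun l : ℕ => c / ((48 * (l + 1) : ℕ) : ℝ)) atTop (𝓝 0) := by
  refine tendsto_const_nhds.div_atTop (tendsto_natCast_atTop_atTop.comp ?_)
  exact tendsto_atTop_mono (fun l : ℕ => show l ≤ 48 * (l + 1) by omega) tendsto_id

/-- If the pressure has slope `ρ` at `μ`, long-range attraction gains at most `4 C₂ ρ²` per unit. -/
theorem kac_upper {μ ρ : ℝ} (h : Good A a) (hbig : C₁ * ((∑' i, a i) + 1) + 2 ≤ A)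
    (hρ : 0 < ρ) (hd : HasDerivAt (pres A a) ρ μ) :
    ∃ t : ℝ, 0 < t ∧ t ≤ 1 ∧ ∀ ε : ℝ, 0 < ε →
      ∀ᶠ l : ℕ in atTop, pres A (bump a l t) μ ≤ pres A a μ + C₂ * t * (4 * ρ ^ 2) + ε := by
  have hC : 0 < C₂ := by unfold C₂; positivity
  have hs : ∃ s : ℝ, 0 < s ∧ pres A a (μ + s) ≤ pres A a μ + s * (3 / 2 * ρ) := by
    have h1 : ∀ᶠ s in 𝓝[>] (0 : ℝ), s⁻¹ • (pres A a (μ + s) - pres A a μ) < 3 / 2 * ρ :=
      hd.tendsto_slope_zero_right.eventually_lt_const (by linarith)
    obtain ⟨s, h2, h3⟩ := (h1.and self_mem_nhdsWithin).exists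
    refine ⟨s, h3, ?_⟩
    have h3' : (0 : ℝ) < s := h3
    rw [smul_eq_mul, inv_mul_lt_iff₀ h3'] at h2
    linarith
  obtain ⟨s, hs0, hsP⟩ := hs
  set M := Real.exp (μ + 1 + A / 2) with hM
  set t := min (min 1 (1 / (2 * C₂))) (s * ρ / (2 * C₂ * M ^ 2)) with htdef
  have hM0 : 0 < M := Real.exp_pos _
  have ht0 : 0 < t := lt_min (lt_min one_pos (by positivity)) (by positivity)
  have ht1 : t ≤ 1 := (min_le_left _ _).trans (min_le_left _ _)
  have ht2 : C₂ * t ≤ 1 / 2 := by
    have : t ≤ 1 / (2 * C₂) := (min_le_left _ _).trans (min_le_right _ _)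
    rw [le_div_iff₀ (by positivity)] at this
    linarith
  have ht3 : C₂ * t * M ^ 2 ≤ s * ρ / 2 := by
    have : t ≤ s * ρ / (2 * C₂ * M ^ 2) := min_le_right _ _
    rw [le_div_iff₀ (by positivity)] at this
    linarith
  refine ⟨t, ht0, ht1, fun ε hε => ?_⟩
  set W : ℕ → ℕ := fun l => 48 * (l + 1) with hW
  have hWtop : Tendsto W atTop atTop :=
    tendsto_atTop_mono (fun l : ℕ => show l ≤ 48 * (l + 1) by omega) tendsto_id
  have herr : Tendsto (fun l => err a (W l)) atTop (𝓝 0) := (tendsto_err h.weights).comp hWtop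
  have hfac : Tendsto (fun l => (((W l : ℝ) + 4) / (W l : ℝ)) ^ 3) atTop (𝓝 1) := by
    have h1 : Tendsto (fun l => 1 + 4 / (W l : ℝ)) atTop (𝓝 1) := by
      simpa only [hW, add_zero] using (tendsto_range 4).const_add 1
    have h2 := h1.pow 3
    rw [one_pow] at h2
    refine h2.congr fun l => ?_
    have : (W l : ℝ) ≠ 0 := by simp [hW]; positivity
    field_simp
  have hlog : Tendsto (fun l => Real.log 3 / (W l : ℝ) ^ 3) atTop (𝓝 0) :=
    tendsto_const_nhds.div_atTop ((tendsto_pow_atTop (by norm_num)).comp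
      (tendsto_natCast_atTop_atTop.comp hWtop))
  have hR : ∀ ν, Tendsto (fun l => (((W l : ℝ) + 4) / (W l : ℝ)) ^ 3 * pres A a ν
      + err a (W l) * Real.exp (ν + A / 2)) atTop (𝓝 (pres A a ν)) := fun ν => by
    simpa using (hfac.mul_const (pres A a ν)).add (herr.mul_const (Real.exp (ν + A / 2)))
  have hall := hlog.add ((((hR μ).const_add (C₂ * t * (2 * ρ) ^ 2)).max
    ((hR (μ + s)).const_add (C₂ * t * M ^ 2 - s * (2 * ρ)))).max
    (tendsto_const_nhds (x := (0 : ℝ))))
  have hlt : 0 + max (max (C₂ * t * (2 * ρ) ^ 2 + pres A a μ)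
      (C₂ * t * M ^ 2 - s * (2 * ρ) + pres A a (μ + s))) 0
      < pres A a μ + C₂ * t * (4 * ρ ^ 2) + ε := by
    have hP := h.pres_nonneg μ
    have h4 : 0 ≤ C₂ * t * (4 * ρ ^ 2) := by positivity
    rw [zero_add, max_lt_iff, max_lt_iff]
    refine ⟨⟨?_, ?_⟩, ?_⟩ <;> nlinarith
  filter_upwards [hall.eventually_lt_const hlt,
    herr.eventually_le_const (show (0 : ℝ) < 1 / 2 by norm_num)] with l hl1 hl2
  have hb : Good A (bump a l t) := ⟨h.weights.bump l ht0.le, by
    rw [tsum_bump h.weights]
    have := C₁_pos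
    nlinarith⟩
  refine (block_upper h l ht0.le hb μ s (2 * ρ) hs0.le (by positivity) (W l) rfl
    (by linarith)).trans (le_of_lt ?_)
  simpa only [hM] using hl1

end Vale.Agent.P171
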