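import Mathlib
import Vale.Agent.P171.Block

/-!
Riemann sums of the profile: the mean-field constant `Jeta` and its lattice approximations.
-/

open MeasureTheory Filter Topology
open scoped BigOperators

namespace Vale.Agent.P171

lemma eta_antitone : Antitone eta := fun r s h => by
  unfold eta
  exact max_le_max le_rfl (min_le_min le_rfl (by linarith))

lemma eta_sub_le {r s : ℝ} (h : r ≤ s) : eta r - eta s ≤ 2 * (s - r) := by
  unfold eta
  rcases max_choice (0 : ℝ) (min 1 (2 - 2 * r)) with h1 | h1 <;>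
    rcases max_choice (0 : ℝ) (min 1 (2 - 2 * s)) with h2 | h2 <;>
    rcases min_choice (1 : ℝ) (2 - 2 * r) with h3 | h3 <;>
    rcases min_choice (1 : ℝ) (2 - 2 * s) with h4 | h4 <;>
    rw [h1, h2] <;> (try rw [h3]) <;> (try rw [h4]) <;>
    linarith [le_max_left (0 : ℝ) (min 1 (2 - 2 * s)), le_max_right (0 : ℝ) (min 1 (2 - 2 * s)),
      min_le_left (1 : ℝ) (2 - 2 * r), min_le_right (1 : ℝ) (2 - 2 * r)]

lemma prof_antitone (l : ℕ) : Antitone (prof l) := fun r s h =>
  div_le_div_of_nonneg_right (eta_antitone (by gcongr)) (by positivity)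

/-- The mean-field constant `∫ η(|x|/48)`. -/
noncomputable def Jeta : ℝ := ∫ x : R3, eta (‖x‖ / 48)

lemma volume_symm_cube (R : ℝ) (hR : 0 ≤ R) :
    volume.real ((fun y : R3 => y + vec fun _ => R) ⁻¹' cube (2 * R)) = (2 * R) ^ 3 := by
  rw [measureReal_def, measure_preimage_add_right, volume_cube (by positivity),
    ENNReal.toReal_ofReal (by positivity)]

lemma mem_symm_cube {R : ℝ} {x : R3} (h : ‖x‖ ≤ R) :
    x ∈ (fun y : R3 => y + vec fun _ => R) ⁻¹' cube (2 * R) := by
  intro k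
  have hk : |x k| ≤ ‖x‖ := by rw [← Real.norm_eq_abs]; exact PiLp.norm_apply_le x k
  have hk' := abs_le.1 (hk.trans h)
  simp only [PiLp.add_apply, vec_apply, Set.mem_Icc]
  constructor <;> linarith

lemma measurableSet_symm_cube (R : ℝ) :
    MeasurableSet ((fun y : R3 => y + vec fun _ => R) ⁻¹' cube (2 * R)) :=
  (measurable_add_const _) (measurableSet_cube _)

lemma volume_symm_cube_lt_top (R : ℝ) :
    volume ((fun y : R3 => y + vec fun _ => R) ⁻¹' cube (2 * R)) < ⊤ := by
  rw [measure_preimage_add_right]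
  exact volume_cube_lt_top _

lemma integrable_indicator_symm_cube (R c : ℝ) :
    Integrable (((fun y : R3 => y + vec fun _ => R) ⁻¹' cube (2 * R)).indicator fun _ => c) :=
  (integrable_indicator_iff (measurableSet_symm_cube R)).2
    (integrableOn_const (volume_symm_cube_lt_top R).ne)

lemma integrable_eta_shift {s : ℝ} (hs : 0 < s) (c : ℝ) :
    Integrable (fun x : R3 => eta ((‖x‖ + c) / s)) := by
  refine (integrable_indicator_symm_cube (s + |c|) 1).mono'
    ((continuous_eta.comp (by fun_prop)).aestronglyMeasurable) (Filter.Eventually.of_forall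
      fun x => ?_)
  rw [Real.norm_eq_abs, abs_of_nonneg (eta_nonneg _)]
  rcases le_or_gt (‖x‖) (s + |c|) with h | h
  · rw [Set.indicator_of_mem (mem_symm_cube h)]
    exact eta_le_one _
  · rw [eta_eq_zero (by rw [le_div_iff₀ hs]; linarith [neg_abs_le c])]
    exact Set.indicator_nonneg (fun _ _ => zero_le_one) _

lemma integral_eta_scale {q : ℝ} (hq : 0 < q) :
    ∫ x : R3, eta (‖x‖ / (48 * q)) = q ^ 3 * Jeta := by
  have h := Measure.integral_comp_smul (volume : Measure R3)
    (fun x : R3 => eta (‖x‖ / 48)) q⁻¹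
  rw [finrank_euclideanSpace_fin, inv_pow, inv_inv, smul_eq_mul,
    abs_of_pos (by positivity : (0 : ℝ) < q ^ 3)] at h
  rw [Jeta, ← h]
  refine integral_congr_ae (Filter.Eventually.of_forall fun x => ?_)
  simp only [norm_smul, norm_inv, Real.norm_eq_abs, abs_of_pos hq]
  congr 1
  field_simp

lemma Jeta_nonneg : 0 ≤ Jeta := integral_nonneg fun _ => eta_nonneg _

lemma Jeta_le : Jeta ≤ 96 ^ 3 := by
  have hsupp : ∀ x : R3, eta (‖x‖ / 48) ≤
      ((fun y : R3 => y + vec fun _ => (48 : ℝ)) ⁻¹' cube (2 * 48)).indicator (fun _ => (1 : ℝ))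
        x := by
    intro x
    rcases le_or_gt ‖x‖ 48 with h | h
    · rw [Set.indicator_of_mem (mem_symm_cube h)]; exact eta_le_one _
    · rw [eta_eq_zero (by rw [le_div_iff₀ (by norm_num)]; linarith)]
      exact Set.indicator_nonneg (fun _ _ => zero_le_one) _
  have hi : Integrable fun x : R3 => eta (‖x‖ / 48) := by
    simpa using integrable_eta_shift (s := 48) (by norm_num) 0
  refine (integral_mono hi (integrable_indicator_symm_cube 48 1) hsupp).trans_eq ?_
  rw [integral_indicator (measurableSet_symm_cube 48), setIntegral_const,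
    volume_symm_cube 48 (by norm_num)]
  norm_num

lemma integral_eta_shift_le {s δ : ℝ} (hs : 0 < s) (h0 : 0 ≤ δ) (hδ : δ ≤ s) :
    (∫ x : R3, eta ((‖x‖ + -δ) / s)) - ∫ x : R3, eta (‖x‖ / s) ≤ 128 * δ * s ^ 2 ∧
      (∫ x : R3, eta (‖x‖ / s)) - ∫ x : R3, eta ((‖x‖ + δ) / s) ≤ 128 * δ * s ^ 2 := by
  have hmain : ∀ u v : ℝ, -δ ≤ u → u ≤ v → v - u ≤ δ →
      (∫ x : R3, eta ((‖x‖ + u) / s)) - ∫ x : R3, eta ((‖x‖ + v) / s) ≤ 128 * δ * s ^ 2 := by
    intro u v hu huv hvu
    rw [← integral_sub (integrable_eta_shift hs u) (integrable_eta_shift hs v)]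
    refine (integral_mono ((integrable_eta_shift hs u).sub (integrable_eta_shift hs v))
      (integrable_indicator_symm_cube (2 * s) (2 * δ / s)) fun x => ?_).trans_eq ?_
    · show eta ((‖x‖ + u) / s) - eta ((‖x‖ + v) / s) ≤ _
      rcases le_or_gt ‖x‖ (2 * s) with h | h
      · rw [Set.indicator_of_mem (mem_symm_cube h)]
        refine (eta_sub_le (by gcongr)).trans ?_
        rw [← sub_div, mul_div_assoc]
        gcongr
        linarith
      · rw [eta_eq_zero (by rw [le_div_iff₀ hs]; linarith),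
          eta_eq_zero (by rw [le_div_iff₀ hs]; linarith), sub_zero]
        exact Set.indicator_nonneg (fun _ _ => by positivity) _
    · rw [integral_indicator (measurableSet_symm_cube _), setIntegral_const,
        volume_symm_cube _ (by positivity), smul_eq_mul]
      field_simp
      ring
  constructor
  · simpa using hmain (-δ) 0 le_rfl (by linarith) (by linarith)
  · simpa using hmain 0 δ (by linarith) h0 (by linarith)

/-- Lattice cell of side `h`. -/
def zbox (h : ℝ) (v : Fin 3 → ℤ) : Set R3 := {x | ∀ k, x k - h * v k ∈ Set.Ico 0 h}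

/-- Integer vectors with entries at most `D` in absolute value. -/
noncomputable def zgrid (D : ℕ) : Finset (Fin 3 → ℤ) := Fintype.piFinset fun _ => Finset.Icc (-(D : ℤ)) D

/-- Length of `h·v`. -/
noncomputable def zlen (h : ℝ) (v : Fin 3 → ℤ) : ℝ := ‖vec fun k => h * (v k : ℝ)‖

lemma zbox_eq (h : ℝ) (v : Fin 3 → ℤ) :
    zbox h v = (fun y => y + vec fun k => -(h * (v k : ℝ))) ⁻¹' {x : R3 | ∀ k, x k ∈ Set.Ico 0 h} := by
  ext x
  simp [zbox, vec_apply, sub_eq_add_neg]

lemma measurableSet_zbox (h : ℝ) (v : Fin 3 → ℤ) : MeasurableSet (zbox h v) := by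
  rw [zbox_eq]
  refine (measurable_add_const _) ?_
  have : {x : R3 | ∀ k, x k ∈ Set.Ico 0 h}
      = (WithLp.ofLp : R3 → Fin 3 → ℝ) ⁻¹' (Set.univ.pi fun _ => Set.Ico 0 h) := by
    ext x; simp
  rw [this]
  exact (PiLp.volume_preserving_ofLp (Fin 3)).measurable
    (MeasurableSet.univ_pi fun _ => measurableSet_Ico)

lemma volume_real_zbox {h : ℝ} (h0 : 0 ≤ h) (v : Fin 3 → ℤ) :
    volume.real (zbox h v) = h ^ 3 := by
  have : {x : R3 | ∀ k, x k ∈ Set.Ico 0 h}
      = (WithLp.ofLp : R3 → Fin 3 → ℝ) ⁻¹' (Set.univ.pi fun _ => Set.Ico 0 h) := by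
    ext x; simp
  rw [measureReal_def, zbox_eq, measure_preimage_add_right, this,
    (PiLp.volume_preserving_ofLp (Fin 3)).measure_preimage
      (MeasurableSet.univ_pi fun _ => measurableSet_Ico).nullMeasurableSet, volume_pi_pi]
  simp [ENNReal.toReal_ofReal h0]

lemma dist_vec_le {h : ℝ} (h0 : 0 ≤ h) {x : R3} {f : Fin 3 → ℝ}
    (hx : ∀ k, |x k - f k| ≤ h) : ‖x - vec f‖ ≤ 2 * h := by
  rw [EuclideanSpace.norm_eq]
  refine (Real.sqrt_le_left (by positivity)).2 ?_
  calc ∑ k, ‖(x - vec f) k‖ ^ 2 ≤ ∑ _k : Fin 3, h ^ 2 := by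
        refine Finset.sum_le_sum fun k _ => pow_le_pow_left₀ (norm_nonneg _) ?_ 2
        simpa [vec_apply, Real.norm_eq_abs] using hx k
    _ ≤ _ := by simp; nlinarith

lemma norm_mem_zbox {h : ℝ} (h0 : 0 ≤ h) {v : Fin 3 → ℤ} {x : R3} (hx : x ∈ zbox h v) :
    zlen h v - 2 * h ≤ ‖x‖ ∧ ‖x‖ ≤ zlen h v + 2 * h := by
  have hd := dist_vec_le h0 (x := x) (f := fun k => h * (v k : ℝ)) fun k => by
    have := hx k
    simp only [Set.mem_Ico] at this
    rw [abs_le]; constructor <;> linarith
  have h1 := norm_sub_norm_le x (vec fun k => h * (v k : ℝ))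
  have h2 := norm_sub_norm_le (vec fun k => h * (v k : ℝ)) x
  rw [norm_sub_rev] at h2
  unfold zlen
  constructor <;> linarith

lemma disjoint_zbox {h : ℝ} {u v : Fin 3 → ℤ} (huv : u ≠ v) :
    Disjoint (zbox h u) (zbox h v) := by
  rw [Set.disjoint_left]
  intro x hx hx'
  obtain ⟨k, hk⟩ := Function.ne_iff.1 huv
  have a1 := hx k
  have a2 := hx' k
  simp only [Set.mem_Ico] at a1 a2
  rcases lt_or_gt_of_ne hk with hlt | hlt
  · have : (u k : ℝ) + 1 ≤ v k := by exact_mod_cast hlt
    nlinarith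
  · have : (v k : ℝ) + 1 ≤ u k := by exact_mod_cast hlt
    nlinarith

lemma zgrid_sum_eq {h : ℝ} (h0 : 0 ≤ h) (D : ℕ) (g : (Fin 3 → ℤ) → ℝ) :
    h ^ 3 * ∑ v ∈ zgrid D, g v = ∑ v ∈ zgrid D, ∫ _x in zbox h v, g v := by
  rw [Finset.mul_sum]
  refine Finset.sum_congr rfl fun v _ => ?_
  rw [setIntegral_const, volume_real_zbox h0, smul_eq_mul]

/-- The constant in the Riemann-sum errors. -/
noncomputable def Kp : ℝ := 768 * 48 ^ 2

lemma zlat_upper (l : ℕ) {h : ℝ} (h0 : 0 < h) (hh : 6 * h ≤ 48 * ((l : ℝ) + 1)) (D : ℕ) :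
    h ^ 3 * ∑ v ∈ zgrid D, prof l (zlen h v - 4 * h) ≤ Jeta + Kp * h / ((l : ℝ) + 1) := by
  set s : ℝ := 48 * ((l : ℝ) + 1) with hs
  have hs0 : 0 < s := by positivity
  have hq : (0 : ℝ) < ((l : ℝ) + 1) ^ 3 := by positivity
  have hi := (integrable_eta_shift hs0 (-(6 * h))).div_const (((l : ℝ) + 1) ^ 3)
  rw [zgrid_sum_eq h0.le]
  refine le_trans (Finset.sum_le_sum fun v _ => setIntegral_mono_on
    (g := fun x => eta ((‖x‖ + -(6 * h)) / s) / ((l : ℝ) + 1) ^ 3)
    (integrableOn_const (ne_top_of_le_ne_top (volume_symm_cube_lt_top (zlen h v + 2 * h)).ne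
      (measure_mono fun x hx => mem_symm_cube (norm_mem_zbox h0.le hx).2)))
    hi.integrableOn (measurableSet_zbox h v) fun x hx => ?_) ?_
  · refine div_le_div_of_nonneg_right (eta_antitone ?_) hq.le
    rw [hs]
    refine div_le_div_of_nonneg_right ?_ (by positivity)
    linarith [(norm_mem_zbox h0.le hx).2]
  · rw [← integral_biUnion_finset _ (fun v _ => measurableSet_zbox h v)
      (fun u _ v _ huv => disjoint_zbox huv) fun v _ => hi.integrableOn]
    refine (setIntegral_le_integral hi (Filter.Eventually.of_forall fun x =>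
      div_nonneg (eta_nonneg _) hq.le)).trans ?_
    rw [integral_div, div_le_iff₀ hq]
    have h1 := (integral_eta_shift_le hs0 (show (0:ℝ) ≤ 6 * h by positivity) hh).1
    rw [hs, integral_eta_scale (by positivity)] at h1
    have e : (Jeta + Kp * h / ((l : ℝ) + 1)) * ((l : ℝ) + 1) ^ 3
        = ((l : ℝ) + 1) ^ 3 * Jeta + 128 * (6 * h) * (48 * ((l : ℝ) + 1)) ^ 2 := by
      unfold Kp; field_simp; ring
    rw [hs, e]
    linarith

lemma zlat_lower (l : ℕ) {h : ℝ} (h0 : 0 < h) (hh : 6 * h ≤ 48 * ((l : ℝ) + 1)) (D : ℕ)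
    (hD : 48 * ((l : ℝ) + 1) ≤ h * D) :
    Jeta - Kp * h / ((l : ℝ) + 1) ≤ h ^ 3 * ∑ v ∈ zgrid D, prof l (zlen h v + 4 * h) := by
  set s : ℝ := 48 * ((l : ℝ) + 1) with hs
  have hs0 : 0 < s := by positivity
  have hq : (0 : ℝ) < ((l : ℝ) + 1) ^ 3 := by positivity
  have hi := (integrable_eta_shift hs0 (6 * h)).div_const (((l : ℝ) + 1) ^ 3)
  rw [zgrid_sum_eq h0.le]
  refine le_trans ?_ (Finset.sum_le_sum fun v _ => setIntegral_mono_on
    (f := fun x => eta ((‖x‖ + 6 * h) / s) / ((l : ℝ) + 1) ^ 3) hi.integrableOn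
    (integrableOn_const (ne_top_of_le_ne_top (volume_symm_cube_lt_top (zlen h v + 2 * h)).ne
      (measure_mono fun x hx => mem_symm_cube (norm_mem_zbox h0.le hx).2)))
    (measurableSet_zbox h v) fun x hx => ?_)
  · rw [← integral_biUnion_finset _ (fun v _ => measurableSet_zbox h v)
      (fun u _ v _ huv => disjoint_zbox huv) fun v _ => hi.integrableOn,
      setIntegral_eq_integral_of_forall_compl_eq_zero fun x hx => ?_]
    · rw [integral_div, le_div_iff₀ hq]
      have h1 := (integral_eta_shift_le hs0 (show (0:ℝ) ≤ 6 * h by positivity) hh).2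
      rw [hs, integral_eta_scale (by positivity)] at h1
      have e : (Jeta - Kp * h / ((l : ℝ) + 1)) * ((l : ℝ) + 1) ^ 3
          = ((l : ℝ) + 1) ^ 3 * Jeta - 128 * (6 * h) * (48 * ((l : ℝ) + 1)) ^ 2 := by
        unfold Kp; field_simp; ring
      rw [hs, e]
      linarith
    · have hxs : s ≤ ‖x‖ := by
        by_contra hc
        push Not at hc
        refine hx ?_
        simp only [Set.mem_iUnion]
        refine ⟨fun k => ⌊x k / h⌋, Fintype.mem_piFinset.2 fun k => ?_, fun k => ?_⟩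
        · have hk : |x k| ≤ ‖x‖ := by rw [← Real.norm_eq_abs]; exact PiLp.norm_apply_le x k
          have hk' := abs_le.1 (hk.trans (hc.le.trans hD))
          rw [Finset.mem_Icc]
          constructor
          · refine Int.le_floor.2 ?_
            rw [le_div_iff₀ h0]; push_cast; linarith
          · have : (⌊x k / h⌋ : ℝ) ≤ ((D : ℤ) : ℝ) := (Int.floor_le _).trans (by
              rw [div_le_iff₀ h0]; push_cast; linarith)
            exact_mod_cast this
        · have h1 := Int.floor_le (x k / h)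
          have h2 := Int.lt_floor_add_one (x k / h)
          rw [le_div_iff₀ h0] at h1
          rw [div_lt_iff₀ h0] at h2
          simp only [Set.mem_Ico]
          constructor <;> linarith
      rw [eta_eq_zero (by rw [le_div_iff₀ hs0]; linarith), zero_div]
  · refine div_le_div_of_nonneg_right (eta_antitone ?_) hq.le
    rw [hs]
    refine div_le_div_of_nonneg_right ?_ (by positivity)
    linarith [(norm_mem_zbox h0.le hx).1]

end Vale.Agent.P171
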