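import Mathlib
import Vale.Agent.P171.Profile

/-!
Mean-field comparison: a weight `T` at range `q` gains at most as much pressure as the same total
weight spread over any larger ranges, up to an explicit error.
-/

open MeasureTheory Filter Topology
open scoped BigOperators ENNReal

namespace Vale.Agent.P171

variable {A : ℝ} {a b : ℕ → ℝ}

/-- The `n`-particle term of `gz`. -/
noncomputable def tt (m : Measure R3) (H : Expo) (n : ℕ) : ℝ≥0∞ :=
  (n.factorial : ℝ≥0∞)⁻¹ * ∫⁻ x, ENNReal.ofReal (Real.exp (H n x)) ∂(Measure.pi fun _ : Fin n => m)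

lemma gz_eq_tsum_tt (m : Measure R3) (H : Expo) : gz m H = ∑' n, tt m H n := rfl

lemma tt_le_gz (m : Measure R3) (H : Expo) (n : ℕ) : tt m H n ≤ gz m H := ENNReal.le_tsum n

lemma tt_le_of_ae {m : Measure R3} {H K : Expo} {n : ℕ}
    (h : ∀ᵐ x ∂(Measure.pi fun _ : Fin n => m), H n x ≤ K n x) : tt m H n ≤ tt m K n := by
  unfold tt
  gcongr 1
  exact lintegral_mono_ae (h.mono fun x hx => ENNReal.ofReal_le_ofReal (Real.exp_le_exp.2 hx))

lemma tt_const_add (m : Measure R3) (H : Expo) (n : ℕ) (c : ℝ) :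
    tt m (fun k x => c + H k x) n = ENNReal.ofReal (Real.exp c) * tt m H n := by
  unfold tt
  simp only [Real.exp_add, ENNReal.ofReal_mul (Real.exp_pos c).le]
  rw [lintegral_const_mul' _ _ ENNReal.ofReal_ne_top]
  ring

lemma tt_mono_set {D D' : Set R3} (hsub : D ⊆ D') [IsFiniteMeasure (volume.restrict D')]
    (H : Expo) (n : ℕ) : tt (volume.restrict D) H n ≤ tt (volume.restrict D') H n := by
  unfold tt
  gcongr 1
  haveI : IsFiniteMeasure (volume.restrict D) :=
    isFiniteMeasure_of_le _ (Measure.restrict_mono hsub le_rfl)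
  refine lintegral_mono' ?_ le_rfl
  rw [← Measure.restrict_pi_pi, ← Measure.restrict_pi_pi]
  exact Measure.restrict_mono (Set.pi_mono fun _ _ => hsub) le_rfl

lemma tt_translate (D : Set R3) (v : R3) (H : Expo) (hH : ∀ n, Measurable (H n))
    (hinv : ∀ n x, H n (fun k => x k + v) = H n x) [IsFiniteMeasure (volume.restrict D)]
    [IsFiniteMeasure (volume.restrict ((fun y => y + v) ⁻¹' D))] (n : ℕ) :
    tt (volume.restrict ((fun y => y + v) ⁻¹' D)) H n = tt (volume.restrict D) H n := by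
  unfold tt
  congr 1
  have h0 : MeasurePreserving (fun y : R3 => y + v)
      (volume.restrict ((fun y => y + v) ⁻¹' D)) (volume.restrict D) :=
    (measurePreserving_add_right volume v).restrict_preimage_emb
      (measurableEmbedding_addRight v) D
  have h1 := measurePreserving_pi (fun _ : Fin n => volume.restrict ((fun y => y + v) ⁻¹' D))
    (fun _ : Fin n => volume.restrict D) (fun _ => h0)
  rw [← h1.lintegral_comp (by fun_prop)]
  refine lintegral_congr fun x => ?_
  rw [hinv]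

lemma tt_add_ge (m₀ m₁ : Measure R3) [IsFiniteMeasure m₀] [IsFiniteMeasure m₁] (H H₁ H₀ : Expo)
    (h1 : ∀ n, Measurable (H₁ n)) (h0 : ∀ n, Measurable (H₀ n)) (k r : ℕ)
    (h : ∀ S : Finset (Fin (k + r)), S.card = k →
      ∀ᵐ x ∂(Measure.pi fun i => if i ∈ S then m₁ else m₀),
        H₁ S.card (fun i => x (sel S i)) + H₀ Sᶜ.card (fun i => x (sel Sᶜ i)) ≤ H (k + r) x) :
    tt m₁ H₁ k * tt m₀ H₀ r ≤ tt (m₀ + m₁) H (k + r) := by
  classical
  unfold tt
  rw [pi_add_measure, lintegral_finsetSum_measure]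
  set I₁ := ∫⁻ y, ENNReal.ofReal (Real.exp (H₁ k y)) ∂(Measure.pi fun _ : Fin k => m₁) with hI₁
  set I₀ := ∫⁻ y, ENNReal.ofReal (Real.exp (H₀ r y)) ∂(Measure.pi fun _ : Fin r => m₀) with hI₀
  have hS : ∀ S ∈ (Finset.univ : Finset (Fin (k + r))).powersetCard k,
      I₁ * I₀ ≤ ∫⁻ x, ENNReal.ofReal (Real.exp (H (k + r) x))
        ∂(Measure.pi fun i => if i ∈ S then m₁ else m₀) := by
    intro S hS
    have hc : S.card = k := (Finset.mem_powersetCard.1 hS).2
    have hc' : Sᶜ.card = r := by rw [Finset.card_compl, hc, Fintype.card_fin]; omega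
    have hmain := lintegral_pi_split S m₀ m₁ (fun y => ENNReal.ofReal (Real.exp (H₁ S.card y)))
      (fun y => ENNReal.ofReal (Real.exp (H₀ Sᶜ.card y))) (by fun_prop) (by fun_prop)
    have e : I₁ * I₀ = (∫⁻ y, ENNReal.ofReal (Real.exp (H₁ S.card y))
          ∂(Measure.pi fun _ : Fin S.card => m₁))
        * ∫⁻ y, ENNReal.ofReal (Real.exp (H₀ Sᶜ.card y))
          ∂(Measure.pi fun _ : Fin Sᶜ.card => m₀) := by
      rw [hI₁, hI₀, hc, hc']
    rw [e, ← hmain]
    refine lintegral_mono_ae ((h S hc).mono fun x hx => ?_)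
    rw [← ENNReal.ofReal_mul (Real.exp_pos _).le, ← Real.exp_add]
    exact ENNReal.ofReal_le_ofReal (Real.exp_le_exp.2 hx)
  refine le_trans ?_ (mul_le_mul' le_rfl ((Finset.sum_le_sum hS).trans
    (Finset.sum_le_sum_of_subset (Finset.subset_univ _))))
  rw [Finset.sum_const, Finset.card_powersetCard, Finset.card_univ, Fintype.card_fin,
    nsmul_eq_mul, ← mul_assoc ((k + r).factorial : ℝ≥0∞)⁻¹]
  refine le_of_eq ?_
  have hc : (((k + r).factorial : ℝ≥0∞))⁻¹ * ((k + r).choose k : ℝ≥0∞)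
      = (k.factorial : ℝ≥0∞)⁻¹ * (r.factorial : ℝ≥0∞)⁻¹ := by
    have h := Nat.choose_mul_factorial_mul_factorial (show k ≤ k + r from Nat.le_add_right k r)
    rw [Nat.add_sub_cancel_left] at h
    rw [← h, Nat.cast_mul, Nat.cast_mul,
      ← ENNReal.mul_inv (Or.inr (ENNReal.natCast_ne_top _)) (Or.inl (ENNReal.natCast_ne_top _)),
      mul_assoc, ENNReal.mul_inv (Or.inr (by finiteness)) (Or.inl (ENNReal.natCast_ne_top _)),
      mul_comm, ← mul_assoc, ENNReal.mul_inv_cancel, one_mul]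
    · exact_mod_cast (Nat.choose_pos (Nat.le_add_right k r)).ne'
    · exact ENNReal.natCast_ne_top _
  rw [hc]
  ring

lemma dsum_le_kernel_mul_scount {lab : R3 → Fin 3 → ℤ} (D : ℕ) (k : R3 → R3 → ℝ)
    (κ : (Fin 3 → ℤ) → ℝ) (hκ0 : ∀ v, 0 ≤ κ v)
    (hk : ∀ p q, lab q - lab p ∈ zgrid D → k p q ≤ κ (lab q - lab p))
    (hsupp : ∀ p q, lab q - lab p ∉ zgrid D → k p q ≤ 0)
    {n : ℕ} (x : Fin n → R3) :
    dsum x k ≤ (∑ v ∈ zgrid D, κ v) * scount lab x := by
  classical
  have hpt : ∀ i j, k (x i) (x j)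
      ≤ ∑ v ∈ zgrid D, κ v * if lab (x j) = lab (x i) + v then (1 : ℝ) else 0 := by
    intro i j
    have hnn : ∀ v ∈ zgrid D, 0 ≤ κ v * if lab (x j) = lab (x i) + v then (1 : ℝ) else 0 :=
      fun v _ => mul_nonneg (hκ0 v) (by split_ifs <;> norm_num)
    by_cases h : lab (x j) - lab (x i) ∈ zgrid D
    · refine (hk _ _ h).trans (le_trans (le_of_eq ?_) (Finset.single_le_sum hnn h))
      simp
    · exact (hsupp _ _ h).trans (Finset.sum_nonneg hnn)
  calc dsum x k
      ≤ ∑ i, ∑ j, ∑ v ∈ zgrid D, κ v * if lab (x j) = lab (x i) + v then (1 : ℝ) else 0 :=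
        Finset.sum_le_sum fun i _ => Finset.sum_le_sum fun j _ => hpt i j
    _ = ∑ v ∈ zgrid D, κ v * ∑ i, ∑ j, if lab (x j) = lab (x i) + v then (1 : ℝ) else 0 := by
        simp only [Finset.mul_sum]
        rw [Finset.sum_comm (s := zgrid D)]
        exact Finset.sum_congr rfl fun i _ => Finset.sum_comm
    _ ≤ ∑ v ∈ zgrid D, κ v * scount lab x := by
        refine Finset.sum_le_sum fun v _ => mul_le_mul_of_nonneg_left ?_ (hκ0 v)
        refine (shifted_count (fun i => lab (x i)) v).trans_eq ?_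
        simp only [scount, dsum, same]
        exact Finset.sum_congr rfl fun i _ => Finset.sum_congr rfl fun j _ => by congr
    _ = _ := by rw [Finset.sum_mul]

/-- Sharp form of the block bound on the pairs of one profile. -/
lemma dsum_prof_le_sharp (l w : ℕ) (hw : 0 < w) (hwl : (w : ℝ) ≤ 8 * ((l : ℝ) + 1))
    (s : Fin 3 → ℕ) {n : ℕ} (x : Fin n → R3) :
    dsum x (fun p q => prof l (dist p q))
      ≤ (Jeta + Kp * w / ((l : ℝ) + 1)) / (w : ℝ) ^ 3 * scount (blk w s) x := by
  have hw0 : (0 : ℝ) < w := by exact_mod_cast hw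
  have hw1 : (1 : ℝ) ≤ w := by exact_mod_cast hw
  set D := 48 * (l + 1) with hD
  refine (dsum_le_kernel_mul_scount (lab := blk w s) D _ (fun v => prof l (zlen (w : ℝ) v - 4 * w))
    (fun v => prof_nonneg _ _) ?_ ?_ x).trans (mul_le_mul_of_nonneg_right ?_ (scount_nonneg _ _))
  · intro p q _
    refine prof_antitone l ?_
    set v := blk w s q - blk w s p with hv
    have hb : ∀ (y : R3) (k : Fin 3), (w : ℝ) * blk w s y k ≤ y k + s k ∧
        y k + s k < (w : ℝ) * blk w s y k + w := by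
      intro y k
      have hw' : (0 : ℤ) < w := by exact_mod_cast hw
      have h1 := Int.ediv_mul_le (cell y k + (s k : ℤ)) hw'.ne'
      have h2 := Int.lt_ediv_add_one_mul_self (cell y k + (s k : ℤ)) hw'
      have r1 : ((blk w s y k * (w : ℤ) : ℤ) : ℝ) ≤ ((cell y k + (s k : ℤ) : ℤ) : ℝ) := by
        exact_mod_cast h1
      have r2 : ((cell y k + (s k : ℤ) : ℤ) : ℝ) + 1 ≤ (((blk w s y k + 1) * (w : ℤ) : ℤ) : ℝ) := by
        exact_mod_cast h2
      push_cast at r1 r2
      have a1 := Int.floor_le (y k)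
      have a2 := Int.lt_floor_add_one (y k)
      simp only [cell] at r1 r2 ⊢
      constructor <;> linarith
    have hd := dist_vec_le hw0.le (x := q - p) (f := fun k => (w : ℝ) * (v k : ℝ)) fun k => by
      have h1 := hb p k
      have h2 := hb q k
      simp only [PiLp.sub_apply, hv, Pi.sub_apply, Int.cast_sub]
      rw [abs_le]
      constructor <;> linarith
    have h3 := norm_sub_norm_le (vec fun k => (w : ℝ) * (v k : ℝ)) (q - p)
    rw [norm_sub_rev (vec fun k => (w : ℝ) * (v k : ℝ)) (q - p)] at h3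
    rw [dist_eq_norm, norm_sub_rev]
    unfold zlen
    linarith
  · intro p q hpq
    rw [prof_eq_zero]
    by_contra hc
    push Not at hc
    refine hpq (Fintype.mem_piFinset.2 fun k => ?_)
    have hcd := abs_le.1 (cell_diff_le (D := D) (by rw [hD]; push_cast; exact hc) k)
    have hw' : (0 : ℤ) < w := by exact_mod_cast hw
    have key : ∀ c c' : ℤ, c' ≤ c + D → c' / (w : ℤ) ≤ c / (w : ℤ) + D := by
      intro c c' hcc
      rw [← Int.add_mul_ediv_right c (D : ℤ) hw'.ne']
      refine Int.ediv_le_ediv hw' (le_trans hcc ?_)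
      have : (D : ℤ) ≤ (D : ℤ) * w := le_mul_of_one_le_right (by positivity) (by omega)
      omega
    have a1 := key (cell p k + (s k : ℤ)) (cell q k + (s k : ℤ)) (by omega)
    have a2 := key (cell q k + (s k : ℤ)) (cell p k + (s k : ℤ)) (by omega)
    rw [Finset.mem_Icc, Pi.sub_apply]
    unfold blk
    constructor <;> omega
  · rw [le_div_iff₀ (by positivity), mul_comm]
    exact zlat_upper l hw0 (by linarith) D

lemma pres_le_block (h : Good A a) (l : ℕ) {T : ℝ} (hT : 0 ≤ T) (hb : Good A (bump a l T))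
    (μ : ℝ) (w : ℕ) (hw : 0 < w) (τ : ℝ)
    (hτ : ∀ (σ : Fin 3 → ℕ) (n : ℕ) (x : Fin n → R3),
      T / 2 * dsum x (fun p q => prof l (dist p q)) ≤ τ * scount (blk w σ) x)
    (hX : gz (volume.restrict (bset w (fun _ => 0) 0)) (oneBlock A a μ (err a w) τ) ≠ ∞) :
    pres A (bump a l T) μ
      ≤ elog (gz (volume.restrict (bset w (fun _ => 0) 0)) (oneBlock A a μ (err a w) τ))
        / (w : ℝ) ^ 3 := by
  set V : ℝ := (w : ℝ) ^ 3 with hV
  have hV0 : 0 < V := by positivity
  set δ := err a w with hδ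
  set X := gz (volume.restrict (bset w (fun _ => 0) 0)) (oneBlock A a μ δ τ) with hXdef
  have hX1 : 1 ≤ X := one_le_gz _ _ fun x => by simp [oneBlock, ex_zero, scount, dsum]
  have hfin : ∀ K : ℕ, lz A (bump a l T) μ ((w : ℝ) * K)
      ≤ Real.log V + ((K : ℝ) + 1) ^ 3 * elog X := by
    intro K
    refine elog_le_iff (one_le_gz_ex _ μ) ?_
    refine le_trans (gz_le_sum_of_ae _ _ (shifts w) (fun σ => bex A a μ δ τ w σ)
      (fun σ n => measurable_bex h.weights μ δ τ w σ n) fun n => ?_) ?_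
    · refine Filter.Eventually.of_forall fun x => ?_
      obtain ⟨σ, hσ, hle⟩ := exists_good_shift A h.A_nonneg h.weights w hw x
      refine ⟨σ, hσ, ?_⟩
      have h1 := energy_bump (A := A) h.weights l hT x
      have h2 := hτ σ n x
      simp only [ex, bex]
      linarith
    · refine le_trans (Finset.sum_le_sum (g := fun _ => X ^ ((K + 1) ^ 3)) fun σ hσ => ?_) ?_
      · set T := Fintype.piFinset (fun _ : Fin 3 => Finset.Icc (0 : ℤ) K) with hT
        haveI : IsFiniteMeasure (volume.restrict (⋃ v ∈ T, bset w σ v)) :=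
          isFiniteMeasure_restrict.2 (lt_of_le_of_lt (measure_biUnion_finset_le T _)
            (ENNReal.sum_lt_top.2 fun u _ => volume_bset_lt_top w hw σ u)).ne
        refine le_trans (gz_mono_set (measurableSet_cube _) (cube_subset_bset w hw σ hσ K) _) ?_
        refine (gz_bex_union h.weights μ δ τ w hw σ T).trans_eq ?_
        congr 1
        simp [hT, Fintype.card_piFinset, Int.card_Icc]
      · rw [Finset.sum_const, nsmul_eq_mul, Real.exp_add, Real.exp_log hV0,
          ENNReal.ofReal_mul hV0.le]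
        refine mul_le_mul' (le_of_eq ?_) (le_of_eq ?_)
        · rw [hV, ← shifts_card, ENNReal.ofReal_natCast]
        · rw [← ofReal_exp_elog (one_le_pow₀ hX1) (ENNReal.pow_ne_top hX), elog_pow]
          push_cast; rfl
  have hwR : Tendsto (fun K : ℕ => (w : ℝ) * (K : ℝ)) atTop atTop :=
    tendsto_natCast_atTop_atTop.const_mul_atTop (by exact_mod_cast hw)
  have hup : Tendsto (fun K : ℕ => Real.log V / V * (1 / (K : ℝ)) ^ 3
      + (1 + 1 / (K : ℝ)) ^ 3 * (elog X / V)) atTop (𝓝 (elog X / V)) := by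
    have h1 := tendsto_one_div_atTop_nhds_zero_nat (𝕜 := ℝ)
    simpa using ((h1.pow 3).const_mul (Real.log V / V)).add
      (((h1.const_add 1).pow 3).mul_const (elog X / V))
  refine le_of_tendsto_of_tendsto ((hb.tendsto_lz μ).comp hwR) hup ?_
  filter_upwards [eventually_ge_atTop 1] with K hK
  have hK0 : (0 : ℝ) < K := by exact_mod_cast hK
  simp only [Function.comp_apply]
  rw [div_le_iff₀ (by positivity)]
  refine (hfin K).trans_eq ?_
  rw [hV]
  field_simp

/-- One block with the mean-field tilt is dominated by a single particle number. -/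
lemma block_max (h : Good A a) (l : ℕ) {T : ℝ} (hT : 0 ≤ T) (hb : Good A (bump a l T))
    (μ : ℝ) (w : ℕ) (hw : 0 < w) (J' : ℝ) (hJ0 : 0 ≤ J') (hJ1 : J' ≤ C₁) (δ : ℝ) (hδ0 : 0 ≤ δ)
    (hδ1 : δ ≤ 1) :
    let V : ℝ := (w : ℝ) ^ 3
    let M := Real.exp (μ + 1 + A / 2)
    let X := gz (volume.restrict (bset w (fun _ => 0) 0)) (oneBlock A a μ δ (T * J' / (2 * V)))
    X ≠ ∞ ∧ ∃ n : ℕ, ∃ Lt : ℝ, (n : ℝ) ≤ M * V ∧
      ENNReal.ofReal (Real.exp Lt) ≤ tt (volume.restrict (cube (w : ℝ))) (ex A a μ) n ∧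
      Lt + T * J' / (2 * V) * (n : ℝ) ^ 2 ≤ M * V ∧
      0 ≤ Lt + T * J' / (2 * V) * (n : ℝ) ^ 2 ∧
      elog X ≤ Real.log (M * V + 2) + (Lt + T * J' / (2 * V) * (n : ℝ) ^ 2) + δ * M * V := by
  intro V M X
  set B0 := bset w (fun _ => 0) (0 : Fin 3 → ℤ) with hB0
  set τ := T * J' / (2 * V) with hτ
  have hV0 : 0 < V := by simp only [V]; positivity
  have hτ0 : 0 ≤ τ := by positivity
  haveI : IsFiniteMeasure (volume.restrict B0) :=
    isFiniteMeasure_restrict.2 (volume_bset_lt_top w hw _ _).ne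
  have hvol : ((volume.restrict B0) Set.univ).toReal ≤ V := by
    rw [Measure.restrict_apply_univ]
    refine ENNReal.toReal_le_of_le_ofReal hV0.le ?_
    simp only [V]
    rw [← volume_cube (Nat.cast_nonneg w)]
    exact measure_mono (bset_zero_subset w hw)
  have habs : ∀ n, ∀ᵐ x ∂(Measure.pi fun _ : Fin n => volume.restrict B0),
      ex A a μ n x + scount cell x + τ * (n : ℝ) ^ 2 ≤ (μ + A / 2) * n := by
    intro n
    filter_upwards [ae_pi_mem (fun _ : Fin n => B0) fun _ => measurableSet_bset _ _ _] with x hx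
    have hS := scount_nonneg cell x
    have h1 : τ * (n : ℝ) ^ 2 ≤ T * J' / 2 * scount cell x := by
      refine (mul_le_mul_of_nonneg_left (sq_card_le_scount w x hx hw) hτ0).trans_eq ?_
      rw [hτ]; simp only [V]; field_simp
    have h2 := energy_ge A h.A_nonneg h.weights x
    have h3 := hb.small
    rw [tsum_bump h.weights] at h3
    have h4 : T * J' ≤ T * C₁ := mul_le_mul_of_nonneg_left hJ1 hT
    simp only [ex]
    nlinarith
  have hlin : ∀ c : ℝ, gz (volume.restrict B0) (fun n _ => c * (n : ℝ))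
      ≤ ENNReal.ofReal (Real.exp (V * Real.exp c)) := by
    intro c
    rw [gz_linear]
    exact ENNReal.ofReal_le_ofReal (Real.exp_le_exp.2
      (mul_le_mul_of_nonneg_right hvol (Real.exp_pos c).le))
  have hMA : Real.exp (μ + A / 2) ≤ M := Real.exp_le_exp.2 (by linarith)
  set X₀ := gz (volume.restrict B0) (oneBlock A a μ 0 τ) with hX₀
  have hX₀1 : 1 ≤ X₀ := one_le_gz _ _ fun x => by simp [oneBlock, ex_zero, scount, dsum]
  have hX₀le : X₀ ≤ ENNReal.ofReal (Real.exp (V * Real.exp (μ + A / 2))) := by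
    refine le_trans (gz_le_of_ae fun n => (habs n).mono fun x hx => ?_) (hlin _)
    simp only [oneBlock]
    linarith [scount_nonneg cell x]
  have hXle : X ≤ X₀ * ENNReal.ofReal (Real.exp (δ * (M * V))) := by
    have hi := gz_interp (volume.restrict B0) (oneBlock A a μ 0 τ) (oneBlock A a μ 1 τ)
      (measurable_oneBlock h.weights μ 0 τ) (measurable_oneBlock h.weights μ 1 τ) hδ0 hδ1
    refine le_trans (le_trans (gz_mono fun n x => le_of_eq (by simp only [oneBlock]; ring)) hi) ?_
    refine mul_le_mul' ?_ ?_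
    · conv_rhs => rw [← ENNReal.rpow_one X₀]
      exact ENNReal.rpow_le_rpow_of_exponent_le hX₀1 (by linarith)
    · refine le_trans (ENNReal.rpow_le_rpow (z := δ)
        (?_ : _ ≤ ENNReal.ofReal (Real.exp (M * V))) hδ0) ?_
      · refine le_trans (gz_le_of_ae fun n => (habs n).mono fun x hx => ?_)
          ((hlin (μ + A / 2)).trans (ENNReal.ofReal_le_ofReal (Real.exp_le_exp.2 ?_)))
        · simp only [oneBlock]; linarith
        · rw [mul_comm M]; exact mul_le_mul_of_nonneg_left hMA hV0.le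
      · rw [ENNReal.ofReal_rpow_of_pos (Real.exp_pos _), ← Real.exp_mul, mul_comm δ]
  have hX0t : X₀ ≠ ∞ := ne_top_of_le_ne_top ENNReal.ofReal_ne_top hX₀le
  have hXt : X ≠ ∞ := ne_top_of_le_ne_top (ENNReal.mul_ne_top hX0t ENNReal.ofReal_ne_top) hXle
  refine ⟨hXt, ?_⟩
  set N := ⌊M * V⌋₊ with hN
  set t : ℕ → ℝ≥0∞ := fun k => tt (volume.restrict B0) (oneBlock A a μ 0 τ) k with ht
  obtain ⟨n, hn, hmax⟩ := Finset.exists_max_image (Finset.range (N + 1)) t ⟨0, by simp⟩
  have ht0 : t 0 = 1 := by simp [ht, tt, oneBlock, ex_zero, scount, dsum]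
  have htn1 : 1 ≤ t n := ht0 ▸ hmax 0 (by simp)
  have htnt : t n ≠ ∞ := ne_top_of_le_ne_top hX0t (tt_le_gz _ _ n)
  have hNle : (N : ℝ) ≤ M * V := Nat.floor_le (by positivity)
  have hnle : (n : ℝ) ≤ M * V := by
    have : n ≤ N := Nat.lt_succ_iff.1 (Finset.mem_range.1 hn)
    exact le_trans (by exact_mod_cast this) hNle
  have hsum : X₀ ≤ ((N + 2 : ℕ) : ℝ≥0∞) * t n := by
    have hterm : ∀ k, t k ≤ (if k ∈ Finset.range (N + 1) then t k else 0)
        + tt (volume.restrict B0) (fun j _ => -(M * V) + (μ + 1 + A / 2) * j) k := by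
      intro k
      split_ifs with hk
      · exact le_add_right le_rfl
      · rw [zero_add]
        refine tt_le_of_ae ((habs k).mono fun x hx => ?_)
        have hk' : M * V < k := by
          have h1 : (N : ℝ) + 1 ≤ k := by
            rw [Finset.mem_range] at hk
            exact_mod_cast Nat.le_of_not_lt hk
          linarith [Nat.lt_floor_add_one (M * V)]
        simp only [oneBlock]
        linarith [scount_nonneg cell x]
    rw [hX₀, gz_eq_tsum_tt]
    refine le_trans (ENNReal.tsum_le_tsum hterm) ?_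
    rw [ENNReal.tsum_add, tsum_eq_sum (s := Finset.range (N + 1)) fun k hk => if_neg hk,
      ← gz_eq_tsum_tt, gz_const_mul (volume.restrict B0) (fun j _ => (μ + 1 + A / 2) * (j : ℝ))]
    rw [show ((N + 2 : ℕ) : ℝ≥0∞) = ((N + 1 : ℕ) : ℝ≥0∞) + 1 by push_cast; ring, add_mul, one_mul]
    refine add_le_add ?_ (le_trans ?_ htn1)
    · refine (Finset.sum_le_card_nsmul _ _ (t n) fun k hk => ?_).trans_eq ?_
      · rw [if_pos hk]; exact hmax k hk
      · rw [Finset.card_range, nsmul_eq_mul]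
    · refine le_trans (mul_le_mul' le_rfl (hlin _)) (le_of_eq ?_)
      rw [← ENNReal.ofReal_mul (Real.exp_pos _).le, ← Real.exp_add]
      simp [M, mul_comm]
  refine ⟨n, elog (t n) - τ * (n : ℝ) ^ 2, hnle, ?_, ?_, ?_, ?_⟩
  · refine le_trans (le_of_eq ?_) (tt_mono_set (bset_zero_subset w hw) _ n)
    have e : t n = ENNReal.ofReal (Real.exp (τ * (n : ℝ) ^ 2))
        * tt (volume.restrict B0) (ex A a μ) n := by
      rw [← tt_const_add]
      simp only [ht, tt, oneBlock, zero_mul, add_zero]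
      simp only [add_comm]
    rw [Real.exp_sub, ENNReal.ofReal_div_of_pos (Real.exp_pos _),
      ofReal_exp_elog htn1 htnt, e, mul_comm,
      ENNReal.mul_div_cancel_right (by simp [Real.exp_pos]) ENNReal.ofReal_ne_top]
  · rw [sub_add_cancel]
    refine elog_le_iff htn1 ((tt_le_gz _ _ n).trans (hX₀le.trans (ENNReal.ofReal_le_ofReal
      (Real.exp_le_exp.2 ?_))))
    rw [mul_comm M]
    exact mul_le_mul_of_nonneg_left hMA hV0.le
  · rw [sub_add_cancel]; exact elog_nonneg htn1
  · rw [sub_add_cancel]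
    have hX1 : 1 ≤ X := one_le_gz _ _ fun x => by simp [oneBlock, ex_zero, scount, dsum]
    refine elog_le_iff hX1 (le_trans hXle ?_)
    rw [Real.exp_add, Real.exp_add, ENNReal.ofReal_mul (by positivity),
      ENNReal.ofReal_mul (by positivity), Real.exp_log (by positivity),
      ofReal_exp_elog htn1 htnt, show δ * M * V = δ * (M * V) by ring]
    refine mul_le_mul' (le_trans hsum (mul_le_mul' ?_ le_rfl)) le_rfl
    rw [← ENNReal.ofReal_natCast]
    refine ENNReal.ofReal_le_ofReal ?_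
    push_cast
    linarith

/-- Label of the spacing-`p` box containing a point. -/
noncomputable def plab (p : ℝ) (y : R3) : Fin 3 → ℕ := fun k => ⌊y k / p⌋₊

lemma plab_eq {p m : ℝ} (hm : m < p) (hm0 : 0 ≤ m) {v : Fin 3 → ℕ} {y : R3}
    (hy : y ∈ gbox p m v) : plab p y = v := by
  funext k
  have h := hy k
  simp only [Set.mem_Icc] at h
  have hp : 0 < p := by linarith
  unfold plab
  refine (Nat.floor_eq_iff (div_nonneg (by nlinarith [(v k).cast_nonneg (α := ℝ)]) hp.le)).2
    ⟨?_, ?_⟩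
  · rw [le_div_iff₀ hp]; linarith
  · rw [div_lt_iff₀ hp]; linarith

lemma measurable_plab (p : ℝ) : Measurable (plab p) :=
  measurable_pi_lambda _ fun k => Nat.measurable_floor.comp (by fun_prop)

/-- `ex` plus a field that depends only on the box label. -/
noncomputable def fex (A : ℝ) (a : ℕ → ℝ) (μ p : ℝ) (h : (Fin 3 → ℕ) → ℝ) : Expo :=
  fun N x => ex A a μ N x + ∑ i, h (plab p (x i))

lemma measurable_fex (ha : Weights a) (μ p : ℝ) (h : (Fin 3 → ℕ) → ℝ) (N : ℕ) :
    Measurable (fex A a μ p h N) :=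
  (measurable_ex ha μ N).add (Finset.measurable_sum _ fun i _ =>
    ((measurable_of_countable h).comp (measurable_plab p)).comp (measurable_pi_apply i))

/-- The difference of two box labels. -/
def ldiff (u v : Fin 3 → ℕ) : Fin 3 → ℤ := fun k => (v k : ℤ) - u k

lemma zlen_ldiff_comm (p : ℝ) (u v : Fin 3 → ℕ) : zlen p (ldiff u v) = zlen p (ldiff v u) := by
  unfold zlen
  rw [← norm_neg]
  congr 1
  ext k
  simp [vec_apply, ldiff]
  ring

/-- The kernel used in the lower bound. -/
noncomputable def lker (d : ℕ → ℝ) (p : ℝ) (v : Fin 3 → ℤ) : ℝ := attr d (zlen p v + 4 * p)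

lemma trial_union (h : Good A b) (hab : ∀ l, a l ≤ b l) (ha : Weights a) (μ : ℝ) (w : ℕ) (n : ℕ)
    (Lt : ℝ) (hLt : ENNReal.ofReal (Real.exp Lt) ≤ tt (volume.restrict (cube (w : ℝ))) (ex A a μ) n)
    (p : ℝ) (hp : p = (w : ℝ) + 4) (F : Finset (Fin 3 → ℕ)) :
    ∀ f : (Fin 3 → ℕ) → ℝ,
    ENNReal.ofReal (Real.exp (F.card * Lt
        + (n : ℝ) ^ 2 / 2 * (∑ u ∈ F, ∑ v ∈ F.erase u, lker (fun l => b l - a l) p (ldiff u v))
        + n * ∑ v ∈ F, f v))
      ≤ tt (volume.restrict (⋃ v ∈ F, gbox p w v)) (fex A b μ p f) (n * F.card) := by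
  classical
  have hwp : (w : ℝ) < p := by linarith
  have hp0 : 0 < p := by linarith [(Nat.cast_nonneg w : (0 : ℝ) ≤ w)]
  set κ := lker (fun l => b l - a l) p with hκ
  have hfinF : ∀ G : Finset (Fin 3 → ℕ), IsFiniteMeasure
      (volume.restrict (⋃ v ∈ G, gbox p (w : ℝ) v)) := by
    intro G
    refine isFiniteMeasure_restrict.2 (lt_of_le_of_lt (measure_biUnion_finset_le G _) ?_).ne
    refine ENNReal.sum_lt_top.2 fun v _ => ?_
    rw [gbox_eq, measure_preimage_add_right]
    exact volume_cube_lt_top _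
  induction F using Finset.induction with
  | empty =>
    intro f
    rw [Finset.card_empty, Nat.mul_zero]
    simp only [Finset.notMem_empty, Set.iUnion_false, Set.iUnion_empty, Measure.restrict_empty,
      Finset.sum_empty]
    simp [tt, fex, ex_zero]
  | insert v F hv ih =>
    intro f
    set f' : (Fin 3 → ℕ) → ℝ := fun u => f u + n * κ (ldiff v u) with hf'
    have hpair : ∑ u ∈ insert v F, ∑ u' ∈ (insert v F).erase u, κ (ldiff u u')
        = (∑ u ∈ F, ∑ u' ∈ F.erase u, κ (ldiff u u')) + 2 * ∑ u ∈ F, κ (ldiff v u) := by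
      rw [Finset.sum_insert hv, Finset.erase_insert hv]
      have : ∀ u ∈ F, ∑ u' ∈ (insert v F).erase u, κ (ldiff u u')
          = κ (ldiff v u) + ∑ u' ∈ F.erase u, κ (ldiff u u') := by
        intro u hu
        have hne : v ≠ u := fun e => hv (e ▸ hu)
        rw [Finset.erase_insert_of_ne hne,
          Finset.sum_insert (fun e => hv (Finset.mem_of_mem_erase e))]
        congr 1
        simp only [hκ, lker, zlen_ldiff_comm]
      rw [Finset.sum_congr rfl this, Finset.sum_add_distrib]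
      ring
    have hval : ((insert v F).card : ℝ) * Lt
        + (n : ℝ) ^ 2 / 2 * (∑ u ∈ insert v F, ∑ u' ∈ (insert v F).erase u, κ (ldiff u u'))
        + n * ∑ u ∈ insert v F, f u
        = (n * f v + Lt) + (F.card * Lt
          + (n : ℝ) ^ 2 / 2 * (∑ u ∈ F, ∑ u' ∈ F.erase u, κ (ldiff u u'))
          + n * ∑ u ∈ F, f' u) := by
      rw [hpair, Finset.card_insert_of_notMem hv, Finset.sum_insert hv]
      simp only [hf', Finset.sum_add_distrib, ← Finset.mul_sum]
      push_cast
      ring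
    rw [hval, Real.exp_add, ENNReal.ofReal_mul (Real.exp_pos _).le]
    have hcard : n * (insert v F).card = n + n * F.card := by
      rw [Finset.card_insert_of_notMem hv]; ring
    have hdis : Disjoint (⋃ u ∈ F, gbox p (w : ℝ) u) (gbox p (w : ℝ) v) := by
      rw [Set.disjoint_left]
      intro x hx hx'
      simp only [Set.mem_iUnion] at hx
      obtain ⟨u, hu, hxu⟩ := hx
      exact hv (((plab_eq hwp w.cast_nonneg hxu).symm.trans (plab_eq hwp w.cast_nonneg hx')) ▸ hu)
    rw [hcard, Finset.set_biUnion_insert, Set.union_comm,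
      Measure.restrict_union hdis (measurableSet_gbox p w v)]
    haveI := hfinF F
    haveI : IsFiniteMeasure (volume.restrict (gbox p (w : ℝ) v)) := by
      simpa using hfinF {v}
    refine le_trans (mul_le_mul' ?_ (ih f')) (tt_add_ge _ _ _ (fun k x => f v * k + ex A a μ k x)
      _ (fun k => (measurable_ex ha μ k).const_add _) (measurable_fex h.weights μ p f') n _
      fun S hS => ?_)
    · have e1 : tt (volume.restrict (gbox p (w : ℝ) v)) (fun k x => f v * k + ex A a μ k x) n
          = ENNReal.ofReal (Real.exp (f v * n)) * tt (volume.restrict (gbox p (w : ℝ) v))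
            (ex A a μ) n := tt_const_add _ (ex A a μ) n (f v * n)
      have e2 : tt (volume.restrict (gbox p (w : ℝ) v)) (ex A a μ) n
          = tt (volume.restrict (cube (w : ℝ))) (ex A a μ) n := by
        haveI : IsFiniteMeasure (volume.restrict
            ((fun y => y + vec fun k => -(p * v k)) ⁻¹' cube (w : ℝ))) := by
          rw [← gbox_eq]; infer_instance
        rw [gbox_eq]
        refine tt_translate _ _ _ (measurable_ex ha μ) (fun N x => ?_) n
        simp only [ex, energy, dsum, dist_add_right]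
      rw [e1, e2, Real.exp_add, ENNReal.ofReal_mul (Real.exp_pos _).le, mul_comm (n : ℝ)]
      exact mul_le_mul' le_rfl hLt
    · have hU : MeasurableSet (⋃ u ∈ F, gbox p (w : ℝ) u) :=
        F.measurableSet_biUnion fun u _ => measurableSet_gbox p _ u
      filter_upwards [ae_split_mem S hU (measurableSet_gbox p (w : ℝ) v)] with x hx
      have hlabS : ∀ i ∈ S, plab p (x i) = v := fun i hi => plab_eq hwp w.cast_nonneg (hx.1 i hi)
      have hcross : ∀ i ∈ S, ∀ j ∈ Sᶜ,
          pot A b (dist (x i) (x j)) + pot A b (dist (x j) (x i))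
            ≤ -(2 * κ (ldiff v (plab p (x j)))) := by
        intro i hi j hj
        have h2 := hx.2 j hj
        simp only [Set.mem_iUnion] at h2
        obtain ⟨u, hu, hxu⟩ := h2
        rw [plab_eq hwp w.cast_nonneg hxu, dist_comm (x j)]
        have h1 := hx.1 i hi
        obtain ⟨k, hk⟩ := Function.ne_iff.1 (fun e : u = v => hv (e ▸ hu))
        have a1 := h1 k
        have a2 := hxu k
        simp only [Set.mem_Icc] at a1 a2
        have hd4 : 4 ≤ dist (x i) (x j) := by
          refine le_trans ?_ (abs_coord_le_dist (x i) (x j) k)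
          rcases Nat.lt_or_gt_of_ne hk with hlt | hlt
          · have : (u k : ℝ) + 1 ≤ v k := by exact_mod_cast hlt
            exact le_trans (by nlinarith) (le_abs_self _)
          · have : (v k : ℝ) + 1 ≤ u k := by exact_mod_cast hlt
            exact le_trans (by nlinarith) (neg_le_abs _)
        have hdz : dist (x i) (x j) ≤ zlen p (ldiff v u) + 4 * p := by
          have hd := dist_vec_le hp0.le (x := x j - x i)
            (f := fun k => p * ((ldiff v u k : ℤ) : ℝ)) fun k => by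
            have b1 := h1 k
            have b2 := hxu k
            simp only [Set.mem_Icc] at b1 b2
            simp only [PiLp.sub_apply, ldiff, Int.cast_sub, Int.cast_natCast]
            rw [abs_le]
            constructor <;> linarith
          have h3 := norm_sub_norm_le (x j - x i) (vec fun k => p * ((ldiff v u k : ℤ) : ℝ))
          rw [dist_eq_norm, norm_sub_rev]
          unfold zlen
          linarith
        have hd0 := Weights.sub ha h.weights hab
        have h4 : attr (fun l => b l - a l) (zlen p (ldiff v u) + 4 * p)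
            ≤ attr (fun l => b l - a l) (dist (x i) (x j)) :=
          (hd0.summable_prof _).tsum_le_tsum
            (fun l => mul_le_mul_of_nonneg_left (prof_antitone l hdz) (hd0.nonneg l))
            (hd0.summable_prof _)
        rw [attr_sub ha h.weights (dist (x i) (x j))] at h4
        have h5 := attr_nonneg ha (dist (x i) (x j))
        simp only [pot, core, hκ, lker]
        rw [eta_eq_zero (by linarith)]
        linarith
      have hsp := dsum_split x S fun y z => pot A b (dist y z)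
      have hcs : ∑ i ∈ S, ∑ j ∈ Sᶜ, (pot A b (dist (x i) (x j)) + pot A b (dist (x j) (x i)))
          ≤ -(2 * ((n : ℝ) * ∑ j ∈ Sᶜ, κ (ldiff v (plab p (x j))))) := by
        refine (Finset.sum_le_sum fun i hi => Finset.sum_le_sum fun j hj => hcross i hi j hj).trans_eq
          ?_
        rw [Finset.sum_const, hS, nsmul_eq_mul, Finset.sum_neg_distrib, ← Finset.mul_sum]
        ring
      have hex : ex A a μ S.card (fun i => x (sel S i)) ≤ ex A b μ S.card (fun i => x (sel S i)) := by
        simp only [ex]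
        linarith [(energy_sub A ha h.weights hab (fun i => x (sel S i))).1]
      have hfS : ∑ i ∈ S, f (plab p (x i)) = f v * S.card := by
        rw [Finset.sum_congr rfl fun i hi => by rw [hlabS i hi], Finset.sum_const, nsmul_eq_mul,
          mul_comm]
      simp only [fex, hf']
      rw [sum_sel Sᶜ fun i => f (plab p (x i)) + n * κ (ldiff v (plab p (x i))),
        Finset.sum_add_distrib, ← Finset.mul_sum, ← Finset.sum_add_sum_compl S fun i => f (plab p (x i)),
        hfS]
      simp only [ex, energy] at hex ⊢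
      rw [← card_compl_add S]
      linarith

lemma lker_nonneg {d : ℕ → ℝ} (hd : Weights d) (p : ℝ) (v : Fin 3 → ℤ) : 0 ≤ lker d p v :=
  attr_nonneg hd _

lemma pres_trial (h : Good A b) (hab : ∀ l, a l ≤ b l) (ha : Weights a) (μ : ℝ) (w : ℕ) (n : ℕ)
    (Lt : ℝ) (hLt : ENNReal.ofReal (Real.exp Lt) ≤ tt (volume.restrict (cube (w : ℝ))) (ex A a μ) n)
    (p : ℝ) (hp : p = (w : ℝ) + 4) (D : ℕ) :
    (Lt + (n : ℝ) ^ 2 / 2 * ∑ v ∈ (zgrid D).erase 0, lker (fun l => b l - a l) p v) / p ^ 3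
      ≤ pres A b μ := by
  classical
  have hp0 : 0 < p := by linarith [(Nat.cast_nonneg w : (0 : ℝ) ≤ w)]
  have hd := Weights.sub ha h.weights hab
  set κ := lker (fun l => b l - a l) p with hκ
  set Sκ := ∑ v ∈ (zgrid D).erase 0, κ v with hSκ
  have key : ∀ K : ℕ, (K : ℝ) ^ 3 * Lt + (n : ℝ) ^ 2 / 2 * (((K - 2 * D : ℕ) : ℝ) ^ 3 * Sκ)
      ≤ lz A b μ ((K : ℝ) * p) := by
    intro K
    set F := Fintype.piFinset fun _ : Fin 3 => Finset.range K with hF
    set I := Fintype.piFinset fun _ : Fin 3 => Finset.Ico D (K - D) with hI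
    have hsum : ((K - 2 * D : ℕ) : ℝ) ^ 3 * Sκ ≤ ∑ u ∈ F, ∑ v ∈ F.erase u, κ (ldiff u v) := by
      have hIc : (I.card : ℝ) = ((K - 2 * D : ℕ) : ℝ) ^ 3 := by
        have e : K - D - D = K - 2 * D := by omega
        simp [hI, Fintype.card_piFinset, Nat.card_Ico, e]
      have hIF : I ⊆ F := fun u hu => Fintype.mem_piFinset.2 fun k => by
        have := Finset.mem_Ico.1 (Fintype.mem_piFinset.1 hu k)
        exact Finset.mem_range.2 (by omega)
      rw [← hIc, ← nsmul_eq_mul, ← Finset.sum_const]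
      refine le_trans (Finset.sum_le_sum fun u hu => ?_) (Finset.sum_le_sum_of_subset_of_nonneg hIF
        fun u _ _ => Finset.sum_nonneg fun v _ => lker_nonneg hd _ _)
      refine le_trans (le_of_eq ?_) (Finset.sum_le_sum_of_subset_of_nonneg
        (s := ((zgrid D).erase 0).image fun δ => fun k => ((u k : ℤ) + δ k).toNat) ?_
        fun v _ _ => lker_nonneg hd _ _)
      · have hbd : ∀ δ ∈ (zgrid D).erase 0, ∀ k, -(D : ℤ) ≤ δ k ∧ δ k ≤ D := fun δ hδ k =>
          Finset.mem_Icc.1 (Fintype.mem_piFinset.1 (Finset.mem_of_mem_erase hδ) k)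
        have hu' : ∀ k, D ≤ u k ∧ u k < K - D := fun k =>
          Finset.mem_Ico.1 (Fintype.mem_piFinset.1 hu k)
        rw [Finset.sum_image]
        · refine Finset.sum_congr rfl fun δ hδ => ?_
          congr 1
          funext k
          have := hbd δ hδ k
          have := hu' k
          simp only [ldiff]
          omega
        · intro δ hδ δ' hδ' he
          funext k
          have := congrFun he k
          have := hbd δ hδ k
          have := hbd δ' hδ' k
          have := hu' k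
          simp only at *
          omega
      · intro v hv
        obtain ⟨δ, hδ, rfl⟩ := Finset.mem_image.1 hv
        have hbd : ∀ k, -(D : ℤ) ≤ δ k ∧ δ k ≤ D := fun k =>
          Finset.mem_Icc.1 (Fintype.mem_piFinset.1 (Finset.mem_of_mem_erase hδ) k)
        have hu' : ∀ k, D ≤ u k ∧ u k < K - D := fun k =>
          Finset.mem_Ico.1 (Fintype.mem_piFinset.1 hu k)
        refine Finset.mem_erase.2 ⟨fun e => (Finset.mem_erase.1 hδ).1 (funext fun k => ?_),
          Fintype.mem_piFinset.2 fun k => Finset.mem_range.2 ?_⟩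
        · have := congrFun e k
          have := hbd k
          have := hu' k
          simp only [Pi.zero_apply] at *
          omega
        · have := hbd k
          have := hu' k
          omega
    have hsub : (⋃ v ∈ F, gbox p (w : ℝ) v) ⊆ cube ((K : ℝ) * p) := by
      intro x hx k
      simp only [Set.mem_iUnion] at hx
      obtain ⟨v, hv, hxv⟩ := hx
      have h1 := hxv k
      have hvk : (v k : ℝ) + 1 ≤ K := by
        exact_mod_cast Finset.mem_range.1 (Fintype.mem_piFinset.1 hv k)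
      simp only [Set.mem_Icc] at h1 ⊢
      constructor <;> nlinarith [(Nat.cast_nonneg (v k) : (0:ℝ) ≤ v k)]
    have h1 := trial_union h hab ha μ w n Lt hLt p hp F (fun _ => 0)
    have h0 : fex A b μ p (fun _ => 0) = ex A b μ := by
      funext N x; simp [fex]
    rw [h0] at h1
    have h2 := h1.trans ((tt_mono_set hsub _ _).trans (tt_le_gz _ _ _))
    have hne := h.gz_ex_ne_top (volume.restrict (cube ((K : ℝ) * p))) μ
    have h3 := ENNReal.toReal_mono hne h2
    rw [ENNReal.toReal_ofReal (Real.exp_pos _).le] at h3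
    have h4 := Real.log_le_log (Real.exp_pos _) h3
    rw [Real.log_exp] at h4
    have hFc : (F.card : ℝ) = (K : ℝ) ^ 3 := by simp [hF, Fintype.card_piFinset]
    simp only [Finset.sum_const_zero, mul_zero, add_zero] at h4
    rw [hFc] at h4
    exact le_trans (by gcongr) h4
  have hL : Tendsto (fun K : ℕ => (K : ℝ) * p) atTop atTop :=
    tendsto_natCast_atTop_atTop.atTop_mul_const hp0
  have hlim : Tendsto (fun K : ℕ => (Lt + (n : ℝ) ^ 2 / 2 * ((1 - 2 * (D : ℝ) / K) ^ 3 * Sκ)) / p ^ 3)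
      atTop (𝓝 ((Lt + (n : ℝ) ^ 2 / 2 * Sκ) / p ^ 3)) := by
    have h1 : Tendsto (fun K : ℕ => (1 - 2 * (D : ℝ) / K) ^ 3) atTop (𝓝 1) := by
      simpa using ((tendsto_const_div_atTop_nhds_zero_nat (2 * (D : ℝ))).const_sub 1).pow 3
    simpa using (((h1.mul_const Sκ).const_mul ((n : ℝ) ^ 2 / 2)).const_add Lt).div_const (p ^ 3)
  refine le_of_tendsto_of_tendsto hlim ((h.tendsto_lz μ).comp hL) ?_
  filter_upwards [eventually_ge_atTop (max 1 (2 * D))] with K hK
  have hK1 : (1 : ℝ) ≤ K := by exact_mod_cast le_trans (le_max_left _ _) hK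
  have hk := key K
  rw [Nat.cast_sub (le_trans (le_max_right _ _) hK)] at hk
  push_cast at hk
  simp only [Function.comp_apply]
  rw [le_div_iff₀ (by positivity)]
  refine le_trans (le_of_eq ?_) hk
  field_simp
  try ring

lemma lker_sum_ge {d : ℕ → ℝ} (hd : Weights d) {T : ℝ} (htot : ∑' i, d i = T) {l R : ℕ}
    (hlo : ∀ i < l, d i = 0) (hhi : ∀ i, R ≤ i → d i = 0) (p : ℝ) (hp : 1 ≤ p)
    (hpl : 6 * p ≤ 48 * ((l : ℝ) + 1)) (D : ℕ) (hD : D = 48 * (R + 1)) :
    T * (Jeta - Kp * p / ((l : ℝ) + 1)) / p ^ 3 - T / ((l : ℝ) + 1) ^ 3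
      ≤ ∑ v ∈ (zgrid D).erase 0, lker d p v := by
  have hp0 : 0 < p := by linarith
  have h0 : (0 : Fin 3 → ℤ) ∈ zgrid D := Fintype.mem_piFinset.2 fun k => by simp
  have hKp0 : 0 ≤ Kp := by unfold Kp; positivity
  have hκ0 : lker d p 0 ≤ T / ((l : ℝ) + 1) ^ 3 := by
    unfold lker attr
    rw [← htot, ← tsum_div_const]
    refine (hd.summable_prof _).tsum_le_tsum (fun i => ?_) (hd.summable.div_const _)
    rcases lt_or_ge i l with hi | hi
    · simp [hlo i hi]
    · rw [div_eq_mul_one_div (d i)]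
      refine mul_le_mul_of_nonneg_left ((prof_le i _).trans ?_) (hd.nonneg i)
      have : (l : ℝ) ≤ i := by exact_mod_cast hi
      gcongr
  have hall : T * (Jeta - Kp * p / ((l : ℝ) + 1)) / p ^ 3 ≤ ∑ v ∈ zgrid D, lker d p v := by
    unfold lker attr
    rw [← Summable.tsum_finsetSum fun v _ => hd.summable_prof _, ← htot,
      ← tsum_mul_right, ← tsum_div_const]
    refine ((hd.summable.mul_right _).div_const _).tsum_le_tsum (fun i => ?_)
      (summable_sum fun v _ => hd.summable_prof _)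
    rw [← Finset.mul_sum, mul_div_assoc]
    rcases lt_or_ge i l with hi | hi
    · simp [hlo i hi]
    rcases lt_or_ge i R with hR | hR
    swap
    · simp [hhi i hR]
    refine mul_le_mul_of_nonneg_left ?_ (hd.nonneg i)
    have hiq : (l : ℝ) ≤ i := by exact_mod_cast hi
    have hiR : (i : ℝ) ≤ R := by exact_mod_cast hR.le
    have hDp : 48 * ((i : ℝ) + 1) ≤ p * D := by
      rw [hD]
      push_cast
      calc 48 * ((i : ℝ) + 1) ≤ 1 * (48 * ((R : ℝ) + 1)) := by linarith
        _ ≤ p * (48 * ((R : ℝ) + 1)) := mul_le_mul_of_nonneg_right hp (by positivity)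
    rw [div_le_iff₀ (by positivity)]
    refine le_trans ?_ ((zlat_lower i hp0 (by linarith) D hDp).trans_eq (mul_comm _ _))
    refine sub_le_sub_left ?_ _
    exact div_le_div_of_nonneg_left (mul_nonneg hKp0 hp0.le) (by positivity) (by linarith)
  rw [Finset.sum_erase_eq_sub h0]
  linarith

lemma low_scale {Lt n S V p q T J : ℝ} (hV : 0 < V) (hp : 0 < p) (hq : 0 < q) (hT : 0 ≤ T)
    (hpq : p ≤ q) (hS : T * (J - Kp * p / q) / p ^ 3 - T / q ^ 3 ≤ S) :
    Lt / p ^ 3 + (V / p ^ 3) ^ 2 * (n / V) ^ 2 * T / 2 * (J - Kp * p / q - p / q)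
      ≤ (Lt + n ^ 2 / 2 * S) / p ^ 3 := by
  have h1 := mul_le_mul_of_nonneg_right hS (show (0:ℝ) ≤ p ^ 3 by positivity)
  rw [sub_mul, div_mul_cancel₀ _ (by positivity)] at h1
  have h2 : p ^ 3 / q ^ 3 ≤ p / q := by
    rw [← div_pow]
    exact pow_le_of_le_one (by positivity) (by rw [div_le_one hq]; exact hpq) three_ne_zero
  have h3 := mul_le_mul_of_nonneg_left h2 hT
  have h4 : T / q ^ 3 * p ^ 3 = T * (p ^ 3 / q ^ 3) := by ring
  have h5 : T * (J - Kp * p / q - p / q) ≤ S * p ^ 3 := by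
    rw [h4] at h1
    linarith
  have h6 := mul_le_mul_of_nonneg_left h5
    (show 0 ≤ (V / p ^ 3) ^ 2 * (n / V) ^ 2 / 2 by positivity)
  have h7 : (V / p ^ 3) ^ 2 * (n / V) ^ 2 / 2 * (S * p ^ 3) = n ^ 2 / 2 * S / p ^ 3 := by
    field_simp
  rw [add_div]
  refine add_le_add_right ?_ _
  rw [← h7]
  linarith

/-- The error in `compare`. -/
noncomputable def cmpErr (M T : ℝ) (w q : ℝ) (δ : ℝ) : ℝ :=
  (2 * (M + 2) + 12 * M + M ^ 2 * T * (6 * C₁)) / w + M ^ 2 * T * (5 * Kp + 3) * (w / q) + δ * M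

lemma log_count_le {M w : ℝ} (hM : 0 < M) (hw : 1 ≤ w) :
    Real.log (M * w ^ 3 + 2) / w ^ 3 ≤ 2 * (M + 2) / w := by
  have hV1 : 1 ≤ w ^ 3 := one_le_pow₀ hw
  have hx : 0 < M * w ^ 3 + 2 := by positivity
  have hs1 : Real.log (M * w ^ 3 + 2) ≤ 2 * Real.sqrt (M * w ^ 3 + 2) := by
    have h5 := Real.log_le_sub_one_of_pos (Real.sqrt_pos.2 hx)
    rw [Real.log_sqrt hx.le] at h5
    linarith
  have hs2 : Real.sqrt (M * w ^ 3 + 2) ≤ (M + 2) * w ^ 2 := by
    refine (Real.sqrt_le_left (by positivity)).2 ?_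
    calc M * w ^ 3 + 2 ≤ (M + 2) * w ^ 3 := by nlinarith
      _ ≤ (M + 2) * (w ^ 2) ^ 2 := by
          refine mul_le_mul_of_nonneg_left ?_ (by linarith)
          rw [← pow_mul]; exact pow_le_pow_right₀ hw (by norm_num)
      _ ≤ ((M + 2) * w ^ 2) ^ 2 := by
          rw [mul_pow]
          refine mul_le_mul_of_nonneg_right ?_ (by positivity)
          nlinarith
  rw [div_le_div_iff₀ (by positivity) (by linarith)]
  calc Real.log (M * w ^ 3 + 2) * w ≤ (2 * ((M + 2) * w ^ 2)) * w :=
        mul_le_mul_of_nonneg_right (by linarith) (by linarith)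
    _ = _ := by ring

lemma one_sub_ratio_le {w p : ℝ} (hw : 1 ≤ w) (hp : p = w + 4) :
    1 - w ^ 3 / p ^ 3 ≤ 12 / w := by
  have hp0 : 0 < p := by linarith
  have h1 : w / p = 1 + -(4 / p) := by rw [hp]; field_simp; ring
  have h4p : 4 / p ≤ 1 := by rw [div_le_one hp0]; linarith
  have h2 := one_add_mul_le_pow (show (-2 : ℝ) ≤ -(4 / p) by linarith) 3
  rw [← h1, div_pow] at h2
  push_cast at h2
  have h3 : 12 / p ≤ 12 / w := by gcongr; linarith
  have h4 : (3 : ℝ) * -(4 / p) = -(12 / p) := by ring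
  linarith

lemma cmp_arith {w q p M T J J' r u vB L Lt' Pl Pb δ : ℝ} (hw : 1 ≤ w) (hq : 0 < q)
    (hp : p = w + 4) (hM : 0 < M) (hT : 0 ≤ T) (hJ : 0 ≤ J) (hJC : J ≤ C₁)
    (hJ' : J' = J + Kp * w / q) (hr0 : 0 ≤ r) (hr1 : r ≤ 1) (hr12 : 1 - r ≤ 12 / w)
    (hu : u ^ 2 ≤ M ^ 2) (hB : vB ≤ M) (_hB0 : 0 ≤ vB)
    (hL : L ≤ 2 * (M + 2) / w) (hLt : Lt' = r * vB - r * (T * J' * u ^ 2 / 2))
    (hlow : Lt' + r ^ 2 * u ^ 2 * T / 2 * (J - Kp * p / q - p / q) ≤ Pb)
    (hup : Pl ≤ L + vB + δ * M) : Pl ≤ Pb + cmpErr M T w q δ := by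
  have hKp0 : 0 < Kp := by unfold Kp; positivity
  have hwq : 0 ≤ w / q := by positivity
  have hp0 : 0 < p := by linarith
  have hpq : p / q ≤ 5 * (w / q) := by rw [← mul_div_assoc]; gcongr; linarith
  have hJr : J * (1 - r) ≤ C₁ * (12 / w) := mul_le_mul hJC hr12 (by linarith) C₁_pos.le
  have h6 : r * (Kp * p / q + p / q) ≤ 1 * ((Kp + 1) * (5 * (w / q))) := by
    refine mul_le_mul hr1 ?_ (by positivity) zero_le_one
    rw [show Kp * p / q + p / q = (Kp + 1) * (p / q) by ring]
    gcongr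
  have eK : Kp * w / q = Kp * (w / q) := by ring
  have hgap : J' - r * (J - Kp * p / q - p / q)
      ≤ C₁ * (12 / w) + (6 * Kp + 5) * (w / q) := by
    rw [hJ', eK]
    linarith
  have hfac : 0 ≤ J' - r * (J - Kp * p / q - p / q) := by
    have : 0 ≤ r * (Kp * p / q + p / q) := by positivity
    have : 0 ≤ Kp * (w / q) := by positivity
    have : 0 ≤ J * (1 - r) := mul_nonneg hJ (by linarith)
    rw [hJ', eK]
    linarith
  have hG : r * u ^ 2 * T / 2 * (J' - r * (J - Kp * p / q - p / q))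
      ≤ M ^ 2 * T / 2 * (C₁ * (12 / w) + (6 * Kp + 5) * (w / q)) := by
    refine mul_le_mul ?_ hgap hfac (by positivity)
    gcongr
    calc r * u ^ 2 ≤ 1 * M ^ 2 := mul_le_mul hr1 hu (by positivity) zero_le_one
      _ = M ^ 2 := one_mul _
  have hBr : vB * (1 - r) ≤ M * (12 / w) := mul_le_mul hB hr12 (by linarith) hM.le
  have hex : 0 ≤ M ^ 2 * T * (w / q) * (2 * Kp + 1 / 2) := by positivity
  have eerr : cmpErr M T w q δ = 2 * (M + 2) / w + M * (12 / w)
      + M ^ 2 * T / 2 * (C₁ * (12 / w) + (6 * Kp + 5) * (w / q))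
      + M ^ 2 * T * (w / q) * (2 * Kp + 1 / 2) + δ * M := by
    unfold cmpErr; ring
  have emain : vB - (Lt' + r ^ 2 * u ^ 2 * T / 2 * (J - Kp * p / q - p / q))
      = vB * (1 - r) + r * u ^ 2 * T / 2 * (J' - r * (J - Kp * p / q - p / q)) := by
    rw [hLt]; ring
  rw [eerr]
  linarith

/-- A weight at range `q` is no better, up to a small error, than weights at larger ranges. -/
theorem compare (h : Good A a) (l : ℕ) {T : ℝ} (hT : 0 ≤ T) (hbl : Good A (bump a l T))
    (hb : Good A b) (hab : ∀ i, a i ≤ b i) (htot : ∑' i, (b i - a i) = T)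
    (hlo : ∀ i < l, b i = a i) (R : ℕ) (hhi : ∀ i, R ≤ i → b i = a i) (μ : ℝ) (w : ℕ) (hw : 1 ≤ w)
    (hwq : Kp * ((w : ℝ) + 4) ≤ 10000 * ((l : ℝ) + 1)) (hδ : err a w ≤ 1) :
    pres A (bump a l T) μ
      ≤ pres A b μ + cmpErr (Real.exp (μ + 1 + A / 2)) T w ((l : ℝ) + 1) (err a w) := by
  set M := Real.exp (μ + 1 + A / 2) with hM
  set V : ℝ := (w : ℝ) ^ 3 with hV
  set q : ℝ := (l : ℝ) + 1 with hq
  set p : ℝ := (w : ℝ) + 4 with hp
  have hw1 : (1 : ℝ) ≤ w := by exact_mod_cast hw
  have hq0 : 0 < q := by positivity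
  have hV0 : 0 < V := by positivity
  have hM0 : 0 < M := Real.exp_pos _
  have hKp : (10 : ℝ) ^ 5 ≤ Kp := by unfold Kp; norm_num
  have hKp0 : 0 < Kp := by unfold Kp; positivity
  have hwle : p ≤ q / 10 := by nlinarith
  set J' := Jeta + Kp * w / q with hJ'
  have hJ'1 : J' ≤ C₁ := by
    have := Jeta_le
    have : Kp * w / q ≤ 10000 := by rw [div_le_iff₀ hq0]; nlinarith
    simp only [hJ', C₁]
    linarith
  have hJ'0 : 0 ≤ J' := add_nonneg Jeta_nonneg (by positivity)
  obtain ⟨hXt, n, Lt, hn, hLt, hVM, hval0, hX⟩ :=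
    block_max h l hT hbl μ w hw J' hJ'0 hJ'1 (err a w) (err_nonneg h.weights w) hδ
  rw [← hV] at hVM hval0 hX hn
  rw [← hM] at hVM hX hn
  have hup : pres A (bump a l T) μ ≤ elog (gz (volume.restrict (bset w (fun _ => 0) 0))
      (oneBlock A a μ (err a w) (T * J' / (2 * V)))) / V := by
    refine pres_le_block h l hT hbl μ w hw _ (fun σ k x => ?_) hXt
    refine (mul_le_mul_of_nonneg_left (dsum_prof_le_sharp l w hw (by linarith) σ x)
      (show (0 : ℝ) ≤ T / 2 by positivity)).trans_eq ?_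
    simp only [hJ', hq, hV]
    field_simp
  set val := Lt + T * J' / (2 * V) * (n : ℝ) ^ 2 with hval
  have hd := Weights.sub h.weights hb.weights hab
  set D := 48 * (R + 1) with hD
  have hlow := pres_trial hb hab h.weights μ w n Lt hLt p hp D
  set Sκ := ∑ v ∈ (zgrid D).erase 0, lker (fun i => b i - a i) p v with hSκ
  have hp0 : 0 < p := by linarith
  have hSlow : T * (Jeta - Kp * p / q) / p ^ 3 - T / q ^ 3 ≤ Sκ :=
    lker_sum_ge hd htot (fun i hi => by simp [hlo i hi]) (fun i hi => by simp [hhi i hi]) p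
      (by linarith) (by simp only [hq] at hwle; linarith) D hD
  have hXdiv : pres A (bump a l T) μ ≤ Real.log (M * V + 2) / V + val / V + err a w * M := by
    refine hup.trans ?_
    rw [div_le_iff₀ hV0, add_mul, add_mul, div_mul_cancel₀ _ hV0.ne',
      div_mul_cancel₀ _ hV0.ne']
    linarith
  have hlog : Real.log (M * V + 2) / V ≤ 2 * (M + 2) / w := log_count_le hM0 hw1
  set r := V / p ^ 3 with hr
  set u := (n : ℝ) / V with hu
  have hu0 : 0 ≤ u := by positivity
  have hr0 : 0 ≤ r := by positivity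
  have hr1 : r ≤ 1 := by
    rw [hr, div_le_one (by positivity), hV]; gcongr; linarith
  have hr12 : 1 - r ≤ 12 / w := one_sub_ratio_le hw1 hp
  have hu2 : u ^ 2 ≤ M ^ 2 :=
    pow_le_pow_left₀ hu0 (by rw [hu, div_le_iff₀ hV0]; exact hn) 2
  have hB : val / V ≤ M ∧ 0 ≤ val / V :=
    ⟨by rw [div_le_iff₀ hV0]; exact hVM, div_nonneg hval0 hV0.le⟩
  have hLtval : r * (val / V) - r * (T * J' * u ^ 2 / 2) = Lt / p ^ 3 := by
    rw [hval, hr, hu]; field_simp; ring
  have hlow2 : Lt / p ^ 3 + r ^ 2 * u ^ 2 * T / 2 * (Jeta - Kp * p / q - p / q) ≤ pres A b μ :=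
    (low_scale hV0 hp0 hq0 hT (by linarith) hSlow).trans hlow
  exact cmp_arith hw1 hq0 hp hM0 hT Jeta_nonneg (Jeta_le.trans (by unfold C₁; norm_num)) hJ' hr0 hr1
    hr12 hu2 hB.1 hB.2 hlog hLtval.symm hlow2 hXdiv

end Vale.Agent.P171
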