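import Mathlib
import Vale.Agent.P171.Pressure

/-!
Lower bound on the pressure from one particle in each unit box of the grid `8ℕ³`.
-/

open MeasureTheory Filter Topology
open scoped BigOperators ENNReal

namespace Vale.Agent.P171

variable {A : ℝ} {a : ℕ → ℝ}

/-- The sites of the trial configurations. -/
def sites (K : ℕ) : Finset (Fin 3 → ℕ) := Fintype.piFinset fun _ => Finset.range (K + 1)

lemma sites_card (K : ℕ) : (sites K).card = (K + 1) ^ 3 := by
  simp [sites, Fintype.card_piFinset]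

lemma volume_gbox_one (v : Fin 3 → ℕ) : volume (gbox 8 1 v) = 1 := by
  rw [gbox_eq, measure_preimage_add_right, volume_cube zero_le_one]
  simp

lemma disjoint_gbox_one {u v : Fin 3 → ℕ} (h : u ≠ v) :
    Disjoint (gbox 8 1 u) (gbox 8 1 v) := by
  rw [Set.disjoint_left]
  intro x hx hx'
  obtain ⟨k, hk⟩ := Function.ne_iff.1 h
  have a1 := hx k
  have a2 := hx' k
  simp only [Set.mem_Icc] at a1 a2
  rcases Nat.lt_or_gt_of_ne hk with hlt | hlt
  · have : (u k : ℝ) + 1 ≤ v k := by exact_mod_cast hlt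
    linarith [a1.2, a2.1]
  · have : (v k : ℝ) + 1 ≤ u k := by exact_mod_cast hlt
    linarith [a2.2, a1.1]

lemma four_le_dist_gbox_one {u v : Fin 3 → ℕ} (h : u ≠ v) {p q : R3} (hp : p ∈ gbox 8 1 u)
    (hq : q ∈ gbox 8 1 v) : 4 ≤ dist p q := by
  obtain ⟨k, hk⟩ := Function.ne_iff.1 h
  have a1 := hp k
  have a2 := hq k
  simp only [Set.mem_Icc] at a1 a2
  refine le_trans ?_ (abs_coord_le_dist p q k)
  rcases Nat.lt_or_gt_of_ne hk with hlt | hlt
  · have : (u k : ℝ) + 1 ≤ v k := by exact_mod_cast hlt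
    exact le_trans (by linarith [a1.2, a2.1]) (neg_le_abs _)
  · have : (v k : ℝ) + 1 ≤ u k := by exact_mod_cast hlt
    exact le_trans (by linarith [a2.2, a1.1]) (le_abs_self _)

lemma prof_eq_of_near {u v : Fin 3 → ℕ} {p q : R3} (hp : p ∈ gbox 8 1 u) (hq : q ∈ gbox 8 1 v)
    (l : ℕ) (h : ∀ k, u k ≤ v k + (l + 1) ∧ v k ≤ u k + (l + 1)) :
    prof l (dist p q) = 1 / ((l : ℝ) + 1) ^ 3 := by
  unfold prof
  have hl : (0 : ℝ) ≤ l := Nat.cast_nonneg l
  have hd : dist p q ≤ 2 * (9 * ((l : ℝ) + 1)) := by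
    rw [EuclideanSpace.dist_eq]
    refine (Real.sqrt_le_left (by positivity)).2 ?_
    have hk : ∀ k, (dist (p k) (q k)) ^ 2 ≤ (9 * ((l : ℝ) + 1)) ^ 2 := by
      intro k
      refine pow_le_pow_left₀ dist_nonneg ?_ 2
      have a1 := hp k
      have a2 := hq k
      simp only [Set.mem_Icc] at a1 a2
      have b1 : (u k : ℝ) ≤ v k + ((l : ℝ) + 1) := by exact_mod_cast (h k).1
      have b2 : (v k : ℝ) ≤ u k + ((l : ℝ) + 1) := by exact_mod_cast (h k).2
      rw [Real.dist_eq, abs_le]
      constructor <;> linarith [a1.1, a1.2, a2.1, a2.2]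
    calc ∑ k, (dist (p k) (q k)) ^ 2 ≤ ∑ _k : Fin 3, (9 * ((l : ℝ) + 1)) ^ 2 :=
          Finset.sum_le_sum fun k _ => hk k
      _ ≤ _ := by simp; nlinarith
  rw [eta_eq_one]
  rw [div_le_iff₀ (by positivity)]
  linarith

/-- Energy of a trial configuration. -/
lemma energy_trial (ha : Weights a) (A : ℝ) {K n : ℕ} (σ : Fin n ≃ sites K) {x : Fin n → R3}
    (hx : ∀ i, x i ∈ gbox 8 1 (σ i : Fin 3 → ℕ)) :
    energy A a x ≤ -((n : ℝ) * (∑ l ∈ Finset.range K, a l) / 2) := by
  classical
  have hne : ∀ {i j}, j ≠ i → (σ i : Fin 3 → ℕ) ≠ σ j := fun {i j} h e =>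
    h (σ.injective (Subtype.ext e)).symm
  have key : ∀ i, ∑ j ∈ Finset.univ.erase i, pot A a (dist (x i) (x j))
      ≤ -∑ l ∈ Finset.range K, a l := by
    intro i
    have hpot : ∀ j ∈ Finset.univ.erase i,
        pot A a (dist (x i) (x j)) ≤ -∑ l ∈ Finset.range K, a l * prof l (dist (x i) (x j)) := by
      intro j hj
      have hd := four_le_dist_gbox_one (hne (Finset.ne_of_mem_erase hj)) (hx i) (hx j)
      unfold pot core
      rw [eta_eq_zero (by linarith), mul_zero, zero_sub, neg_le_neg_iff]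
      exact (ha.summable_prof _).sum_le_tsum _ fun l _ => mul_nonneg (ha.nonneg l) (prof_nonneg _ _)
    refine (Finset.sum_le_sum hpot).trans ?_
    rw [Finset.sum_neg_distrib, neg_le_neg_iff, Finset.sum_comm]
    refine Finset.sum_le_sum fun l hl => ?_
    rw [← Finset.mul_sum]
    refine le_mul_of_one_le_right (ha.nonneg l) ?_
    have hlK : l + 1 ≤ K := Finset.mem_range.1 hl
    set v : Fin 3 → ℕ := (σ i : Fin 3 → ℕ) with hv
    have hvK : ∀ k, v k ≤ K := fun k =>
      Nat.lt_succ_iff.1 (Finset.mem_range.1 (Fintype.mem_piFinset.1 (σ i).2 k))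
    set I : Fin 3 → Finset ℕ := fun k =>
      Finset.Icc (min (v k) (K - (l + 1))) (min (v k) (K - (l + 1)) + (l + 1)) with hI
    have hIc : ∀ k, (I k).card = l + 2 := by
      intro k
      have := hvK k
      simp only [hI]
      rw [Nat.card_Icc]
      omega
    have hIm : ∀ k, ∀ w ∈ I k, w ≤ K ∧ v k ≤ w + (l + 1) ∧ w ≤ v k + (l + 1) := by
      intro k w hw
      have := hvK k
      simp only [hI] at hw
      rw [Finset.mem_Icc] at hw
      omega
    have hvI : ∀ k, v k ∈ I k := by
      intro k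
      have := hvK k
      simp only [hI, Finset.mem_Icc]
      omega
    set J : Finset (Fin n) := (Finset.univ.erase i).filter
      fun j => (σ j : Fin 3 → ℕ) ∈ Fintype.piFinset I with hJ
    have hJc : (l + 1) ^ 3 ≤ J.card := by
      have himg : (Fintype.piFinset I).erase v ⊆ J.image fun j => (σ j : Fin 3 → ℕ) := by
        intro w hw
        obtain ⟨hwv, hwI⟩ := Finset.mem_erase.1 hw
        have hws : w ∈ sites K := Fintype.mem_piFinset.2 fun k =>
          Finset.mem_range.2 (Nat.lt_succ_iff.2 (hIm k _ (Fintype.mem_piFinset.1 hwI k)).1)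
        refine Finset.mem_image.2 ⟨σ.symm ⟨w, hws⟩, ?_, by simp⟩
        simp only [hJ, Finset.mem_filter, Finset.mem_erase, Finset.mem_univ, and_true,
          Equiv.apply_symm_apply]
        exact ⟨fun e => hwv (by rw [hv, ← e, Equiv.apply_symm_apply]), hwI⟩
      have h1 := (Finset.card_le_card himg).trans Finset.card_image_le
      rw [Finset.card_erase_of_mem (Fintype.mem_piFinset.2 hvI), Fintype.card_piFinset] at h1
      simp only [hIc, Finset.prod_const, Finset.card_fin] at h1
      have h2 : (l + 1) ^ 3 + 1 ≤ (l + 2) ^ 3 :=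
        Nat.pow_lt_pow_left (by omega) (by norm_num)
      omega
    calc (1 : ℝ) ≤ (J.card : ℝ) * (1 / ((l : ℝ) + 1) ^ 3) := by
          rw [mul_one_div, le_div_iff₀ (by positivity), one_mul]
          exact_mod_cast hJc
      _ = ∑ j ∈ J, prof l (dist (x i) (x j)) := by
          rw [← nsmul_eq_mul, ← Finset.sum_const]
          refine Finset.sum_congr rfl fun j hj => (prof_eq_of_near (hx i) (hx j) l fun k => ?_).symm
          have := hIm k _ (Fintype.mem_piFinset.1 (Finset.mem_filter.1 hj).2 k)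
          exact ⟨this.2.1, this.2.2⟩
      _ ≤ _ := Finset.sum_le_sum_of_subset_of_nonneg (Finset.filter_subset _ _)
          fun j _ _ => prof_nonneg _ _
  have hs : dsum x (fun p q => pot A a (dist p q))
      ≤ ∑ _i : Fin n, (pot A a 0 - ∑ l ∈ Finset.range K, a l) := by
    refine Finset.sum_le_sum fun i _ => ?_
    rw [← Finset.add_sum_erase _ _ (Finset.mem_univ i)]
    simp only [dist_self]
    linarith [key i]
  simp only [Finset.sum_const, Finset.card_fin, nsmul_eq_mul] at hs
  unfold energy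
  linarith

lemma restrict_biUnion_gbox_one (T : Finset (Fin 3 → ℕ)) :
    volume.restrict (⋃ v ∈ T, gbox 8 1 v)
      = ∑ v : T, volume.restrict (gbox 8 1 (v : Fin 3 → ℕ)) := by
  rw [Measure.restrict_biUnion_finset (fun u _ v _ h => disjoint_gbox_one h)
    (fun v => measurableSet_gbox 8 1 v), Measure.sum_fintype]

/-- Finite-volume form of the trial bound. -/
lemma Good.lz_trial (h : Good A a) (μ : ℝ) (K : ℕ) :
    (((K + 1) ^ 3 : ℕ) : ℝ) * (μ + (∑ l ∈ Finset.range K, a l) / 2)
      ≤ lz A a μ (8 * K + 4) := by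
  classical
  set T := sites K with hT
  set n := T.card with hn
  set c : ℝ := (n : ℝ) * (μ + (∑ l ∈ Finset.range K, a l) / 2) with hc
  have hsub : (⋃ v ∈ T, gbox 8 1 v) ⊆ cube (8 * (K : ℝ) + 4) := by
    intro x hx k
    simp only [Set.mem_iUnion] at hx
    obtain ⟨v, hv, hxv⟩ := hx
    have h1 := hxv k
    have hvk : (v k : ℝ) ≤ K := by
      exact_mod_cast Nat.lt_succ_iff.1 (Finset.mem_range.1 (Fintype.mem_piFinset.1 hv k))
    simp only [Set.mem_Icc] at h1 ⊢
    constructor <;> linarith [(Nat.cast_nonneg (v k) : (0:ℝ) ≤ v k), h1.1, h1.2]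
  have hbound : ENNReal.ofReal (Real.exp c)
      ≤ gz (volume.restrict (⋃ v ∈ T, gbox 8 1 v)) (ex A a μ) := by
    rw [restrict_biUnion_gbox_one]
    haveI hf : ∀ v : T, IsFiniteMeasure (volume.restrict (gbox 8 1 (v : Fin 3 → ℕ))) :=
      fun v => isFiniteMeasure_restrict.2 (by rw [volume_gbox_one]; exact ENNReal.one_ne_top)
    unfold gz
    refine le_trans ?_ (ENNReal.le_tsum n)
    rw [pi_sum_measure, lintegral_finsetSum_measure]
    set Sb : Finset (Fin n → T) :=
      (Finset.univ : Finset (Fin n ≃ T)).map ⟨_, Equiv.coe_fn_injective⟩ with hSb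
    refine le_trans ?_ (mul_le_mul' le_rfl
      (Finset.sum_le_sum_of_subset (Finset.subset_univ Sb)))
    have hone : ∀ σ : Fin n ≃ T, ENNReal.ofReal (Real.exp c) ≤
        ∫⁻ x, ENNReal.ofReal (Real.exp (ex A a μ n x))
          ∂(Measure.pi fun k => volume.restrict (gbox 8 1 (σ k : Fin 3 → ℕ))) := by
      intro σ
      haveI : ∀ k, IsFiniteMeasure (volume.restrict (gbox 8 1 (σ k : Fin 3 → ℕ))) :=
        fun k => hf (σ k)
      refine le_trans (le_of_eq ?_) (lintegral_mono_ae
        (f := fun _ => ENNReal.ofReal (Real.exp c))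
        ((ae_pi_mem (fun k => gbox 8 1 (σ k : Fin 3 → ℕ))
          (fun k => measurableSet_gbox 8 1 _)).mono fun x hx => ?_))
      · rw [lintegral_const, Measure.pi_univ]
        simp [volume_gbox_one]
      · refine ENNReal.ofReal_le_ofReal (Real.exp_le_exp.2 ?_)
        have := energy_trial h.weights A σ hx
        simp only [ex, hc]
        linarith
    rw [hSb, Finset.sum_map]
    refine le_trans ?_ (mul_le_mul' le_rfl (Finset.sum_le_sum fun σ _ => hone σ))
    rw [Finset.sum_const, nsmul_eq_mul, Finset.card_univ,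
      Fintype.card_equiv (Fintype.equivFinOfCardEq (Fintype.card_coe T)).symm, Fintype.card_fin,
      ← mul_assoc, ENNReal.inv_mul_cancel (by exact_mod_cast n.factorial_ne_zero)
        (ENNReal.natCast_ne_top _), one_mul]
  have hm : MeasurableSet (⋃ v ∈ T, gbox 8 1 v) :=
    T.measurableSet_biUnion fun v _ => measurableSet_gbox 8 1 v
  have key := hbound.trans (gz_mono_set hm hsub (ex A a μ))
  have hfin := h.gz_ex_ne_top (volume.restrict (cube (8 * (K : ℝ) + 4))) μ
  have := ENNReal.toReal_mono hfin key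
  rw [ENNReal.toReal_ofReal (Real.exp_pos _).le] at this
  have h2 := Real.log_le_log (Real.exp_pos _) this
  rw [Real.log_exp, hc, hn, hT, sites_card] at h2
  exact h2

/-- Lower bound on the pressure from the trial configurations. -/
theorem Good.pres_lower {A : ℝ} {a : ℕ → ℝ} (h : Good A a) (μ : ℝ) :
    (μ + (∑' l, a l) / 2) / 512 ≤ pres A a μ := by
  have hL : Tendsto (fun K : ℕ => 8 * (K : ℝ) + 4) atTop atTop :=
    tendsto_atTop_add_const_right _ _ (tendsto_natCast_atTop_atTop.const_mul_atTop (by norm_num))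
  have hr : Tendsto (fun K : ℕ => ((K : ℝ) + 1) / (8 * K + 4)) atTop (𝓝 (1 / 8)) := by
    have h1 : Tendsto (fun K : ℕ => 1 / (2 * (8 * (K : ℝ) + 4))) atTop (𝓝 0) :=
      tendsto_const_nhds.div_atTop (hL.const_mul_atTop two_pos)
    have h2 := h1.const_add (1 / 8)
    rw [add_zero] at h2
    refine h2.congr fun K => ?_
    have : (8 * (K : ℝ) + 4) ≠ 0 := by positivity
    field_simp
    ring
  have hs := h.weights.summable.hasSum.tendsto_sum_nat
  have hlhs := (hr.pow 3).mul ((hs.div_const 2).const_add μ)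
  rw [show (μ + (∑' l, a l) / 2) / 512 = (1 / 8 : ℝ) ^ 3 * (μ + (∑' l, a l) / 2) by ring]
  refine le_of_tendsto_of_tendsto hlhs ((h.tendsto_lz μ).comp hL)
    (Filter.Eventually.of_forall fun K => ?_)
  have hb := h.lz_trial μ K
  push_cast at hb
  simp only [Function.comp_apply]
  rw [div_pow, div_mul_eq_mul_div]
  exact div_le_div_of_nonneg_right hb (by positivity)

end Vale.Agent.P171
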