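import Mathlib
import Vale.Agent.P171.Block
import Vale.Agent.P171.Test
import Vale.Agent.P171.Compare

/-!
A hierarchical greedy minimisation over weights produces a potential with a fast decaying tail
whose pressure has a kink.
-/

open MeasureTheory Filter Topology
open scoped BigOperators

namespace Vale.Agent.P171

/-- The density used as slope. -/
noncomputable def rho0 : ℝ := 1 / 10 ^ 8

/-- The reward per unit of weight. -/
noncomputable def cc : ℝ := rho0 / 4

/-- A priori bound on the total weight. -/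
noncomputable def Mbd : ℝ := 4 * 10 ^ 8

/-- Strength of the repulsive bump. -/
noncomputable def Abig : ℝ := C₁ * (Mbd + 1) + 2

/-- Weights allowed in the minimisation. -/
structure Feas (a : ℕ → ℝ) : Prop where
  weights : Weights a
  bound : ∑' l, a l ≤ Mbd + 1

variable {a b : ℕ → ℝ}

lemma Feas.good (h : Feas a) : Good Abig a :=
  ⟨h.weights, by
    unfold Abig
    have := mul_le_mul_of_nonneg_left h.bound C₁_pos.le
    linarith⟩

lemma two_le_Abig : 2 ≤ Abig := by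
  have := C₁_pos
  unfold Abig Mbd
  nlinarith

lemma Feas.pres_ge (h : Feas a) (μ : ℝ) :
    rho0 * (μ + (∑' l, a l) / 2) ≤ pres Abig a μ := by
  rcases le_or_gt (μ + (∑' l, a l) / 2) 0 with h0 | h0
  · exact (mul_nonpos_of_nonneg_of_nonpos (by unfold rho0; norm_num) h0).trans
      (h.good.pres_nonneg μ)
  · refine le_trans ?_ (h.good.pres_lower μ)
    rw [div_eq_inv_mul]
    unfold rho0
    nlinarith

/-- `inf_μ (P(μ) - ρ₀ μ)`. -/
noncomputable def Hfun (a : ℕ → ℝ) : ℝ := ⨅ μ : ℝ, pres Abig a μ - rho0 * μ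

/-- The functional that is minimised. -/
noncomputable def Gfun (a : ℕ → ℝ) : ℝ := Hfun a - cc * ∑' l, a l

lemma Feas.bddBelow (h : Feas a) :
    BddBelow (Set.range fun μ : ℝ => pres Abig a μ - rho0 * μ) :=
  ⟨rho0 * ((∑' l, a l) / 2), by rintro y ⟨μ, rfl⟩; nlinarith [h.pres_ge μ]⟩

lemma Feas.Hfun_le (h : Feas a) (μ : ℝ) : Hfun a ≤ pres Abig a μ - rho0 * μ :=
  ciInf_le h.bddBelow μ

lemma Feas.Gfun_ge (h : Feas a) : cc * ∑' l, a l ≤ Gfun a := by
  have h2 : rho0 * ((∑' l, a l) / 2) ≤ Hfun a :=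
    le_ciInf fun μ => by nlinarith [h.pres_ge μ]
  unfold Gfun cc
  linarith

lemma Feas.Gfun_nonneg (h : Feas a) : 0 ≤ Gfun a :=
  le_trans (mul_nonneg (by unfold cc rho0; norm_num) (tsum_nonneg h.weights.nonneg)) h.Gfun_ge

lemma feas_zero : Feas fun _ => 0 :=
  ⟨⟨fun _ => le_rfl, summable_zero⟩, by simp [Mbd]; norm_num⟩

lemma Gfun_zero_le : Gfun (fun _ => 0) ≤ 1 := by
  unfold Gfun
  simp only [tsum_zero, mul_zero, sub_zero]
  refine (feas_zero.Hfun_le 0).trans ?_
  rw [mul_zero, sub_zero]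
  exact pres_zero_le two_le_Abig

lemma Feas.total_le (h : Feas a) (hG : Gfun a ≤ 1) : ∑' l, a l ≤ Mbd := by
  have h1 := h.Gfun_ge.trans hG
  unfold cc rho0 at h1
  unfold Mbd
  linarith

lemma Hfun_change (hb : Feas b) (ha : Feas a) (hab : ∀ l, a l ≤ b l) (hG : Gfun a ≤ 1)
    (hd : C₁ * (∑' l, (b l - a l)) / 2 ≤ 1) :
    Hfun b ≤ Hfun a + C₁ * (∑' l, (b l - a l)) / 2 * Real.exp (4096 + Abig / 2) := by
  have hH : Hfun a ≤ 2 := by
    have := ha.total_le hG
    unfold Gfun cc rho0 at hG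
    unfold Mbd at this
    linarith
  refine le_of_forall_pos_le_add fun ε hε => ?_
  obtain ⟨μ, hμ⟩ := exists_lt_of_ciInf_lt
    (show Hfun a < Hfun a + min ε 1 by have := lt_min hε one_pos; linarith)
  have hμle : μ ≤ 4096 := by
    have h1 : pres Abig a μ - rho0 * μ < 3 := by linarith [min_le_right ε 1]
    have h2 := ha.good.pres_lower μ
    have h3 : 0 ≤ ∑' l, a l := tsum_nonneg ha.weights.nonneg
    unfold rho0 at h1
    linarith
  have h4 := hb.good.pres_change ha.weights hab μ hd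
  have h5 : C₁ * (∑' l, (b l - a l)) / 2 * Real.exp (μ + Abig / 2)
      ≤ C₁ * (∑' l, (b l - a l)) / 2 * Real.exp (4096 + Abig / 2) := by
    refine mul_le_mul_of_nonneg_left (Real.exp_le_exp.2 (by linarith)) ?_
    have : 0 ≤ ∑' l, (b l - a l) := tsum_nonneg fun l => sub_nonneg.2 (hab l)
    have := C₁_pos
    positivity
  linarith [hb.Hfun_le μ, min_le_left ε 1]

lemma Hfun_le_two (ha : Feas a) (hG : Gfun a ≤ 1) : Hfun a ≤ 2 := by
  have := ha.total_le hG
  unfold Gfun cc rho0 at hG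
  unfold Mbd at this
  linarith

lemma Feas.Hfun_mono (hb : Feas b) (ha : Feas a) (hab : ∀ l, a l ≤ b l) : Hfun a ≤ Hfun b :=
  le_ciInf fun μ => (ha.Hfun_le μ).trans (by linarith [hb.good.pres_mono ha.weights hab μ])

/-- Base of the scale hierarchy. -/
def sbase (k : ℕ) : ℕ := 2 ^ 2 ^ (k + 6)

/-- Index of the scale `sbase k ^ 4`. -/
def sidx (k : ℕ) : ℕ := sbase k ^ 4 - 1

lemma sbase_succ (k : ℕ) : sbase (k + 1) = sbase k ^ 2 := by
  unfold sbase
  rw [← pow_mul]
  congr 1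

lemma one_le_sbase (k : ℕ) : 1 ≤ sbase k := Nat.one_le_pow _ _ two_pos

lemma sbase_mono {i j : ℕ} (h : i ≤ j) : sbase i ≤ sbase j :=
  Nat.pow_le_pow_right two_pos (Nat.pow_le_pow_right two_pos (by omega))

lemma sbase_big (k : ℕ) : 2 ^ 64 ≤ sbase k := by
  have h1 : 64 ≤ 2 ^ (k + 6) := by
    calc 64 = 2 ^ 6 := by norm_num
      _ ≤ _ := Nat.pow_le_pow_right two_pos (by omega)
  exact Nat.pow_le_pow_right two_pos h1

lemma sidx_succ (k : ℕ) : sidx k + 1 = sbase k ^ 4 := by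
  have : 1 ≤ sbase k ^ 4 := Nat.one_le_pow _ _ (one_le_sbase k)
  unfold sidx
  omega

lemma sidx_mono {i j : ℕ} (h : i ≤ j) : sidx i ≤ sidx j := by
  have h4 : sbase i ^ 4 ≤ sbase j ^ 4 := Nat.pow_le_pow_left (sbase_mono h) 4
  unfold sidx
  omega

lemma tendsto_sbase : Tendsto sbase atTop atTop :=
  tendsto_atTop_mono (fun k => show k ≤ sbase k from
    ((Nat.lt_two_pow_self).le.trans (Nat.pow_le_pow_right two_pos (Nat.le_add_right k 6))).trans
      (Nat.lt_two_pow_self).le) tendsto_id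

lemma tendsto_sidx : Tendsto sidx atTop atTop := by
  refine tendsto_atTop_mono (fun k => ?_) (tendsto_sub_atTop_nat 1 |>.comp tendsto_sbase)
  have h4 : sbase k ≤ sbase k ^ 4 := Nat.le_self_pow (by norm_num) _
  show sbase k - 1 ≤ sidx k
  unfold sidx
  omega

/-- Slope of the reward at stage `k`, decreasing from `cc` to `cc / 2`. -/
noncomputable def cs (k : ℕ) : ℝ := cc / 2 * (1 + (1 / 2 : ℝ) ^ k)

lemma cc_pos : 0 < cc := by unfold cc rho0; norm_num

lemma cs_anti {i j : ℕ} (h : i ≤ j) : cs j ≤ cs i := by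
  have := cc_pos
  unfold cs
  exact mul_le_mul_of_nonneg_left (add_le_add le_rfl
    (pow_le_pow_of_le_one (by norm_num) (by norm_num) h)) (by linarith)

lemma cs_le (k : ℕ) : cs k ≤ cc := (cs_anti k.zero_le).trans_eq (by unfold cs; ring)

lemma half_cc_le_cs (k : ℕ) : cc / 2 ≤ cs k := by
  have := cc_pos
  unfold cs
  nlinarith [pow_pos (show (0 : ℝ) < 1 / 2 by norm_num) k]

/-- The functional minimised at stage `k`. -/
noncomputable def Gs (k : ℕ) (a : ℕ → ℝ) : ℝ := Hfun a - cs k * ∑' l, a l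

lemma Feas.Gs_nonneg (h : Feas a) (k : ℕ) : 0 ≤ Gs k a := by
  have h1 := h.Gfun_nonneg
  have h2 := mul_le_mul_of_nonneg_right (cs_le k) (show 0 ≤ ∑' l, a l from tsum_nonneg h.weights.nonneg)
  unfold Gfun at h1
  unfold Gs
  linarith

/-- The choice made at stage `k`. -/
def StepOK (k : ℕ) (a : ℕ → ℝ) (T : ℝ) : Prop :=
  0 ≤ T ∧ (∑' l, a l) + T ≤ Mbd + 1 ∧ Gs k (bump a (sidx k) T) ≤ Gs k a ∧
    ∀ t, 0 ≤ t → (∑' l, a l) + t ≤ Mbd + 1 →
      Gs k (bump a (sidx k) T) ≤ Gs k (bump a (sidx k) t) + 1 / (sbase k : ℝ)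

lemma Feas.bump (h : Feas a) (l : ℕ) {t : ℝ} (ht : 0 ≤ t) (hb : (∑' i, a i) + t ≤ Mbd + 1) :
    Feas (bump a l t) :=
  ⟨h.weights.bump l ht, by rw [tsum_bump h.weights]; exact hb⟩

lemma bump_zero (a : ℕ → ℝ) (l : ℕ) : bump a l 0 = a := by
  funext i; simp [P171.bump]

lemma exists_step (k : ℕ) (h : Feas a) : ∃ T, StepOK k a T := by
  set S : Set ℝ := {g | ∃ t, 0 ≤ t ∧ (∑' l, a l) + t ≤ Mbd + 1 ∧
    Gs k (P171.bump a (sidx k) t) = g} with hS
  have h0 : Gs k a ∈ S := ⟨0, le_rfl, by linarith [h.bound], by rw [bump_zero]⟩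
  have hbdd : BddBelow S := ⟨0, by
    rintro g ⟨t, ht, hb, rfl⟩; exact (h.bump _ ht hb).Gs_nonneg k⟩
  have hpos : (0 : ℝ) < 1 / (sbase k : ℝ) := by
    have : (1 : ℝ) ≤ sbase k := by exact_mod_cast one_le_sbase k
    positivity
  obtain ⟨g, ⟨T, hT, hTb, rfl⟩, hg⟩ := exists_lt_of_csInf_lt ⟨_, h0⟩
    (show sInf S < sInf S + 1 / (sbase k : ℝ) by linarith)
  by_cases hle : Gs k (P171.bump a (sidx k) T) ≤ Gs k a
  · exact ⟨T, hT, hTb, hle, fun t ht htb => by linarith [csInf_le hbdd ⟨t, ht, htb, rfl⟩]⟩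
  · refine ⟨0, le_rfl, by linarith [h.bound], le_of_eq (by rw [bump_zero]), fun t ht htb => ?_⟩
    rw [bump_zero]
    linarith [csInf_le hbdd ⟨t, ht, htb, rfl⟩, not_le.1 hle]

/-- The chosen increments. -/
noncomputable def stepT (k : ℕ) (a : ℕ → ℝ) : ℝ := Classical.epsilon (StepOK k a)

/-- The hierarchical sequence of weights. -/
noncomputable def seqw : ℕ → ℕ → ℝ
  | 0 => fun _ => 0
  | k + 1 => bump (seqw k) (sidx k) (stepT k (seqw k))

lemma seqw_succ (k : ℕ) : seqw (k + 1) = bump (seqw k) (sidx k) (stepT k (seqw k)) := rfl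

lemma feas_seqw : ∀ k, Feas (seqw k)
  | 0 => feas_zero
  | k + 1 => by
    have h := feas_seqw k
    have hs := Classical.epsilon_spec (exists_step k h)
    rw [seqw_succ]
    exact h.bump _ hs.1 hs.2.1

/-- Increment at stage `k`. -/
noncomputable def Tk (k : ℕ) : ℝ := stepT k (seqw k)

lemma Tk_ok (k : ℕ) : StepOK k (seqw k) (Tk k) :=
  Classical.epsilon_spec (exists_step k (feas_seqw k))

lemma tsum_seqw_succ (k : ℕ) : ∑' l, seqw (k + 1) l = (∑' l, seqw k l) + Tk k := by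
  rw [seqw_succ, tsum_bump (feas_seqw k).weights]; rfl

lemma seqw_mono : ∀ l, Monotone fun k => seqw k l := fun l => monotone_nat_of_le_succ fun k => by
  rw [seqw_succ]
  unfold P171.bump
  have := (Tk_ok k).1
  unfold Tk at this
  split_ifs <;> linarith

lemma seqw_agree {k j : ℕ} (h : k ≤ j) {i : ℕ} (hi : i < sidx k) : seqw j i = seqw k i := by
  induction j, h using Nat.le_induction with
  | base => rfl
  | succ n hn ih =>
    rw [seqw_succ, P171.bump, if_neg (by have := sidx_mono hn; omega), add_zero, ih]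

lemma seqw_supp : ∀ k i, sbase k ^ 2 ≤ i → seqw k i = 0
  | 0, _, _ => rfl
  | k + 1, i, hi => by
    rw [sbase_succ, ← pow_mul] at hi
    norm_num at hi
    have h4 : sbase k ^ 2 ≤ sbase k ^ 4 := Nat.pow_le_pow_right (one_le_sbase k) (by norm_num)
    have h5 := sidx_succ k
    rw [seqw_succ, P171.bump, if_neg (by omega), add_zero, seqw_supp k i (by omega)]

lemma Gs_step_le {k i : ℕ} (h : i = 0 ∨ i ≤ k) : Gs i (seqw (k + 1)) ≤ Gs i (seqw k) := by
  have hik : i ≤ k := by omega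
  have h1 := (Tk_ok k).2.2.1
  unfold Gs at h1 ⊢
  rw [seqw_succ]
  unfold Tk at h1
  rw [tsum_bump (feas_seqw k).weights] at h1 ⊢
  nlinarith [cs_anti hik, (Tk_ok k).1, show Tk k = stepT k (seqw k) from rfl]

lemma Gs_seqw_anti (i : ℕ) {j : ℕ} (h : i ≤ j) : Gs i (seqw j) ≤ Gs i (seqw i) := by
  induction j, h using Nat.le_induction with
  | base => exact le_rfl
  | succ n hn ih => exact (Gs_step_le (Or.inr hn)).trans ih

lemma Gfun_seqw (j : ℕ) : Gfun (seqw j) ≤ 1 := by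
  have h : ∀ a, Gs 0 a = Gfun a := fun a => by
    unfold Gs Gfun cs; ring
  rw [← h]
  exact (Gs_seqw_anti 0 j.zero_le).trans ((h _).trans_le Gfun_zero_le)

lemma total_seqw (j : ℕ) : ∑' l, seqw j l ≤ Mbd := (feas_seqw j).total_le (Gfun_seqw j)

/-- Upper bound for `exp (μ + 1 + A/2)` at relevant `μ`. -/
noncomputable def Mtop : ℝ := Real.exp (4096 + 1 + Abig / 2)

/-- Constant in the decoupling error. -/
noncomputable def Ke : ℝ := C₁ / 2 * 144 * (Mbd + 1)

/-- Constant in the comparison error. -/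
noncomputable def KE : ℝ :=
  2 * (Mtop + 2) + 12 * Mtop + Mtop ^ 2 * (Mbd + 1) * (6 * C₁)
    + Mtop ^ 2 * (Mbd + 1) * (5 * Kp + 3) + Ke * Mtop

lemma KE_nonneg : 0 ≤ KE := by
  have := C₁_pos
  have : 0 < Mtop := Real.exp_pos _
  have : 0 ≤ Kp := by unfold Kp; norm_num
  have : 0 ≤ Mbd + 1 := by unfold Mbd; norm_num
  unfold KE Ke
  positivity

lemma err_seqw (k : ℕ) : err (seqw k) (sbase k ^ 3) ≤ Ke / (sbase k : ℝ) := by
  have hb : (1 : ℝ) ≤ sbase k := by exact_mod_cast one_le_sbase k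
  have hF := feas_seqw k
  unfold err Ke
  rw [mul_assoc (C₁ / 2), mul_div_assoc]
  refine mul_le_mul_of_nonneg_left ?_ (by linarith [C₁_pos])
  refine le_trans (Summable.tsum_le_tsum (fun l => ?_) (hF.weights.summable_err _)
    (hF.weights.summable.mul_right (144 / (sbase k : ℝ)))) ?_
  · rcases lt_or_ge l (sbase k ^ 2) with hl | hl
    · refine mul_le_mul_of_nonneg_left ((min_le_right _ _).trans ?_) (hF.weights.nonneg l)
      have h2 : ((l : ℝ) + 1) ≤ (sbase k : ℝ) ^ 2 := by exact_mod_cast hl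
      push_cast
      rw [div_le_div_iff₀ (by positivity) (by linarith)]
      calc 144 * ((l : ℝ) + 1) * (sbase k : ℝ) ≤ 144 * (sbase k : ℝ) ^ 2 * (sbase k : ℝ) := by gcongr
        _ = _ := by ring
    · simp [seqw_supp k l hl]
  · rw [tsum_mul_right, show 144 * (Mbd + 1) / (sbase k : ℝ) = (Mbd + 1) * (144 / (sbase k : ℝ)) by ring]
    exact mul_le_mul_of_nonneg_right hF.bound (by positivity)

lemma cmpErr_le {M T b w δ : ℝ} (hM0 : 0 ≤ M) (hM : M ≤ Mtop) (hT0 : 0 ≤ T) (hT : T ≤ Mbd + 1)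
    (hb : 1 ≤ b) (hw : w = b ^ 3) (hδ : δ ≤ Ke / b) : cmpErr M T w (b ^ 4) δ ≤ KE / b := by
  have hKp : 0 ≤ Kp := by unfold Kp; norm_num
  have hb0 : 0 < b := by linarith
  have hwb : b ≤ w := hw ▸ le_self_pow₀ hb three_ne_zero
  have e1 : w / b ^ 4 = 1 / b := by rw [hw]; field_simp
  have hMb : 0 ≤ Mbd + 1 := by unfold Mbd; norm_num
  have hMt : 0 ≤ Mtop := (Real.exp_pos _).le
  have hC := C₁_pos
  have hKe : 0 ≤ Ke := by unfold Ke; positivity
  unfold cmpErr KE
  rw [e1]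
  have t1 : (2 * (M + 2) + 12 * M + M ^ 2 * T * (6 * C₁)) / w
      ≤ (2 * (Mtop + 2) + 12 * Mtop + Mtop ^ 2 * (Mbd + 1) * (6 * C₁)) / b := by
    gcongr
  have t2 : M ^ 2 * T * (5 * Kp + 3) * (1 / b) ≤ Mtop ^ 2 * (Mbd + 1) * (5 * Kp + 3) * (1 / b) := by
    gcongr
  have t3 : δ * M ≤ Ke / b * Mtop := mul_le_mul hδ hM hM0 (by positivity)
  have e2 : (2 * (Mtop + 2) + 12 * Mtop + Mtop ^ 2 * (Mbd + 1) * (6 * C₁)
        + Mtop ^ 2 * (Mbd + 1) * (5 * Kp + 3) + Ke * Mtop) / b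
      = (2 * (Mtop + 2) + 12 * Mtop + Mtop ^ 2 * (Mbd + 1) * (6 * C₁)) / b
        + Mtop ^ 2 * (Mbd + 1) * (5 * Kp + 3) * (1 / b) + Ke / b * Mtop := by ring
  rw [e2]
  linarith

lemma stage_key {k j : ℕ} (h : k + 1 ≤ j) :
    Gs k (seqw (k + 1)) ≤ Gs k (seqw j) + (KE + 1) / (sbase k : ℝ) := by
  have hFk := feas_seqw k
  have hFj := feas_seqw j
  have hab : ∀ i, seqw k i ≤ seqw j i := fun i => seqw_mono i (show k ≤ j by omega)
  set T := ∑' i, (seqw j i - seqw k i) with hT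
  have hT0 : 0 ≤ T := tsum_nonneg fun i => sub_nonneg.2 (hab i)
  have hTeq : (∑' i, seqw k i) + T = ∑' i, seqw j i := by
    rw [hT, hFj.weights.summable.tsum_sub hFk.weights.summable]; ring
  have hTb : (∑' i, seqw k i) + T ≤ Mbd + 1 := hTeq ▸ hFj.bound
  have hTM : T ≤ Mbd + 1 := by
    have : 0 ≤ ∑' i, seqw k i := tsum_nonneg hFk.weights.nonneg
    linarith
  have hFb := hFk.bump (sidx k) hT0 hTb
  have hb1 : (1 : ℝ) ≤ sbase k := by exact_mod_cast one_le_sbase k
  have hbig : (2 : ℝ) ^ 64 ≤ sbase k := by exact_mod_cast sbase_big k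
  have herr := err_seqw k
  have herr1 : err (seqw k) (sbase k ^ 3) ≤ 1 := herr.trans (by
    rw [div_le_one (by linarith)]
    refine le_trans ?_ hbig
    unfold Ke C₁ Mbd
    norm_num)
  have hH : Hfun (bump (seqw k) (sidx k) T) ≤ Hfun (seqw j) + KE / (sbase k : ℝ) := by
    refine le_of_forall_pos_le_add fun ε hε => ?_
    have h2 := Hfun_le_two hFj (Gfun_seqw j)
    obtain ⟨μ, hμ⟩ := exists_lt_of_ciInf_lt
      (show Hfun (seqw j) < Hfun (seqw j) + min ε 1 by have := lt_min hε one_pos; linarith)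
    have hμle : μ ≤ 4096 := by
      have h1 : pres Abig (seqw j) μ - rho0 * μ < 3 := by linarith [min_le_right ε 1]
      have h3 := hFj.good.pres_lower μ
      have h4 : 0 ≤ ∑' l, seqw j l := tsum_nonneg hFj.weights.nonneg
      unfold rho0 at h1
      linarith
    have hcmp := P171.compare hFk.good (sidx k) hT0 hFb.good hFj.good hab rfl
      (fun i hi => seqw_agree (show k ≤ j by omega) hi) (sbase j ^ 2)
      (fun i hi => by
        rw [seqw_supp j i hi, seqw_supp k i (le_trans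
          (Nat.pow_le_pow_left (sbase_mono (show k ≤ j by omega)) 2) hi)])
      μ (sbase k ^ 3) (Nat.one_le_pow _ _ (one_le_sbase k))
      (by
        have e : ((sidx k : ℝ) + 1) = (sbase k : ℝ) ^ 4 := by exact_mod_cast sidx_succ k
        rw [e]
        push_cast
        have h34 : (sbase k : ℝ) ^ 3 + 4 ≤ 5 * (sbase k : ℝ) ^ 3 := by
          linarith [one_le_pow₀ (n := 3) hb1]
        calc Kp * ((sbase k : ℝ) ^ 3 + 4) ≤ Kp * (5 * (sbase k : ℝ) ^ 3) :=
              mul_le_mul_of_nonneg_left h34 (by unfold Kp; norm_num)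
          _ = 5 * Kp * (sbase k : ℝ) ^ 3 := by ring
          _ ≤ 10000 * (sbase k : ℝ) * (sbase k : ℝ) ^ 3 := by
              refine mul_le_mul_of_nonneg_right ?_ (by positivity)
              unfold Kp
              linarith [(show (10:ℝ) ^ 4 ≤ (2:ℝ) ^ 64 by norm_num)]
          _ = 10000 * (sbase k : ℝ) ^ 4 := by ring)
      herr1
    have e : ((sidx k : ℝ) + 1) = (sbase k : ℝ) ^ 4 := by exact_mod_cast sidx_succ k
    rw [e] at hcmp
    have hE := cmpErr_le (M := Real.exp (μ + 1 + Abig / 2)) (Real.exp_pos _).le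
      (Real.exp_le_exp.2 (by linarith)) hT0 hTM hb1
      (w := ((sbase k ^ 3 : ℕ) : ℝ)) (by push_cast; rfl) herr
    linarith [hFb.Hfun_le μ, min_le_left ε 1]
  have hnear := (Tk_ok k).2.2.2 T hT0 hTb
  rw [seqw_succ]
  unfold Tk at hnear
  unfold Gs at hnear ⊢
  rw [tsum_bump hFk.weights (sidx k) T, hTeq] at hnear
  rw [add_div]
  linarith

lemma Tk_small (k : ℕ) :
    Tk (k + 1) ≤ 4 * (KE + 1) / cc * ((2 : ℝ) ^ k / (sbase k : ℝ)) := by
  have h1 := stage_key (k := k) (j := k + 2) (by omega)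
  have h2 : Gs (k + 1) (seqw (k + 2)) ≤ Gs (k + 1) (seqw (k + 1)) := Gs_step_le (Or.inr le_rfl)
  have e := tsum_seqw_succ (k + 1)
  have hd : cs k - cs (k + 1) = cc / 4 * (1 / 2 : ℝ) ^ k := by unfold cs; rw [pow_succ]; ring
  have h3 : (cs k - cs (k + 1)) * Tk (k + 1) ≤ (KE + 1) / (sbase k : ℝ) := by
    unfold Gs at h1 h2
    rw [show k + 1 + 1 = k + 2 from rfl] at e
    rw [e] at h1 h2
    linarith
  have hc := cc_pos
  rw [hd, one_div, inv_pow] at h3
  have h4 := mul_le_mul_of_nonneg_left h3 (show 0 ≤ 4 / cc * (2 : ℝ) ^ k by positivity)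
  calc Tk (k + 1) = 4 / cc * (2 : ℝ) ^ k * (cc / 4 * ((2 : ℝ) ^ k)⁻¹ * Tk (k + 1)) := by
        field_simp
    _ ≤ _ := h4
    _ = _ := by ring

/-- The weighted mass `Σ_i a_i (i+1)^(1/16)`. -/
noncomputable def wsum (a : ℕ → ℝ) (N : ℕ) : ℝ :=
  ∑ i ∈ Finset.range N, a i * ((i : ℝ) + 1) ^ ((1 : ℝ) / 16)

lemma wsum_seqw_bdd : ∃ B : ℝ, ∀ k N, wsum (seqw k) N ≤ B := by
  set K2 := 4 * (KE + 1) / cc with hK2
  have hK20 : 0 ≤ K2 := by have := KE_nonneg; have := cc_pos; positivity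
  set B0 := (Mbd + 1) * ((sbase 0 : ℝ) ^ 4) ^ ((1 : ℝ) / 16) with hB0
  have hinc : ∀ k N, wsum (seqw (k + 1)) N
      ≤ wsum (seqw k) N + Tk k * ((sbase k : ℝ) ^ 4) ^ ((1 : ℝ) / 16) := by
    intro k N
    have e : ((sidx k : ℝ) + 1) = (sbase k : ℝ) ^ 4 := by exact_mod_cast sidx_succ k
    unfold wsum
    rw [seqw_succ, ← e]
    simp only [P171.bump, add_mul, Finset.sum_add_distrib, ite_mul, zero_mul, Finset.sum_ite_eq']
    gcongr
    split_ifs
    · exact le_rfl
    · exact mul_nonneg (Tk_ok k).1 (by positivity)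
  have hT : ∀ k, Tk (k + 1) * ((sbase (k + 1) : ℝ) ^ 4) ^ ((1 : ℝ) / 16) ≤ K2 * (1 / 2) ^ k := by
    intro k
    set r : ℕ := 2 ^ 2 ^ (k + 5) with hr
    have hrb : sbase k = r ^ 2 := by
      rw [hr, ← pow_mul]; unfold sbase; congr 1
    have hr4 : 4 ^ k ≤ r := by
      rw [hr, show (4 : ℕ) = 2 ^ 2 by norm_num, ← pow_mul]
      refine Nat.pow_le_pow_right two_pos ?_
      calc 2 * k ≤ 2 * 2 ^ k := Nat.mul_le_mul_left 2 Nat.lt_two_pow_self.le
        _ = 2 ^ (k + 1) := by ring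
        _ ≤ _ := Nat.pow_le_pow_right two_pos (by omega)
    have hr0 : (0 : ℝ) < r := by
      have : 0 < r := by rw [hr]; positivity
      exact_mod_cast this
    have epow : ((sbase (k + 1) : ℝ) ^ 4) ^ ((1 : ℝ) / 16) = (r : ℝ) := by
      rw [sbase_succ, hrb]
      push_cast
      rw [← pow_mul, ← pow_mul, ← Real.rpow_natCast, ← Real.rpow_mul hr0.le]
      norm_num
    rw [epow]
    refine (mul_le_mul_of_nonneg_right (Tk_small k) hr0.le).trans ?_
    rw [hrb, mul_assoc]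
    refine mul_le_mul_of_nonneg_left ?_ hK20
    push_cast
    have h4 : (4 : ℝ) ^ k ≤ r := by exact_mod_cast hr4
    rw [one_div, inv_pow, div_mul_eq_mul_div, div_le_iff₀ (by positivity),
      inv_mul_eq_div, le_div_iff₀ (by positivity)]
    calc (2 : ℝ) ^ k * r * 2 ^ k = (4 : ℝ) ^ k * r := by
          rw [show (4 : ℝ) = 2 * 2 by norm_num, mul_pow]; ring
      _ ≤ (r : ℝ) * r := mul_le_mul_of_nonneg_right h4 hr0.le
      _ = (r : ℝ) ^ 2 := by ring
  refine ⟨B0 + 2 * K2, fun k N => ?_⟩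
  have hmain : wsum (seqw (k + 1)) N ≤ B0 + K2 * ∑ i ∈ Finset.range k, (1 / 2 : ℝ) ^ i := by
    induction k with
    | zero =>
      simp only [Finset.range_zero, Finset.sum_empty, mul_zero, add_zero]
      refine (hinc 0 N).trans ?_
      have hz : wsum (seqw 0) N = 0 := Finset.sum_eq_zero fun i _ => zero_mul _
      rw [hz, zero_add, hB0]
      refine mul_le_mul_of_nonneg_right ?_ (by positivity)
      have := (Tk_ok 0).2.1
      have h0 : ∑' l, seqw 0 l = 0 := tsum_zero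
      linarith
    | succ k ih =>
      refine (hinc (k + 1) N).trans ?_
      rw [Finset.sum_range_succ, mul_add]
      linarith [hT k]
  have hstep : wsum (seqw k) N ≤ wsum (seqw (k + 1)) N :=
    Finset.sum_le_sum fun i _ =>
      mul_le_mul_of_nonneg_right (seqw_mono i k.le_succ) (by positivity)
  have hgeo : ∑ i ∈ Finset.range k, (1 / 2 : ℝ) ^ i ≤ 2 := sum_geometric_two_le k
  nlinarith

/-- Some good weights, with a finite weighted mass, give a pressure with a kink. -/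
theorem exists_kink : ∃ a, Good Abig a ∧ (Summable fun i : ℕ => a i * ((i : ℝ) + 1) ^ ((1 : ℝ) / 16)) ∧
    ∃ μ : ℝ, ¬ DifferentiableAt ℝ (pres Abig a) μ := by
  have hF := feas_seqw
  have hbd : ∀ l, BddAbove (Set.range fun n => seqw n l) := fun l => ⟨Mbd, by
    rintro y ⟨n, rfl⟩
    exact le_trans ((hF n).weights.summable.le_tsum l fun j _ => (hF n).weights.nonneg j)
      (total_seqw n)⟩
  set v : ℕ → ℝ := fun l => ⨆ n, seqw n l with hv
  have hlim : ∀ l, Tendsto (fun n => seqw n l) atTop (𝓝 (v l)) := fun l =>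
    tendsto_atTop_ciSup (seqw_mono l) (hbd l)
  have huv : ∀ n l, seqw n l ≤ v l := fun n l => le_ciSup (hbd l) n
  have hv0 : ∀ l, 0 ≤ v l := fun l => le_trans ((hF 0).weights.nonneg l) (huv 0 l)
  have hpart : ∀ N, ∑ l ∈ Finset.range N, v l ≤ Mbd := fun N =>
    le_of_tendsto' (tendsto_finsetSum _ fun l _ => hlim l) fun n =>
      ((hF n).weights.summable.sum_le_tsum _ fun j _ => (hF n).weights.nonneg j).trans (total_seqw n)
  have hvs : Summable v := summable_of_sum_range_le hv0 hpart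
  have hvM : ∑' l, v l ≤ Mbd := Real.tsum_le_of_sum_range_le hv0 hpart
  have hvF : Feas v := ⟨⟨hv0, hvs⟩, by linarith⟩
  obtain ⟨B, hB⟩ := wsum_seqw_bdd
  have hwv : Summable fun i : ℕ => v i * ((i : ℝ) + 1) ^ ((1 : ℝ) / 16) :=
    summable_of_sum_range_le (fun i => mul_nonneg (hv0 i) (by positivity)) fun N =>
      le_of_tendsto' (tendsto_finsetSum _ fun i _ => (hlim i).mul_const _) fun n => hB n N
  have hdiff : Tendsto (fun n => ∑' l, (v l - seqw n l)) atTop (𝓝 0) := by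
    have h := tendsto_tsum_of_dominated_convergence (f := fun n l => v l - seqw n l)
      (g := fun _ => (0 : ℝ)) hvs (fun l => by simpa using (hlim l).const_sub (v l))
      (Filter.Eventually.of_forall fun n l => by
        rw [Real.norm_eq_abs, abs_of_nonneg (sub_nonneg.2 (huv n l))]
        linarith [(hF n).weights.nonneg l])
    simpa using h
  have htot : Tendsto (fun n => ∑' l, seqw n l) atTop (𝓝 (∑' l, v l)) := by
    have := hdiff.const_sub (∑' l, v l)
    rw [sub_zero] at this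
    refine this.congr fun n => ?_
    rw [hvs.tsum_sub (hF n).weights.summable]; ring
  have hTk : Tendsto Tk atTop (𝓝 0) := by
    have := (htot.comp (tendsto_add_atTop_nat 1)).sub htot
    rw [sub_self] at this
    refine this.congr fun n => ?_
    simp only [Function.comp_apply, tsum_seqw_succ]; ring
  have hHlim : Tendsto (fun n => Hfun (seqw n)) atTop (𝓝 (Hfun v)) := by
    set K := C₁ / 2 * Real.exp (4096 + Abig / 2) with hK
    have hlow : Tendsto (fun n => Hfun v - K * ∑' l, (v l - seqw n l)) atTop (𝓝 (Hfun v)) := by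
      simpa using (hdiff.const_mul K).const_sub (Hfun v)
    refine tendsto_of_tendsto_of_tendsto_of_le_of_le' hlow tendsto_const_nhds ?_
      (Filter.Eventually.of_forall fun n => hvF.Hfun_mono (hF n) (huv n))
    have hsmall : Tendsto (fun n => C₁ * (∑' l, (v l - seqw n l)) / 2) atTop (𝓝 0) := by
      simpa using (hdiff.const_mul C₁).div_const 2
    filter_upwards [hsmall.eventually_le_const one_pos] with n hn
    have h1 := Hfun_change hvF (hF n) (huv n) (Gfun_seqw n) hn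
    rw [hK]
    linarith
  refine ⟨v, hvF.good, hwv, ?_⟩
  set f : ℝ → ℝ := fun μ => pres Abig v μ - rho0 * μ with hf
  have hH : Hfun v ≤ 2 :=
    le_of_tendsto' hHlim fun n => Hfun_le_two (hF n) (Gfun_seqw n)
  have hout : ∀ μ, f μ < 3 → μ ∈ Set.Icc (-(3 * 10 ^ 8 : ℝ)) 4096 := by
    intro μ hμ
    have h1 := hvF.good.pres_nonneg μ
    have h2 := hvF.good.pres_lower μ
    have h3 : 0 ≤ ∑' l, v l := tsum_nonneg hvF.weights.nonneg
    simp only [hf] at hμ
    unfold rho0 at hμ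
    constructor <;> linarith
  obtain ⟨μ₁, hμ₁⟩ := exists_lt_of_ciInf_lt (show Hfun v < 3 by linarith)
  have hcont : Continuous f := hvF.good.continuous_pres.sub (by fun_prop)
  obtain ⟨μs, -, hμs⟩ := isCompact_Icc.exists_isMinOn ⟨μ₁, hout μ₁ hμ₁⟩ hcont.continuousOn
  have hall : ∀ μ, f μs ≤ f μ := fun μ => by
    rcases lt_or_ge (f μ) 3 with h | h
    · exact hμs (hout μ h)
    · exact (hμs (hout μ₁ hμ₁)).trans (le_trans hμ₁.le h)
  have hHeq : Hfun v = f μs := le_antisymm (hvF.Hfun_le μs) (le_ciInf hall)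
  refine ⟨μs, fun hdiffble => ?_⟩
  have hd := hdiffble.hasDerivAt
  set d := deriv (pres Abig v) μs
  have hd0 : d - rho0 * 1 = 0 :=
    IsLocalMin.hasDerivAt_eq_zero (f := f) (Filter.Eventually.of_forall hall)
      (hd.sub ((hasDerivAt_id μs).const_mul rho0))
  have hd' : HasDerivAt (pres Abig v) rho0 μs := by
    have : d = rho0 := by linarith
    exact this ▸ hd
  have hbig : C₁ * ((∑' i, v i) + 1) + 2 ≤ Abig := by
    unfold Abig
    have := mul_le_mul_of_nonneg_left (show (∑' i, v i) + 1 ≤ Mbd + 1 by linarith) C₁_pos.le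
    linarith
  obtain ⟨t, ht0, ht1, hk⟩ :=
    kac_upper hvF.good hbig (by unfold rho0; norm_num : (0:ℝ) < rho0) hd'
  set ε := cc * t / 8 with hε
  have hε0 : 0 < ε := by have := cc_pos; positivity
  have h1 := (hk ε hε0)
  have hb_inv : Tendsto (fun k => 1 / (sbase k : ℝ)) atTop (𝓝 0) :=
    tendsto_const_nhds.div_atTop (tendsto_natCast_atTop_atTop.comp tendsto_sbase)
  have hlow : Tendsto (fun k => Hfun (seqw (k + 1)) - cc * Tk k + cc / 2 * t - 1 / (sbase k : ℝ))
      atTop (𝓝 (Hfun v + cc / 2 * t)) := by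
    simpa using (((hHlim.comp (tendsto_add_atTop_nat 1)).sub (hTk.const_mul cc)).add_const
      (cc / 2 * t)).sub hb_inv
  obtain ⟨k, hk1, hk2⟩ := ((tendsto_sidx.eventually h1).and
    (hlow.eventually_const_lt (show Hfun v + cc / 2 * t - ε < Hfun v + cc / 2 * t by linarith))).exists
  have hbk : Feas (bump (seqw k) (sidx k) t) :=
    (hF k).bump _ ht0.le (by linarith [total_seqw k])
  have hbv : Feas (bump v (sidx k) t) := hvF.bump _ ht0.le (by linarith)
  have hmono := hbv.Hfun_mono hbk fun i => by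
    unfold P171.bump; gcongr; exact huv k i
  have hnear := (Tk_ok k).2.2.2 t ht0.le (by linarith [total_seqw k])
  unfold Tk Gs at hnear
  rw [tsum_bump (hF k).weights (sidx k) (stepT k (seqw k)), tsum_bump (hF k).weights (sidx k) t,
    ← seqw_succ] at hnear
  have hcs1 := cs_le k
  have hcs2 := half_cc_le_cs k
  have hT0 := (Tk_ok k).1
  have h2 := hbv.Hfun_le μs
  rw [hHeq] at hk2
  simp only [hf] at hk2
  unfold Tk at hk2 hT0
  have p1 := mul_le_mul_of_nonneg_right hcs1 hT0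
  have p2 := mul_le_mul_of_nonneg_right hcs2 ht0.le
  unfold cc rho0 C₂ at *
  nlinarith

end Vale.Agent.P171
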