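import Mathlib
import Vale.Agent.P171.Minimize

/-!
Translation from the working objects to the objects of `Defs.lean`, and the regularity of the
potential.
-/

open MeasureTheory Filter Topology
open scoped BigOperators ENNReal

namespace Vale.Agent.P171

variable {A : ℝ} {a : ℕ → ℝ}

lemma restrict_cubeTuples (L : ℝ) (n : ℕ) :
    (volume : Measure (Fin n → R3)).restrict (cubeTuples L n)
      = Measure.pi fun _ : Fin n => (volume : Measure R3).restrict (cube L) := by
  rw [← Measure.restrict_pi_pi]
  rfl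

lemma Good.integrableOn_boltzmann (h : Good A a) (L : ℝ) (n : ℕ) :
    IntegrableOn (fun x => Real.exp (-1 * pairEnergy (pot A a) n x)) (cubeTuples L n) := by
  rw [IntegrableOn, restrict_cubeTuples]
  have heq : (fun x => Real.exp (-1 * pairEnergy (pot A a) n x))
      = fun x : Fin n → R3 => Real.exp (-energy A a x) := by
    funext x; rw [pairEnergy_eq_energy, neg_one_mul]
  rw [heq]
  refine Integrable.of_bound (measurable_energy A h.weights n).neg.exp.aestronglyMeasurable
    (Real.exp (A / 2 * n)) (Filter.Eventually.of_forall fun x => ?_)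
  rw [Real.norm_eq_abs, abs_of_pos (Real.exp_pos _)]
  exact Real.exp_le_exp.2 (by linarith [h.energy_ge_scount x, scount_nonneg cell x])

lemma Good.gz_term (h : Good A a) (L : ℝ) {z : ℝ} (hz : 0 < z) (n : ℕ) :
    ((n.factorial : ℝ≥0∞)⁻¹ * ∫⁻ x, ENNReal.ofReal (Real.exp (ex A a (Real.log z) n x))
        ∂(Measure.pi fun _ : Fin n => (volume : Measure R3).restrict (cube L))).toReal
      = z ^ n * canonicalZ (pot A a) 1 L n := by
  unfold canonicalZ
  have hint := h.integrableOn_boltzmann L n
  rw [IntegrableOn] at hint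
  rw [restrict_cubeTuples] at hint ⊢
  rw [integral_eq_lintegral_of_nonneg_ae (Filter.Eventually.of_forall fun _ => (Real.exp_pos _).le)
    hint.1]
  have hpt : ∀ x : Fin n → R3, ENNReal.ofReal (Real.exp (ex A a (Real.log z) n x))
      = ENNReal.ofReal (z ^ n)
        * ENNReal.ofReal (Real.exp (-1 * pairEnergy (pot A a) n x)) := by
    intro x
    rw [← ENNReal.ofReal_mul (by positivity), pairEnergy_eq_energy]
    congr 1
    rw [ex, show Real.log z * n - energy A a x = (n : ℝ) * Real.log z + -1 * energy A a x by ring,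
      Real.exp_add, Real.exp_nat_mul, Real.exp_log hz]
  simp only [hpt]
  rw [lintegral_const_mul' _ _ ENNReal.ofReal_ne_top, ENNReal.toReal_mul, ENNReal.toReal_mul,
    ENNReal.toReal_inv, ENNReal.toReal_natCast, ENNReal.toReal_ofReal (by positivity)]
  ring

lemma Good.summable_grand (h : Good A a) (L : ℝ) {z : ℝ} (hz : 0 < z) :
    Summable fun n => z ^ n * canonicalZ (pot A a) 1 L n := by
  simp only [← h.gz_term L hz]
  exact ENNReal.summable_toReal (h.gz_ex_ne_top _ _)

lemma Good.log_grandZ (h : Good A a) (L : ℝ) {z : ℝ} (hz : 0 < z) :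
    Real.log (grandZ (pot A a) 1 z L) = lz A a (Real.log z) L := by
  have hne := h.gz_ex_ne_top (volume.restrict (cube L)) (Real.log z)
  unfold lz elog grandZ gz at *
  rw [ENNReal.tsum_toReal_eq fun n => ENNReal.ne_top_of_tsum_ne_top hne n]
  simp only [h.gz_term L hz]

lemma Good.isStable (h : Good A a) : IsStable (pot A a) := by
  refine ⟨A / 2, fun n x _ => ?_⟩
  rw [pairEnergy_eq_energy]
  linarith [h.energy_ge_scount x, scount_nonneg cell x]

lemma Good.isTempered (h : Good A a) : IsTempered (pot A a) :=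
  ⟨1, 1, 4, one_pos, one_pos, by norm_num, fun r hr =>
    (pot_nonpos A h.weights hr).trans (by
      have : 0 < r := by linarith
      positivity)⟩

lemma abs_pot_le (hA : 0 ≤ A) (ha : Weights a) (r : ℝ) :
    |pot A a r| ≤ A * core r + attr a r := by
  refine (abs_sub _ _).trans_eq ?_
  rw [abs_of_nonneg (mul_nonneg hA (show 0 ≤ core r from eta_nonneg _)), abs_of_nonneg (attr_nonneg ha r)]

lemma Good.power_decay (h : Good A a)
    (hw : Summable fun i : ℕ => a i * ((i : ℝ) + 1) ^ ((1 : ℝ) / 16)) :
    ∃ C : ℝ, ∀ r, 0 < r → |pot A a r| ≤ C * r ^ ((-3 : ℝ) - 1 / 16) := by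
  set e : ℝ := 49 / 16 with he
  refine ⟨A * 4 ^ e + 48 ^ e * ∑' i : ℕ, a i * ((i : ℝ) + 1) ^ ((1 : ℝ) / 16), fun r hr => ?_⟩
  have hre : 0 < r ^ e := Real.rpow_pos_of_pos hr e
  rw [show (-3 : ℝ) - 1 / 16 = -e by rw [he]; norm_num, Real.rpow_neg hr.le, ← div_eq_mul_inv,
    le_div_iff₀ hre]
  refine (mul_le_mul_of_nonneg_right (abs_pot_le h.A_nonneg h.weights r) hre.le).trans ?_
  rw [add_mul, mul_assoc]
  refine add_le_add (mul_le_mul_of_nonneg_left ?_ h.A_nonneg) ?_
  · rcases le_or_gt r 4 with h4 | h4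
    · calc core r * r ^ e ≤ 1 * 4 ^ e := by
            refine mul_le_mul (eta_le_one _) (Real.rpow_le_rpow hr.le h4 (by rw [he]; norm_num))
              hre.le zero_le_one
        _ = 4 ^ e := one_mul _
    · rw [core, eta_eq_zero (by linarith), zero_mul]; positivity
  · unfold attr
    rw [← tsum_mul_right, ← tsum_mul_left]
    refine Summable.tsum_le_tsum (fun l => ?_) ((h.weights.summable_prof r).mul_right _)
      (hw.mul_left _)
    rw [mul_left_comm ((48 : ℝ) ^ e) (a l), mul_assoc]
    refine mul_le_mul_of_nonneg_left ?_ (h.weights.nonneg l)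
    have hq : (0 : ℝ) < (l : ℝ) + 1 := by positivity
    rcases le_or_gt r (48 * ((l : ℝ) + 1)) with h4 | h4
    · calc prof l r * r ^ e
          ≤ 1 / ((l : ℝ) + 1) ^ 3 * (48 * ((l : ℝ) + 1)) ^ e :=
            mul_le_mul (prof_le l r) (Real.rpow_le_rpow hr.le h4 (by rw [he]; norm_num)) hre.le
              (by positivity)
        _ = 48 ^ e * ((l : ℝ) + 1) ^ ((1 : ℝ) / 16) := by
            rw [Real.mul_rpow (by norm_num) hq.le,
              show e = (1 : ℝ) / 16 + (3 : ℕ) by rw [he]; norm_num,
              Real.rpow_add hq, Real.rpow_natCast]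
            field_simp
    · rw [prof_eq_zero h4.le, zero_mul]; positivity

lemma lintegral_profile_le {R B : ℝ} (hR : 0 ≤ R) (f : ℝ → ℝ) (hB : ∀ r, f r ≤ B)
    (hsupp : ∀ r, R ≤ r → f r ≤ 0) :
    ∫⁻ x : R3, ENNReal.ofReal (f ‖x‖) ≤ ENNReal.ofReal B * ENNReal.ofReal ((2 * R) ^ 3) := by
  set D : Set R3 := (fun y => y + vec fun _ => R) ⁻¹' cube (2 * R) with hD
  have hDm : MeasurableSet D := (measurable_add_const _) (measurableSet_cube _)
  have hvol : volume D = ENNReal.ofReal ((2 * R) ^ 3) := by
    rw [hD, measure_preimage_add_right, volume_cube (by positivity)]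
  rw [← hvol, ← lintegral_indicator_const hDm]
  refine lintegral_mono fun x => ?_
  by_cases hx : x ∈ D
  · rw [Set.indicator_of_mem hx]
    exact ENNReal.ofReal_le_ofReal (hB _)
  · rw [Set.indicator_of_notMem hx, ENNReal.ofReal_of_nonpos]
    refine hsupp _ (le_of_not_gt fun hlt => hx fun k => ?_)
    have hk : |x k| ≤ ‖x‖ := by rw [← Real.norm_eq_abs]; exact PiLp.norm_apply_le x k
    have hk' := abs_le.1 (hk.trans hlt.le)
    simp only [PiLp.add_apply, vec_apply, Set.mem_Icc]
    constructor <;> linarith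

lemma Good.integrable_pot (h : Good A a) : Integrable (fun x : R3 => pot A a ‖x‖) := by
  have hcont := (continuous_pot A h.weights).comp (continuous_norm (E := R3))
  refine ⟨hcont.aestronglyMeasurable, ?_⟩
  rw [hasFiniteIntegral_iff_norm]
  have hpt : ∀ x : R3, ENNReal.ofReal ‖pot A a ‖x‖‖
      ≤ ENNReal.ofReal (A * core ‖x‖) + ∑' l, ENNReal.ofReal (a l * prof l ‖x‖) := by
    intro x
    rw [← ENNReal.ofReal_tsum_of_nonneg
      (fun l => mul_nonneg (h.weights.nonneg l) (prof_nonneg l _)) (h.weights.summable_prof _),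
      ← ENNReal.ofReal_add (mul_nonneg h.A_nonneg (show 0 ≤ core ‖x‖ from eta_nonneg _))
        (tsum_nonneg fun l => mul_nonneg (h.weights.nonneg l) (prof_nonneg l _))]
    exact ENNReal.ofReal_le_ofReal (abs_pot_le h.A_nonneg h.weights _)
  have hm1 : Measurable fun x : R3 => ENNReal.ofReal (A * core ‖x‖) :=
    ((continuous_core.comp continuous_norm).const_mul A).measurable.ennreal_ofReal
  have hm2 : ∀ l, AEMeasurable (fun x : R3 => ENNReal.ofReal (a l * prof l ‖x‖)) volume :=
    fun l => (((continuous_prof l).comp continuous_norm).const_mul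
      (a l)).measurable.ennreal_ofReal.aemeasurable
  refine lt_of_le_of_lt (lintegral_mono hpt) ?_
  rw [lintegral_add_left hm1, lintegral_tsum hm2]
  refine ENNReal.add_lt_top.2 ⟨?_, ?_⟩
  · refine lt_of_le_of_lt (lintegral_profile_le (R := 4) (B := A) (by norm_num)
      (fun r => A * core r) (fun r => mul_le_of_le_one_right h.A_nonneg (eta_le_one _))
      fun r hr => ?_) (by finiteness)
    rw [core, eta_eq_zero (by linarith), mul_zero]
  · have hs := h.weights.summable.mul_right ((96 : ℝ) ^ 3)
    refine lt_of_le_of_lt (ENNReal.tsum_le_tsum (g := fun l => ENNReal.ofReal (a l * 96 ^ 3))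
      fun l => ?_) ?_
    · refine (lintegral_profile_le (R := 48 * ((l : ℝ) + 1)) (B := a l / ((l : ℝ) + 1) ^ 3)
        (by positivity) (fun r => a l * prof l r) (fun r => ?_) (fun r hr => ?_)).trans_eq ?_
      · rw [div_eq_mul_one_div]
        exact mul_le_mul_of_nonneg_left (prof_le l r) (h.weights.nonneg l)
      · rw [prof_eq_zero hr, mul_zero]
      · rw [← ENNReal.ofReal_mul (div_nonneg (h.weights.nonneg l) (by positivity))]
        congr 1
        field_simp
        ring
    · rw [← ENNReal.ofReal_tsum_of_nonneg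
        (fun l => mul_nonneg (h.weights.nonneg l) (by positivity)) hs]
      exact ENNReal.ofReal_lt_top

end Vale.Agent.P171
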